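import Mathlib

/-!
# P229: staged sums of bumps converge in `C^∞`

`exists_eps` gives amplitudes `ε n` such that every series `∑ a n • φ n` with `|a n| ≤ ε n` is smooth;
`tail_le` bounds each derivative of such a series after the first stages.
-/

open scoped ContDiff
open Filter Function

namespace Vale.Agent.P229

variable {E F : Type*} [NormedAddCommGroup E] [NormedSpace ℝ E]
  [NormedAddCommGroup F] [NormedSpace ℝ F]

theorem exists_deriv_bound {φ : E → F} (hφ : ContDiff ℝ ∞ φ) (hs : HasCompactSupport φ) (N : ℕ) :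
    ∃ C : ℝ, 0 < C ∧ ∀ k ≤ N, ∀ x, ‖iteratedFDeriv ℝ k φ x‖ ≤ C := by
  have h : ∀ k : ℕ, ∃ C, ∀ x, ‖iteratedFDeriv ℝ k φ x‖ ≤ C := fun k =>
    (hs.iteratedFDeriv k).exists_bound_of_continuous
      (hφ.continuous_iteratedFDeriv (mod_cast le_top))
  choose C hC using h
  refine ⟨1 + ∑ k ∈ Finset.range (N + 1), |C k|, by positivity, fun k hk x => ?_⟩
  have h1 : |C k| ≤ ∑ j ∈ Finset.range (N + 1), |C j| :=
    Finset.single_le_sum (f := fun j => |C j|) (fun j _ => abs_nonneg _)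
      (Finset.mem_range_succ_iff.2 hk)
  linarith [hC k x, le_abs_self (C k)]

/-- Amplitudes `a n` are admissible for the stages `φ n` when all derivatives up to order `n` of
`a n • φ n` are at most `2⁻ⁿ`. -/
def Admissible (φ : ℕ → E → F) (a : ℕ → ℝ) : Prop :=
  ∀ n k, k ≤ n → ∀ x, ‖iteratedFDeriv ℝ k (a n • φ n) x‖ ≤ (1 / 2 : ℝ) ^ n

theorem exists_eps {φ : ℕ → E → F} (hφ : ∀ n, ContDiff ℝ ∞ (φ n))
    (hs : ∀ n, HasCompactSupport (φ n)) :
    ∃ ε : ℕ → ℝ, (∀ n, 0 < ε n) ∧ ∀ a : ℕ → ℝ, (∀ n, |a n| ≤ ε n) → Admissible φ a := by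
  choose C hC0 hC using fun n => exists_deriv_bound (hφ n) (hs n) n
  refine ⟨fun n => (1 / 2 : ℝ) ^ n / C n, fun n => div_pos (by positivity) (hC0 n),
    fun a ha n k hk x => ?_⟩
  rw [iteratedFDeriv_const_smul_apply ((hφ n).of_le (mod_cast le_top)).contDiffAt, norm_smul,
    Real.norm_eq_abs]
  calc |a n| * ‖iteratedFDeriv ℝ k (φ n) x‖ ≤ (1 / 2 : ℝ) ^ n / C n * C n :=
        mul_le_mul (ha n) (hC n k hk x) (norm_nonneg _) (div_nonneg (by positivity) (hC0 n).le)
    _ = _ := div_mul_cancel₀ _ (hC0 n).ne'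

namespace Admissible

variable [CompleteSpace F] {φ : ℕ → E → F} {a : ℕ → ℝ}

theorem summable_geom : Summable fun n : ℕ => (1 / 2 : ℝ) ^ n :=
  summable_geometric_of_lt_one (by norm_num) (by norm_num)

theorem contDiff_tsum (h : Admissible φ a) (hφ : ∀ n, ContDiff ℝ ∞ (φ n)) :
    ContDiff ℝ ∞ fun x => ∑' n, a n • φ n x := by
  refine contDiff_tsum_of_eventually (v := fun _ n => (1 / 2 : ℝ) ^ n)
    (fun n => (hφ n).const_smul (a n)) (fun _ _ => summable_geom) fun k _ => ?_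
  rw [Nat.cofinite_eq_atTop]
  filter_upwards [eventually_ge_atTop k] with n hn x using h n k hn x

theorem summable (h : Admissible φ a) (x : E) : Summable fun n => a n • φ n x :=
  .of_norm_bounded summable_geom fun n => by
    simpa [norm_iteratedFDeriv_zero] using h n 0 n.zero_le x

/-- Everything after stage `N` moves each derivative of order at most `N` by at most `2 * 2⁻ᴺ`. -/
theorem tail_le (h : Admissible φ a) (hφ : ∀ n, ContDiff ℝ ∞ (φ n)) {N k : ℕ} (hk : k ≤ N)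
    (x : E) : ‖iteratedFDeriv ℝ k (fun y => ∑' n, a (n + N) • φ (n + N) y) x‖
      ≤ 2 * (1 / 2 : ℝ) ^ N := by
  have hb : ∀ j : ℕ, j ≤ k → ∀ n z,
      ‖iteratedFDeriv ℝ j (fun y => a (n + N) • φ (n + N) y) z‖ ≤ (1 / 2 : ℝ) ^ N * (1 / 2) ^ n :=
    fun j hj n z => (h (n + N) j (by omega) z).trans_eq (by rw [pow_add, mul_comm])
  rw [iteratedFDeriv_tsum_apply (N := (k : ℕ∞)) (v := fun _ n => (1 / 2 : ℝ) ^ N * (1 / 2) ^ n)
    (fun n => ((hφ (n + N)).const_smul _).of_le (mod_cast le_top))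
    (fun _ _ => summable_geom.mul_left _) (fun j n z hj => hb j (mod_cast hj) n z) le_rfl]
  refine (tsum_of_norm_bounded (summable_geom.mul_left _).hasSum fun n => hb k le_rfl n x).trans ?_
  rw [tsum_mul_left, tsum_geometric_two, mul_comm]

theorem split (h : Admissible φ a) (N : ℕ) (x : E) :
    ∑' n, a n • φ n x = ∑ n ∈ Finset.range N, a n • φ n x + ∑' n, a (n + N) • φ (n + N) x :=
  ((h.summable x).sum_add_tsum_nat_add N).symm

end Admissible

omit [NormedAddCommGroup E] [NormedSpace ℝ E] in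
/-- Where only stage `m` is active the staged sum is that stage. -/
theorem tsum_eq_stage (φ : ℕ → E → F) (a : ℕ → ℝ) {m : ℕ} {U : Set E}
    (hU : ∀ n, n ≠ m → ∀ x ∈ U, φ n x = 0) {x : E} (hx : x ∈ U) :
    ∑' n, a n • φ n x = a m • φ m x :=
  tsum_eq_single m fun n hn => by rw [hU n hn x hx, smul_zero]

end Vale.Agent.P229
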