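import Vale.Agent.P229.Defs
import Vale.Agent.P229.Staged

/-!
# P229: the global construction from the main lemma

`MainLemma k` says: for every square, every small spot inside it and all bounds `M, δ, m` some
perturbation supported in the double square, of `C^m` size at most `δ`, leaves no `C^k` isometric
immersion with derivative bound `M`. `target_of_mainLemma` is the staged construction.
-/

open scoped ContDiff RealInnerProductSpace
open Filter Topology Function Set Metric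

namespace Vale.Agent.P229

/-- The derivatives of orders `1..k` of `F` are bounded by `M` on `U`. -/
def DerivBound (k : ℕ) (M : ℝ) (U : Set Pl) (F : Pl → R3) : Prop :=
  ∀ j, 1 ≤ j → j ≤ k → ∀ x ∈ U, ‖iteratedFDeriv ℝ j F x‖ ≤ M

/-- The Euclidean metric minus the spot `σ`, plus the perturbation `(p, q, w)`. -/
def spotted (σ p q w : Pl → ℝ) : Met :=
  ⟨fun x => 1 - σ x + p x, q, fun x => 1 - σ x + w x⟩

/-- The main lemma for one square (`ball c r`, in the sup norm), inside the square `ball c (2 r)`. -/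
def MainLemma (k : ℕ) : Prop :=
  ∀ (c : Pl) (r : ℝ) (σ : Pl → ℝ) (M : ℝ) (m : ℕ) (δ : ℝ),
    0 < r → ContDiff ℝ ∞ σ → (∀ x, 0 ≤ σ x) → (∀ x, σ x ≤ 1 / 4) → 0 < σ c →
    tsupport σ ⊆ ball c r → 0 < δ →
    ∃ p q w : Pl → ℝ, ContDiff ℝ ∞ p ∧ ContDiff ℝ ∞ q ∧ ContDiff ℝ ∞ w ∧
      tsupport p ⊆ ball c (2 * r) ∧ tsupport q ⊆ ball c (2 * r) ∧ tsupport w ⊆ ball c (2 * r) ∧
      (∀ j ≤ m, ∀ x, ‖iteratedFDeriv ℝ j p x‖ ≤ δ ∧ ‖iteratedFDeriv ℝ j q x‖ ≤ δ ∧
        ‖iteratedFDeriv ℝ j w x‖ ≤ δ) ∧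
      ∀ F : Pl → R3, ContDiffOn ℝ k F (ball c (2 * r)) → DerivBound k M (ball c (2 * r)) F →
        ¬ IsIsometric (spotted σ p q w) (ball c (2 * r)) F

/-- The centres of the stages. -/
noncomputable def ctr (n : ℕ) : Pl := ((1 / 2 : ℝ) ^ n, 0)

/-- The half sides of the stages. -/
noncomputable def rad (n : ℕ) : ℝ := (1 / 2 : ℝ) ^ n / 16

theorem rad_pos (n : ℕ) : 0 < rad n := by unfold rad; positivity

theorem ball_disjoint {i j : ℕ} (h : i ≠ j) :
    Disjoint (ball (ctr i) (2 * rad i)) (ball (ctr j) (2 * rad j)) := by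
  refine ball_disjoint_ball ?_
  wlog hij : i < j generalizing i j
  · rw [add_comm, dist_comm]
    exact this h.symm (lt_of_le_of_ne (not_lt.1 hij) h.symm)
  have h0 : (0 : ℝ) < (1 / 2) ^ i := by positivity
  have h1 : (1 / 2 : ℝ) ^ j ≤ (1 / 2) ^ i * (1 / 2) := by
    rw [← pow_succ]
    exact pow_le_pow_of_le_one (by norm_num) (by norm_num) (Nat.succ_le_of_lt hij)
  refine le_trans ?_ ((le_abs_self _).trans (le_max_left _ _))
  simp only [ctr, rad]
  linarith [(by positivity : (0 : ℝ) < (1 / 2) ^ j)]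

theorem stageBall_subset (n : ℕ) :
    ball (ctr n) (2 * rad n) ⊆ closedBall 0 (2 * (1 / 2 : ℝ) ^ n) := by
  refine Metric.ball_subset_closedBall.trans (closedBall_subset_closedBall' ?_)
  have h : dist (ctr n) (0 : Pl) = (1 / 2 : ℝ) ^ n := by
    simp [ctr]
  rw [h, rad]
  linarith [(by positivity : (0 : ℝ) < (1 / 2) ^ n)]

theorem hasCompactSupport_of_ball {f : Pl → ℝ} {c : Pl} {r : ℝ} (h : tsupport f ⊆ ball c r) :
    HasCompactSupport f :=
  (isCompact_closedBall c r).of_isClosed_subset (isClosed_tsupport f)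
    (h.trans Metric.ball_subset_closedBall)

theorem exists_spot (n : ℕ) :
    ∃ σ : Pl → ℝ, ContDiff ℝ ∞ σ ∧ (∀ x, 0 ≤ σ x) ∧ (∀ x, σ x ≤ 1 / 4) ∧ 0 < σ (ctr n) ∧
      tsupport σ ⊆ ball (ctr n) (rad n) ∧
      ∀ j ≤ n, ∀ x, ‖iteratedFDeriv ℝ j σ x‖ ≤ (1 / 2 : ℝ) ^ n / 16 := by
  have h0 := rad_pos n
  let b : ContDiffBump (ctr n) := ⟨rad n / 4, rad n / 2, by linarith, by linarith⟩
  obtain ⟨C, hC, hb⟩ := exists_deriv_bound (b.contDiff (n := (⊤ : ℕ∞))) b.hasCompactSupport n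
  set a : ℝ := min (1 / 4) ((1 / 2 : ℝ) ^ n / 16 / C) with ha
  have ha0 : 0 < a := lt_min (by norm_num) (by positivity)
  refine ⟨a • (b : Pl → ℝ), b.contDiff.const_smul a, fun x => mul_nonneg ha0.le b.nonneg,
    fun x => ?_, ?_, ?_, fun j hj x => ?_⟩
  · calc a * b x ≤ a * 1 := mul_le_mul_of_nonneg_left b.le_one ha0.le
      _ ≤ 1 / 4 := by rw [mul_one]; exact min_le_left _ _
  · show 0 < a * b (ctr n)
    rw [b.one_of_mem_closedBall (mem_closedBall_self b.rIn_pos.le), mul_one]; exact ha0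
  · refine (tsupport_smul_subset_right (fun _ : Pl => a) (b : Pl → ℝ)).trans ?_
    rw [b.tsupport_eq]
    exact closedBall_subset_ball (show rad n / 2 < rad n by linarith)
  · rw [iteratedFDeriv_const_smul_apply b.contDiff.contDiffAt, norm_smul, Real.norm_eq_abs,
      abs_of_pos ha0]
    calc a * _ ≤ (1 / 2 : ℝ) ^ n / 16 / C * C :=
          mul_le_mul (min_le_right _ _) (hb j hj x) (norm_nonneg _) (by positivity)
      _ = _ := div_mul_cancel₀ _ hC.ne'

/-- One coefficient of a staged metric. -/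
noncomputable def stageSum (φ : ℕ → Pl → ℝ) (x : Pl) : ℝ := ∑' n, (1 : ℝ) • φ n x

theorem stageSum_spec {φ : ℕ → Pl → ℝ} (hφ : ∀ n, ContDiff ℝ ∞ (φ n))
    (hs : ∀ n, tsupport (φ n) ⊆ ball (ctr n) (2 * rad n))
    (hb : ∀ n j, j ≤ n → ∀ x, ‖iteratedFDeriv ℝ j (φ n) x‖ ≤ (1 / 2 : ℝ) ^ n / 8) :
    ContDiff ℝ ∞ (stageSum φ) ∧ (∀ n, ∀ x ∈ ball (ctr n) (2 * rad n), stageSum φ x = φ n x) ∧
      ∀ x, |stageSum φ x| ≤ 1 / 4 := by
  have hA : Admissible φ (fun _ => 1) := fun n k hk x => by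
    rw [one_smul]
    exact (hb n k hk x).trans (by linarith [(by positivity : (0 : ℝ) ≤ (1 / 2) ^ n)])
  refine ⟨hA.contDiff_tsum hφ, fun n x hx => ?_, fun x => ?_⟩
  · rw [stageSum, tsum_eq_stage φ (fun _ => 1) (fun i hi y hy => ?_) hx, one_smul]
    exact image_eq_zero_of_notMem_tsupport fun h =>
      Set.disjoint_left.1 (ball_disjoint hi) (hs i h) hy
  · rw [← Real.norm_eq_abs]
    refine (tsum_of_norm_bounded (Admissible.summable_geom.div_const 8).hasSum
      fun n => ?_).trans ?_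
    · simpa [norm_iteratedFDeriv_zero] using hb n 0 n.zero_le x
    · rw [tsum_div_const, tsum_geometric_two]; norm_num

theorem DerivBound.exists_of_compact {k : ℕ} {U K : Set Pl} (hU : IsOpen U) (hK : IsCompact K)
    (hKU : K ⊆ U) {F : Pl → R3} (hF : ContDiffOn ℝ k F U) : ∃ M : ℝ, DerivBound k M K F := by
  have h : ∀ j, j ≤ k → ∃ C, ∀ x ∈ K, ‖iteratedFDeriv ℝ j F x‖ ≤ C := fun j hj =>
    hK.exists_bound_of_continuousOn ((ContinuousOn.congr
      (hF.continuousOn_iteratedFDerivWithin (mod_cast hj) hU.uniqueDiffOn)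
      fun x hx => ((iteratedFDerivWithin_of_isOpen j hU) hx).symm).mono hKU)
  choose C hC using h
  refine ⟨∑ j : Fin (k + 1), |C j (Nat.lt_succ_iff.1 j.2)|, fun j _ hj x hx => ?_⟩
  refine ((hC j hj x hx).trans (le_abs_self _)).trans ?_
  exact Finset.single_le_sum (f := fun j : Fin (k + 1) => |C j (Nat.lt_succ_iff.1 j.2)|)
    (fun _ _ => abs_nonneg _) (Finset.mem_univ (⟨j, Nat.lt_succ_of_le hj⟩ : Fin (k + 1)))

theorem target_of_mainLemma {k : ℕ} (H : MainLemma k) : Target (k : ℕ∞) := by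
  choose σ hσ hσ0 hσ4 hσc hσs hσb using exists_spot
  choose p q w hp hq hw hps hqs hws hb hF using fun n : ℕ =>
    H (ctr n) (rad n) (σ n) n n ((1 / 2 : ℝ) ^ n / 16) (rad_pos n) (hσ n) (hσ0 n) (hσ4 n)
      (hσc n) (hσs n) (by positivity)
  have hsr : ∀ n, tsupport (σ n) ⊆ ball (ctr n) (2 * rad n) := fun n =>
    (hσs n).trans (ball_subset_ball (by linarith [rad_pos n]))
  have key : ∀ f : ℕ → Pl → ℝ, (∀ n, ContDiff ℝ ∞ (f n)) →
      (∀ n, tsupport (f n) ⊆ ball (ctr n) (2 * rad n)) →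
      (∀ n j, j ≤ n → ∀ x, ‖iteratedFDeriv ℝ j (f n) x‖ ≤ (1 / 2 : ℝ) ^ n / 16) →
      ContDiff ℝ ∞ (stageSum fun n => f n - σ n) ∧
        (∀ n, ∀ x ∈ ball (ctr n) (2 * rad n),
          stageSum (fun n => f n - σ n) x = f n x - σ n x) ∧
        ∀ x, |stageSum (fun n => f n - σ n) x| ≤ 1 / 4 := fun f hf hfs hfb =>
    stageSum_spec (fun n => (hf n).sub (hσ n))
      (fun n => (tsupport_sub (f n) (σ n)).trans (union_subset (hfs n) (hsr n)))
      (fun n j hj x => by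
        rw [iteratedFDeriv_sub ((hf n).of_le (mod_cast le_top))
          ((hσ n).of_le (mod_cast le_top))]
        exact (norm_sub_le _ _).trans (by linarith [hfb n j hj x, hσb n j hj x]))
  obtain ⟨he, hee, heb⟩ := key p hp hps fun n j hj x => (hb n j hj x).1
  obtain ⟨hg, hge, hgb⟩ := key w hw hws fun n j hj x => (hb n j hj x).2.2
  obtain ⟨hf, hfe, hfb⟩ := stageSum_spec hq hqs fun n j hj x =>
    (hb n j hj x).2.1.trans (by linarith [(by positivity : (0 : ℝ) ≤ (1 / 2) ^ n)])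
  let m : Met := ⟨fun x => 1 + stageSum (fun n => p n - σ n) x, stageSum q,
    fun x => 1 + stageSum (fun n => w n - σ n) x⟩
  refine ⟨m, ⟨contDiff_const.add he, hf, contDiff_const.add hg, fun x => ?_⟩,
    fun U hU h0 hR => ?_⟩
  · have h1 : 3 / 4 ≤ 1 + stageSum (fun n => p n - σ n) x := by linarith [abs_le.1 (heb x)]
    have h2 : 3 / 4 ≤ 1 + stageSum (fun n => w n - σ n) x := by linarith [abs_le.1 (hgb x)]
    have h3 := hfb x
    have h4 : (stageSum q x) ^ 2 ≤ 1 / 16 := by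
      rw [← sq_abs]; nlinarith [abs_nonneg (stageSum q x)]
    refine ⟨by show 0 < _; linarith, ?_⟩
    show 0 < (1 + stageSum _ x) * (1 + stageSum _ x) - stageSum q x ^ 2
    nlinarith
  · obtain ⟨X, hX, hiso⟩ := hR
    obtain ⟨ρ, hρ, hρU⟩ := Metric.isOpen_iff.1 hU 0 h0
    have hKU : closedBall (0 : Pl) (ρ / 2) ⊆ U :=
      (closedBall_subset_ball (by linarith)).trans hρU
    obtain ⟨M, hM⟩ := DerivBound.exists_of_compact hU (isCompact_closedBall _ _) hKU hX
    obtain ⟨n, hn1, hn2⟩ : ∃ n : ℕ, M ≤ n ∧ 2 * (1 / 2 : ℝ) ^ n ≤ ρ / 2 := by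
      have e : Tendsto (fun n : ℕ => 2 * (1 / 2 : ℝ) ^ n) atTop (𝓝 0) := by
        simpa using (tendsto_pow_atTop_nhds_zero_of_lt_one (by norm_num : (0 : ℝ) ≤ 1 / 2)
          (by norm_num)).const_mul 2
      exact ((tendsto_natCast_atTop_atTop.eventually_ge_atTop M).and
        (e.eventually (ge_mem_nhds (by linarith)))).exists
    have hsub : ball (ctr n) (2 * rad n) ⊆ closedBall 0 (ρ / 2) :=
      (stageBall_subset n).trans (closedBall_subset_closedBall hn2)
    refine hF n X (hX.mono (hsub.trans hKU))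
      (fun j h1 h2 x hx => (hM j h1 h2 x (hsub hx)).trans hn1) fun x hx => ?_
    obtain ⟨a, b, c⟩ := hiso x (hKU (hsub hx))
    exact ⟨a.trans (by simp only [spotted, m, hee n x hx]; ring),
      b.trans (hfe n x hx), c.trans (by simp only [spotted, m, hge n x hx]; ring)⟩

end Vale.Agent.P229
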