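import Vale.Agent.P229.Defs

/-!
# P229: common definitions (partial derivatives, discs, bounds, curvature, islands)
-/

open scoped ContDiff RealInnerProductSpace

namespace Vale.Agent.P229

/-- Partial derivative in the first variable. -/
noncomputable def d1 {F : Type*} [NormedAddCommGroup F] [NormedSpace ℝ F] (f : Pl → F) (x : Pl) : F :=
  fderiv ℝ f x (1, 0)

/-- Partial derivative in the second variable. -/
noncomputable def d2 {F : Type*} [NormedAddCommGroup F] [NormedSpace ℝ F] (f : Pl → F) (x : Pl) : F :=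
  fderiv ℝ f x (0, 1)

/-- The square of the Euclidean norm. -/
def nsq (x : Pl) : ℝ := x.1 ^ 2 + x.2 ^ 2

/-- The open Euclidean disc of radius `R` round the origin. -/
def disc (R : ℝ) : Set Pl := {x | nsq x < R ^ 2}

/-- The closed Euclidean annulus. -/
def ring' (a b : ℝ) : Set Pl := {x | a ^ 2 ≤ nsq x ∧ nsq x ≤ b ^ 2}

/-- All derivatives up to order `k` are at most `C` on `U`. -/
def BdOn {F : Type*} [NormedAddCommGroup F] [NormedSpace ℝ F]
    (U : Set Pl) (k : ℕ) (C : ℝ) (f : Pl → F) : Prop :=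
  ∀ j ≤ k, ∀ x ∈ U, ‖iteratedFDeriv ℝ j f x‖ ≤ C

namespace Met

/-- The determinant. -/
def det (m : Met) (x : Pl) : ℝ := m.e x * m.g x - m.f x ^ 2

noncomputable def c111 (m : Met) (x : Pl) : ℝ :=
  (m.g x * d1 m.e x - 2 * m.f x * d1 m.f x + m.f x * d2 m.e x) / (2 * m.det x)
noncomputable def c211 (m : Met) (x : Pl) : ℝ :=
  (2 * m.e x * d1 m.f x - m.e x * d2 m.e x - m.f x * d1 m.e x) / (2 * m.det x)
noncomputable def c112 (m : Met) (x : Pl) : ℝ :=
  (m.g x * d2 m.e x - m.f x * d1 m.g x) / (2 * m.det x)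
noncomputable def c212 (m : Met) (x : Pl) : ℝ :=
  (m.e x * d1 m.g x - m.f x * d2 m.e x) / (2 * m.det x)
noncomputable def c122 (m : Met) (x : Pl) : ℝ :=
  (2 * m.g x * d2 m.f x - m.g x * d1 m.g x - m.f x * d2 m.g x) / (2 * m.det x)
noncomputable def c222 (m : Met) (x : Pl) : ℝ :=
  (m.e x * d2 m.g x - 2 * m.f x * d2 m.f x + m.f x * d1 m.g x) / (2 * m.det x)

/-- `det II` in terms of the metric: the curvature tensor component `R₁₂₁₂`. -/
noncomputable def rcur (m : Met) (x : Pl) : ℝ :=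
  -(1 / 2) * (d2 (d2 m.e) x - 2 * d1 (d2 m.f) x + d1 (d1 m.g) x)
    + m.e x * (m.c112 x ^ 2 - m.c111 x * m.c122 x)
    + m.f x * (2 * m.c112 x * m.c212 x - m.c111 x * m.c222 x - m.c211 x * m.c122 x)
    + m.g x * (m.c212 x ^ 2 - m.c211 x * m.c222 x)

/-- The squared gradient of `z`. -/
noncomputable def gradSq (m : Met) (z : Pl → ℝ) (x : Pl) : ℝ :=
  (m.g x * d1 z x ^ 2 - 2 * m.f x * d1 z x * d2 z x + m.e x * d2 z x ^ 2) / m.det x

noncomputable def h11 (m : Met) (z : Pl → ℝ) (x : Pl) : ℝ :=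
  d1 (d1 z) x - m.c111 x * d1 z x - m.c211 x * d2 z x
noncomputable def h12 (m : Met) (z : Pl → ℝ) (x : Pl) : ℝ :=
  d1 (d2 z) x - m.c112 x * d1 z x - m.c212 x * d2 z x
noncomputable def h22 (m : Met) (z : Pl → ℝ) (x : Pl) : ℝ :=
  d2 (d2 z) x - m.c122 x * d1 z x - m.c222 x * d2 z x

end Met

/-- The radial island profile: `Δψ = 1 - |x|²` on `|x|² < 5`, zero for `8 ≤ |x|²`. -/
noncomputable def psi (x : Pl) : ℝ :=
  (nsq x / 4 - nsq x ^ 2 / 16) * Real.smoothTransition ((8 - nsq x) / 3)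

/-- A perturbation: the increments of the three metric coefficients. -/
abbrev Pert : Type := Fin 3 → Pl → ℝ

/-- The scaled island metric `I + s² (2 β ψ I + π)`. -/
noncomputable def islandMet (s β : ℝ) (π : Pert) : Met :=
  ⟨fun x => 1 + s ^ 2 * (2 * β * psi x + π 0 x), fun x => s ^ 2 * π 1 x,
    fun x => 1 + s ^ 2 * (2 * β * psi x + π 2 x)⟩

/-- The scaled height along `e`. -/
noncomputable def zOf (s : ℝ) (G : Pl → R3) (e : R3) (x : Pl) : ℝ := ⟪G x, e⟫ / s

/-- A solution on a scaled island: an isometric immersion of `islandMet s β π` on the disc of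
radius `4` with the bounds of a scaled immersion, and its unit normal at `0`, oriented so that the
Laplacian of the height is at least `a0` at `0`. -/
def IslandSol (k : ℕ) (s β M a0 : ℝ) (π : Pert) (G : Pl → R3) (e : R3) : Prop :=
  ContDiffOn ℝ k G (disc 4) ∧ IsIsometric (islandMet s β π) (disc 4) G ∧ G 0 = 0 ∧
    (∀ j, 2 ≤ j → j ≤ k → ∀ x ∈ disc 4, ‖iteratedFDeriv ℝ j G x‖ ≤ M * s ^ (j - 1)) ∧
    ‖e‖ = 1 ∧ ⟪d1 G 0, e⟫ = 0 ∧ ⟪d2 G 0, e⟫ = 0 ∧
    a0 ≤ d1 (d1 (zOf s G e)) 0 + d2 (d2 (zOf s G e)) 0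

/-- An admissible perturbation: smooth and supported in the disc of radius `28/25`. -/
def PertOK (π : Pert) : Prop :=
  ∀ i, ContDiff ℝ ∞ (π i) ∧ tsupport (π i) ⊆ disc (28 / 25)

/-- One coefficient of the perturbed metric near the square: island perturbation placed at the
centres `q` with scale `s`. -/
noncomputable def glue {I : ℕ} (q : Fin I → Pl) (s : ℝ) (f : Pl → ℝ) (x : Pl) : ℝ :=
  s ^ 2 * ∑ i, f (s⁻¹ • (x - q i))

/-- The three glued coefficients. -/
noncomputable def glueP {I : ℕ} (q : Fin I → Pl) (s β : ℝ) (π : Pert) : Pl → ℝ :=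
  glue q s fun x => 2 * β * psi x + π 0 x
noncomputable def glueQ {I : ℕ} (q : Fin I → Pl) (s : ℝ) (π : Pert) : Pl → ℝ :=
  glue q s (π 1)
noncomputable def glueW {I : ℕ} (q : Fin I → Pl) (s β : ℝ) (π : Pert) : Pl → ℝ :=
  glue q s fun x => 2 * β * psi x + π 2 x

end Vale.Agent.P229
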