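import Vale.Agent.P229.Base

/-!
# P229: Taylor polynomials in the plane with derivative bounds for the remainder

`Tay n f a` is the Taylor polynomial in the partial derivatives `d1`, `d2`.  Its partial derivatives
are the Taylor polynomials of those of `f`; by induction the remainder has vanishing derivatives of
order at most `n` at `a`, and the mean value inequality bounds them near `a`.
-/

open scoped ContDiff
open Set Metric Function

namespace Vale.Agent.P229

variable {f g : Pl → ℝ}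

theorem contDiff_d1 {n : ℕ} (hf : ContDiff ℝ (n + 1 : ℕ) f) : ContDiff ℝ n (d1 f) :=
  (hf.fderiv_right (by norm_cast)).clm_apply contDiff_const

theorem contDiff_d2 {n : ℕ} (hf : ContDiff ℝ (n + 1 : ℕ) f) : ContDiff ℝ n (d2 f) :=
  (hf.fderiv_right (by norm_cast)).clm_apply contDiff_const

theorem contDiff_iter2 : ∀ {j n : ℕ} {f : Pl → ℝ}, ContDiff ℝ (n + j : ℕ) f →
    ContDiff ℝ n (d2^[j] f)
  | 0, n, f, hf => hf
  | j + 1, n, f, hf => by
    rw [iterate_succ_apply]
    exact contDiff_iter2 (contDiff_d2 (hf.of_le (by norm_cast)))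

theorem d12_comm (hf : ContDiff ℝ 2 f) : d2 (d1 f) = d1 (d2 f) := by
  funext x
  have hd : DifferentiableAt ℝ (fderiv ℝ f) x :=
    ((hf.fderiv_right (m := 1) le_rfl).differentiable (by norm_num)).differentiableAt
  have h : ∀ v w : Pl, fderiv ℝ (fun y => fderiv ℝ f y v) x w = fderiv ℝ (fderiv ℝ f) x w v :=
    fun v w => by rw [fderiv_clm_apply hd (differentiableAt_const v)]; simp
  show fderiv ℝ (fun y => fderiv ℝ f y (1, 0)) x (0, 1)
    = fderiv ℝ (fun y => fderiv ℝ f y (0, 1)) x (1, 0)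
  rw [h, h]
  exact (hf.contDiffAt.isSymmSndFDerivAt (by simp)).eq _ _

theorem iter2_d1 : ∀ {j : ℕ} {f : Pl → ℝ}, ContDiff ℝ (j + 1 : ℕ) f →
    d2^[j] (d1 f) = d1 (d2^[j] f)
  | 0, _, _ => rfl
  | j + 1, f, hf => by
    rw [iterate_succ_apply, iterate_succ_apply, d12_comm (hf.of_le (by norm_cast; omega)),
      iter2_d1 (contDiff_d2 hf)]

/-- An iterated derivative splits along the last slot into those of the partial derivatives. -/
theorem iteratedFDeriv_succ_split {k : ℕ} (hf : ContDiff ℝ (k + 1 : ℕ) f) (x : Pl)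
    (v : Fin (k + 1) → Pl) :
    iteratedFDeriv ℝ (k + 1) f x v
      = (v (Fin.last k)).1 * iteratedFDeriv ℝ k (d1 f) x (Fin.init v)
        + (v (Fin.last k)).2 * iteratedFDeriv ℝ k (d2 f) x (Fin.init v) := by
  have h1 : ContDiff ℝ k (fderiv ℝ f) := hf.fderiv_right (by norm_cast)
  have key : ∀ w : Pl, iteratedFDeriv ℝ k (fun y => fderiv ℝ f y w) x (Fin.init v)
      = iteratedFDeriv ℝ k (fderiv ℝ f) x (Fin.init v) w := by
    intro w
    have h := congrArg (fun m : ContinuousMultilinearMap ℝ (fun _ : Fin k => Pl) ℝ => m (Fin.init v))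
      ((ContinuousLinearMap.apply ℝ ℝ w).iteratedFDeriv_comp_left h1.contDiffAt (i := k) le_rfl
        (x := x))
    exact h
  rw [iteratedFDeriv_succ_apply_right]
  unfold d1 d2
  rw [key, key]
  set L := iteratedFDeriv ℝ k (fderiv ℝ f) x (Fin.init v)
  conv_lhs => rw [show v (Fin.last k) = (v (Fin.last k)).1 • ((1, 0) : Pl)
    + (v (Fin.last k)).2 • ((0, 1) : Pl) by ext <;> simp]
  rw [map_add, map_smul, map_smul, smul_eq_mul, smul_eq_mul]

theorem iteratedFDeriv_succ_zero {k : ℕ} (hf : ContDiff ℝ (k + 1 : ℕ) f) {x : Pl}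
    (h1 : iteratedFDeriv ℝ k (d1 f) x = 0) (h2 : iteratedFDeriv ℝ k (d2 f) x = 0) :
    iteratedFDeriv ℝ (k + 1) f x = 0 := by
  ext v
  rw [iteratedFDeriv_succ_split hf, h1, h2]
  simp

theorem norm_iteratedFDeriv_dir {k : ℕ} (hf : ContDiff ℝ (k + 1 : ℕ) f) (x w : Pl)
    (hw : ‖w‖ ≤ 1) :
    ‖iteratedFDeriv ℝ k (fun y => fderiv ℝ f y w) x‖ ≤ ‖iteratedFDeriv ℝ (k + 1) f x‖ := by
  have h1 : ContDiff ℝ k (fderiv ℝ f) := hf.fderiv_right (by norm_cast)
  rw [← norm_iteratedFDeriv_fderiv]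
  refine (norm_iteratedFDeriv_clm_apply_const h1.contDiffAt le_rfl).trans ?_
  exact mul_le_of_le_one_left (norm_nonneg _) hw

theorem abs_iter_le : ∀ {j i : ℕ} {f : Pl → ℝ} (x : Pl), ContDiff ℝ (i + j : ℕ) f →
    |d1^[i] (d2^[j] f) x| ≤ ‖iteratedFDeriv ℝ (i + j) f x‖
  | j, i, f, x, hf => by
    have A : ∀ (i : ℕ) (g : Pl → ℝ) (k : ℕ), ContDiff ℝ (k + i : ℕ) g →
        ‖iteratedFDeriv ℝ k (d1^[i] g) x‖ ≤ ‖iteratedFDeriv ℝ (k + i) g x‖ := by
      intro i
      induction i with
      | zero => exact fun g k _ => le_rfl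
      | succ i ih =>
        intro g k hg
        rw [iterate_succ_apply]
        exact (ih _ k (contDiff_d1 (hg.of_le (by norm_cast)))).trans
          (norm_iteratedFDeriv_dir (hg.of_le (by norm_cast)) x (1, 0) (by simp))
    have B : ∀ (j : ℕ) (g : Pl → ℝ) (k : ℕ), ContDiff ℝ (k + j : ℕ) g →
        ‖iteratedFDeriv ℝ k (d2^[j] g) x‖ ≤ ‖iteratedFDeriv ℝ (k + j) g x‖ := by
      intro j
      induction j with
      | zero => exact fun g k _ => le_rfl
      | succ j ih =>
        intro g k hg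
        rw [iterate_succ_apply]
        exact (ih _ k (contDiff_d2 (hg.of_le (by norm_cast)))).trans
          (norm_iteratedFDeriv_dir (hg.of_le (by norm_cast)) x (0, 1) (by simp))
    have h1 := A i (d2^[j] f) 0 (by rw [zero_add]; exact contDiff_iter2 hf)
    rw [zero_add, norm_iteratedFDeriv_zero, Real.norm_eq_abs] at h1
    exact h1.trans (B j f i hf)

/-- The Taylor coefficient at `a`. -/
noncomputable def tayC (f : Pl → ℝ) (a : Pl) (i j : ℕ) : ℝ :=
  d1^[i] (d2^[j] f) a / ((i.factorial : ℝ) * (j.factorial : ℝ))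

/-- The monomial centred at `a`. -/
def mono (a : Pl) (i j : ℕ) (x : Pl) : ℝ := (x.1 - a.1) ^ i * (x.2 - a.2) ^ j

/-- The Taylor polynomial of degree `n`. -/
noncomputable def Tay (n : ℕ) (f : Pl → ℝ) (a x : Pl) : ℝ :=
  ∑ i ∈ Finset.range (n + 1), ∑ j ∈ Finset.range (n + 1),
    if i + j ≤ n then tayC f a i j * mono a i j x else 0

theorem contDiff_mono (a : Pl) (i j : ℕ) : ContDiff ℝ ∞ (mono a i j) := by
  unfold mono
  fun_prop

theorem contDiff_tay (n : ℕ) (f : Pl → ℝ) (a : Pl) {k : WithTop ℕ∞} (hk : k ≤ ∞) :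
    ContDiff ℝ k (Tay n f a) := by
  refine (ContDiff.sum fun i _ => ContDiff.sum fun j _ => ?_).of_le hk
  by_cases h : i + j ≤ n
  · simp only [if_pos h]
    exact contDiff_const.mul (contDiff_mono a i j)
  · simp only [if_neg h]
    exact contDiff_const

theorem hasFDerivAt_mono (a x : Pl) (i j : ℕ) :
    HasFDerivAt (mono a i j)
      ((x.1 - a.1) ^ i • (((j : ℝ) * (x.2 - a.2) ^ (j - 1)) • ContinuousLinearMap.snd ℝ ℝ ℝ)
        + (x.2 - a.2) ^ j • (((i : ℝ) * (x.1 - a.1) ^ (i - 1)) • ContinuousLinearMap.fst ℝ ℝ ℝ))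
      x := by
  have h1 := (hasDerivAt_pow i (x.1 - a.1)).comp_hasFDerivAt x
    ((hasFDerivAt_fst (𝕜 := ℝ) (p := x)).sub_const a.1)
  have h2 := (hasDerivAt_pow j (x.2 - a.2)).comp_hasFDerivAt x
    ((hasFDerivAt_snd (𝕜 := ℝ) (p := x)).sub_const a.2)
  exact h1.mul h2

theorem hasFDerivAt_tay (n : ℕ) (f : Pl → ℝ) (a x : Pl) :
    HasFDerivAt (Tay n f a) (∑ i ∈ Finset.range (n + 1), ∑ j ∈ Finset.range (n + 1),
      if i + j ≤ n then tayC f a i j •
        ((x.1 - a.1) ^ i • (((j : ℝ) * (x.2 - a.2) ^ (j - 1)) • ContinuousLinearMap.snd ℝ ℝ ℝ)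
        + (x.2 - a.2) ^ j • (((i : ℝ) * (x.1 - a.1) ^ (i - 1)) • ContinuousLinearMap.fst ℝ ℝ ℝ))
      else 0) x := by
  refine HasFDerivAt.fun_sum fun i _ => HasFDerivAt.fun_sum fun j _ => ?_
  by_cases h : i + j ≤ n
  · simp only [if_pos h]
    exact (hasFDerivAt_mono a x i j).const_mul _
  · simp only [if_neg h]
    exact hasFDerivAt_const _ _

theorem fderiv_tay (n : ℕ) (f : Pl → ℝ) (a x w : Pl) :
    fderiv ℝ (Tay n f a) x w = ∑ i ∈ Finset.range (n + 1), ∑ j ∈ Finset.range (n + 1),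
      if i + j ≤ n then tayC f a i j *
        ((i : ℝ) * (x.1 - a.1) ^ (i - 1) * (x.2 - a.2) ^ j * w.1
          + (x.1 - a.1) ^ i * ((j : ℝ) * (x.2 - a.2) ^ (j - 1)) * w.2)
      else 0 := by
  rw [(hasFDerivAt_tay n f a x).fderiv, ← ContinuousLinearMap.apply_apply (𝕜 := ℝ) w, map_sum]
  refine Finset.sum_congr rfl fun i _ => ?_
  rw [map_sum]
  refine Finset.sum_congr rfl fun j _ => ?_
  by_cases h : i + j ≤ n
  · simp only [if_pos h, ContinuousLinearMap.apply_apply]
    simp
    ring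
  · simp only [if_neg h, map_zero]

theorem d1_tay {n : ℕ} (hf : ContDiff ℝ (n + 1 : ℕ) f) (a : Pl) :
    d1 (Tay (n + 1) f a) = Tay n (d1 f) a := by
  funext x
  rw [d1, fderiv_tay, Finset.sum_range_succ']
  rw [show (∑ j ∈ Finset.range (n + 1 + 1), _) = (0 : ℝ) from
    Finset.sum_eq_zero fun j _ => by split_ifs <;> simp, add_zero]
  unfold Tay
  refine Finset.sum_congr rfl fun i _ => ?_
  rw [Finset.sum_range_succ, if_neg (by omega), add_zero]
  refine Finset.sum_congr rfl fun j _ => ?_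
  by_cases h : i + j ≤ n
  · rw [if_pos (by omega : i + 1 + j ≤ n + 1), if_pos h]
    have hc : tayC f a (i + 1) j * ((i : ℝ) + 1) = tayC (d1 f) a i j := by
      have hfac : ((i.factorial : ℝ)) ≠ 0 := by positivity
      have hfac2 : ((j.factorial : ℝ)) ≠ 0 := by positivity
      simp only [tayC, iterate_succ_apply]
      rw [iter2_d1 (hf.of_le (by norm_cast; omega)), Nat.factorial_succ]
      push_cast
      field_simp
    rw [← hc]
    simp [mono]
    ring
  · rw [if_neg (by omega : ¬ i + 1 + j ≤ n + 1), if_neg h]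

theorem d2_tay (n : ℕ) (f : Pl → ℝ) (a : Pl) : d2 (Tay (n + 1) f a) = Tay n (d2 f) a := by
  funext x
  rw [d2, fderiv_tay, Finset.sum_range_succ]
  rw [show (∑ j ∈ Finset.range (n + 1 + 1), _) = (0 : ℝ) from
    Finset.sum_eq_zero fun j _ => by
      split_ifs with h
      · obtain rfl : j = 0 := by omega
        simp
      · rfl, add_zero]
  unfold Tay
  refine Finset.sum_congr rfl fun i _ => ?_
  rw [Finset.sum_range_succ']
  rw [show ∀ u v : ℝ, v = 0 → u + v = u from fun u v h => by rw [h, add_zero]]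
  swap
  · split_ifs <;> simp
  refine Finset.sum_congr rfl fun j _ => ?_
  by_cases h : i + j ≤ n
  · rw [if_pos (by omega : i + (j + 1) ≤ n + 1), if_pos h]
    have hc : tayC f a i (j + 1) * ((j : ℝ) + 1) = tayC (d2 f) a i j := by
      have hfac : ((i.factorial : ℝ)) ≠ 0 := by positivity
      have hfac2 : ((j.factorial : ℝ)) ≠ 0 := by positivity
      simp only [tayC, iterate_succ_apply]
      rw [Nat.factorial_succ]
      push_cast
      field_simp
    rw [← hc]
    simp [mono]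
    ring
  · rw [if_neg (by omega : ¬ i + (j + 1) ≤ n + 1), if_neg h]

theorem tay_self (n : ℕ) (f : Pl → ℝ) (a : Pl) : Tay n f a a = f a := by
  unfold Tay
  rw [Finset.sum_eq_single_of_mem 0 (by simp), Finset.sum_eq_single_of_mem 0 (by simp)]
  · simp [tayC, mono]
  · intro j _ hj
    simp [mono, zero_pow hj]
  · intro i _ hi
    exact Finset.sum_eq_zero fun j _ => by simp [mono, zero_pow hi]

theorem tay_top : ∀ (n : ℕ) {f : Pl → ℝ}, ContDiff ℝ n f → ∀ a x : Pl,
    iteratedFDeriv ℝ (n + 1) (Tay n f a) x = 0 := by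
  intro n
  induction n with
  | zero =>
    intro f _ a x
    have : Tay 0 f a = fun _ => f a := by
      funext y
      simp [Tay, tayC, mono]
    rw [this, iteratedFDeriv_const_of_ne (by norm_num)]
    rfl
  | succ n ih =>
    intro f hf a x
    refine iteratedFDeriv_succ_zero (contDiff_tay _ _ _ (mod_cast le_top)) ?_ ?_
    · rw [d1_tay hf]
      exact ih (contDiff_d1 hf) a x
    · rw [d2_tay]
      exact ih (contDiff_d2 hf) a x

theorem tay_vanish : ∀ (k n : ℕ) {f : Pl → ℝ}, k ≤ n → ContDiff ℝ n f → ∀ a : Pl,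
    iteratedFDeriv ℝ k (fun y => f y - Tay n f a y) a = 0 := by
  intro k
  induction k with
  | zero =>
    intro n f _ _ a
    ext v
    simp [iteratedFDeriv_zero_apply, tay_self]
  | succ k ih =>
    intro n f hk hf a
    obtain ⟨n, rfl⟩ : ∃ l, n = l + 1 := ⟨n - 1, by omega⟩
    have hfd : Differentiable ℝ f := (hf.of_le (m := 1) (by norm_cast; omega)).differentiable one_ne_zero
    have hTd : Differentiable ℝ (Tay (n + 1) f a) := fun y =>
      (hasFDerivAt_tay _ _ _ y).differentiableAt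
    have hsub : ∀ w : Pl, (fun y => fderiv ℝ (fun y => f y - Tay (n + 1) f a y) y w)
        = fun y => fderiv ℝ f y w - fderiv ℝ (Tay (n + 1) f a) y w := by
      intro w
      funext y
      rw [fderiv_fun_sub (hfd y) (hTd y)]
      rfl
    refine iteratedFDeriv_succ_zero
      ((hf.of_le (by norm_cast)).sub (contDiff_tay _ _ _ (mod_cast le_top))) ?_ ?_
    · have h : d1 (fun y => f y - Tay (n + 1) f a y) = fun y => d1 f y - Tay n (d1 f) a y := by
        rw [← d1_tay hf a]
        exact hsub (1, 0)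
      rw [h]
      exact ih n (by omega) (contDiff_d1 hf) a
    · have h : d2 (fun y => f y - Tay (n + 1) f a y) = fun y => d2 f y - Tay n (d2 f) a y := by
        rw [← d2_tay n f a]
        exact hsub (0, 1)
      rw [h]
      exact ih n (by omega) (contDiff_d2 hf) a

/-- The remainder after degree `n` and its derivatives near the centre. -/
theorem tay_rem {n : ℕ} (hf : ContDiff ℝ (n + 1 : ℕ) f) {C : ℝ}
    (hC : ∀ x, ‖iteratedFDeriv ℝ (n + 1) f x‖ ≤ C) (a : Pl) {r : ℝ} (hr : 0 ≤ r) :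
    ∀ k ≤ n + 1, ∀ x ∈ closedBall a r,
      ‖iteratedFDeriv ℝ k (fun y => f y - Tay n f a y) x‖ ≤ C * r ^ (n + 1 - k) := by
  set R := fun y => f y - Tay n f a y with hR
  have hT : ContDiff ℝ (n + 1 : ℕ) (Tay n f a) := contDiff_tay _ _ _ (mod_cast le_top)
  have hRc : ContDiff ℝ (n + 1 : ℕ) R := hf.sub hT
  have hC0 : 0 ≤ C := (norm_nonneg _).trans (hC a)
  suffices h : ∀ l, l ≤ n + 1 → ∀ x ∈ closedBall a r,
      ‖iteratedFDeriv ℝ (n + 1 - l) R x‖ ≤ C * r ^ l by
    intro k hk x hx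
    have := h (n + 1 - k) (by omega) x hx
    rwa [show n + 1 - (n + 1 - k) = k by omega] at this
  intro l
  induction l with
  | zero =>
    intro _ x _
    rw [Nat.sub_zero, pow_zero, mul_one, hR,
      show (fun y => f y - Tay n f a y) = f - Tay n f a from rfl,
      iteratedFDeriv_sub hf hT, Pi.sub_apply, tay_top n (hf.of_le (by norm_cast; omega)) a x,
      sub_zero]
    exact hC x
  | succ l ih =>
    intro hl x hx
    have hk : n + 1 - (l + 1) + 1 = n + 1 - l := by omega
    set k := n + 1 - (l + 1) with hkdef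
    have hdiff : Differentiable ℝ (iteratedFDeriv ℝ k R) :=
      hRc.differentiable_iteratedFDeriv (by norm_cast; omega)
    have hmv := (convex_closedBall a r).norm_image_sub_le_of_norm_fderiv_le
      (fun y _ => hdiff y) (fun y hy => (norm_fderiv_iteratedFDeriv (f := R)).le.trans
        (by rw [hk]; exact ih (by omega) y hy))
      (mem_closedBall_self hr) hx
    rw [tay_vanish k n (by omega) (hf.of_le (by norm_cast; omega)) a, sub_zero] at hmv
    refine hmv.trans ?_
    rw [pow_succ, ← mul_assoc]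
    gcongr
    rw [← dist_eq_norm]
    exact mem_closedBall.1 hx

end Vale.Agent.P229
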