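import Vale.Agent.P229.Spec
import Vale.Agent.P229.BasisTaylor

/-!
# P229: the basis of perturbations

Translates of a scaled partition of unity `S (t + 1) - S t` on a mesh `1 / M`, `M = N ^ K`, times
monomials of degree at most `30`, centred at the nodes.  Integer combinations scaled by `N ^ (-A')`
approximate a target by its Taylor polynomials at the nodes, glued.
-/

open scoped ContDiff
open Set Metric Function

namespace Vale.Agent.P229

theorem le31 : (31 : WithTop ℕ∞) ≤ ∞ := WithTop.coe_le_coe.2 (le_top : (31 : ℕ∞) ≤ ⊤)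

/-- The one dimensional profile with `∑ₐ eta1 (t - a) = 1`. -/
noncomputable def eta1 (t : ℝ) : ℝ := Real.smoothTransition (t + 1) - Real.smoothTransition t

theorem eta1_eq_zero {t : ℝ} (h : 1 ≤ |t|) : eta1 t = 0 := by
  unfold eta1
  rcases le_abs.1 h with h | h
  · rw [Real.smoothTransition.one_of_one_le (by linarith),
      Real.smoothTransition.one_of_one_le h, sub_self]
  · rw [Real.smoothTransition.zero_of_nonpos (by linarith),
      Real.smoothTransition.zero_of_nonpos (by linarith), sub_self]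

theorem sum_eta1 (M : ℕ) {y : ℝ} (hy : |y| ≤ M) :
    ∑ p ∈ Finset.range (2 * M + 1), eta1 (y + M - p) = 1 := by
  have h : ∀ k : ℕ, ∑ p ∈ Finset.range k, eta1 (y + M - p)
      = Real.smoothTransition (y + M + 1) - Real.smoothTransition (y + M + 1 - k) := by
    intro k
    induction k with
    | zero => simp
    | succ k ih =>
      rw [Finset.sum_range_succ, ih, eta1]
      push_cast
      rw [show y + M + 1 - ((k : ℝ) + 1) = y + M - k by ring,
        show y + (M : ℝ) - k + 1 = y + M + 1 - k by ring]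
      ring
  have := abs_le.1 hy
  rw [h, Real.smoothTransition.one_of_one_le (by linarith),
    Real.smoothTransition.zero_of_nonpos (by push_cast; linarith), sub_zero]

/-- The profiles: bump times monomial. -/
noncomputable def prof (i j : ℕ) (y : Pl) : ℝ := eta1 y.1 * eta1 y.2 * (y.1 ^ i * y.2 ^ j)

theorem contDiff_prof (i j : ℕ) : ContDiff ℝ ∞ (prof i j) := by
  have h : ContDiff ℝ ∞ eta1 :=
    (Real.smoothTransition.contDiff.comp (contDiff_id.add contDiff_const)).sub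
      Real.smoothTransition.contDiff
  unfold prof
  fun_prop

theorem prof_eq_zero {i j : ℕ} {y : Pl} (h : 1 ≤ ‖y‖) : prof i j y = 0 := by
  rw [Prod.norm_def, le_max_iff, Real.norm_eq_abs, Real.norm_eq_abs] at h
  rcases h with h | h <;> simp [prof, eta1_eq_zero h]

theorem hasCompactSupport_prof (i j : ℕ) : HasCompactSupport (prof i j) :=
  HasCompactSupport.intro (isCompact_closedBall 0 1) fun y hy => prof_eq_zero
    (by rw [mem_closedBall, dist_zero_right] at hy; linarith [not_le.1 hy])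

theorem exists_prof_bound (Q : ℕ) :
    ∃ C : ℝ, 1 ≤ C ∧ ∀ (i j : Fin 31), ∀ q ≤ Q, ∀ y,
      ‖iteratedFDeriv ℝ q (prof i j) y‖ ≤ C := by
  choose C hC0 hC using fun p : Fin 31 × Fin 31 =>
    exists_deriv_bound (contDiff_prof p.1 p.2) (hasCompactSupport_prof p.1 p.2) Q
  refine ⟨1 + ∑ p, C p, le_add_of_nonneg_right (Finset.sum_nonneg fun p _ => (hC0 p).le),
    fun i j q hq y => ?_⟩
  have := Finset.single_le_sum (f := C) (fun p _ => (hC0 p).le) (Finset.mem_univ (i, j))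
  linarith [hC (i, j) q hq y]

/-- A profile moved to `a` with scale `1 / M`. -/
noncomputable def cell (M : ℕ) (a : Pl) (i j : ℕ) (x : Pl) : ℝ := prof i j ((M : ℝ) • (x - a))

theorem contDiff_cell (M : ℕ) (a : Pl) (i j : ℕ) : ContDiff ℝ ∞ (cell M a i j) :=
  (contDiff_prof i j).comp ((contDiff_id.sub contDiff_const).const_smul (M : ℝ))

theorem norm_iteratedFDeriv_cell (M : ℕ) (a : Pl) (i j q : ℕ) {C : ℝ}
    (hC : ∀ y, ‖iteratedFDeriv ℝ q (prof i j) y‖ ≤ C) (x : Pl) :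
    ‖iteratedFDeriv ℝ q (cell M a i j) x‖ ≤ C * (M : ℝ) ^ q := by
  let g : Pl →L[ℝ] Pl := (M : ℝ) • ContinuousLinearMap.id ℝ Pl
  have hg : ‖g‖ ≤ M := by
    refine ContinuousLinearMap.opNorm_le_bound _ (Nat.cast_nonneg M) fun y => ?_
    simp [g, norm_smul]
  have h : cell M a i j = fun z => (prof i j ∘ g) (z - a) := by
    funext z
    simp [cell, g]
  rw [h, iteratedFDeriv_comp_sub,
    g.iteratedFDeriv_comp_right ((contDiff_prof i j).of_le (mod_cast le_top : (q : WithTop ℕ∞) ≤ ∞))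
      _ le_rfl]
  refine (ContinuousMultilinearMap.norm_compContinuousLinearMap_le _ _).trans ?_
  rw [Finset.prod_const, Finset.card_univ, Fintype.card_fin]
  exact mul_le_mul (hC _) (pow_le_pow_left₀ (norm_nonneg _) hg q) (by positivity)
    ((norm_nonneg _).trans (hC (g (x - a))))

theorem cell_eq_zero {M : ℕ} (hM : 0 < M) {a x : Pl} (i j : ℕ) (h : 1 / (M : ℝ) ≤ ‖x - a‖) :
    cell M a i j x = 0 := by
  refine prof_eq_zero ?_
  rw [norm_smul, Real.norm_of_nonneg (Nat.cast_nonneg M)]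
  have hM' : (0 : ℝ) < M := by exact_mod_cast hM
  rw [div_le_iff₀' hM'] at h
  exact h

theorem tsupport_cell {M : ℕ} (hM : 0 < M) (a : Pl) (i j : ℕ) :
    tsupport (cell M a i j) ⊆ closedBall a (1 / (M : ℝ)) :=
  closure_minimal (fun x hx => by
    by_contra h
    rw [mem_closedBall, dist_eq_norm, not_le] at h
    exact hx (cell_eq_zero hM i j h.le)) isClosed_closedBall

theorem cell_mul_mono (M : ℕ) (a : Pl) (i j : ℕ) (x : Pl) :
    cell M a 0 0 x * mono a i j x * (M : ℝ) ^ (i + j) = cell M a i j x := by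
  simp [cell, prof, mono, mul_pow, pow_add]
  ring

/-- The node number `p`. -/
noncomputable def node (M : ℕ) (p : ℕ × ℕ) : Pl :=
  (((p.1 : ℝ) - M) / M, ((p.2 : ℝ) - M) / M)

/-- The nodes inside the unit disc. -/
noncomputable def nodes (M : ℕ) : Finset (ℕ × ℕ) :=
  haveI := Classical.decPred fun p : ℕ × ℕ => nsq (node M p) < 1
  (Finset.range (2 * M + 1) ×ˢ Finset.range (2 * M + 1)).filter fun p => nsq (node M p) < 1

theorem card_nodes {M : ℕ} (hM : 0 < M) : (nodes M).card ≤ 9 * M ^ 2 := by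
  classical
  refine (Finset.card_filter_le _ _).trans ?_
  rw [Finset.card_product, Finset.card_range]
  nlinarith

theorem sum_cell {M : ℕ} (hM : 0 < M) {x : Pl} (hx : |x.1| ≤ 1 ∧ |x.2| ≤ 1) :
    ∑ p ∈ Finset.range (2 * M + 1) ×ˢ Finset.range (2 * M + 1), cell M (node M p) 0 0 x = 1 := by
  have hM' : (0 : ℝ) < M := by exact_mod_cast hM
  rw [Finset.sum_product]
  have e : ∀ p q : ℕ, cell M (node M (p, q)) 0 0 x
      = eta1 ((M : ℝ) * x.1 + M - p) * eta1 ((M : ℝ) * x.2 + M - q) := by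
    intro p q
    simp only [cell, prof, node, pow_zero, mul_one, Prod.smul_fst, Prod.smul_snd, Prod.fst_sub,
      Prod.snd_sub, smul_eq_mul]
    congr 2 <;> field_simp <;> ring
  simp only [e, ← Finset.mul_sum]
  have hb : ∀ t : ℝ, |t| ≤ 1 → |(M : ℝ) * t| ≤ M := fun t ht => by
    rw [abs_mul, abs_of_pos hM']
    exact mul_le_of_le_one_right hM'.le ht
  rw [← Finset.sum_mul, sum_eta1 M (hb _ hx.1), sum_eta1 M (hb _ hx.2), one_mul]

theorem nsq_close {x a : Pl} {d : ℝ} (h : ‖x - a‖ ≤ d) :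
    nsq x ≤ nsq a + 2 * d * (|a.1| + |a.2|) + 2 * d ^ 2 := by
  rw [Prod.norm_def, max_le_iff, Real.norm_eq_abs, Real.norm_eq_abs] at h
  have h1 : x.1 ^ 2 ≤ (|a.1| + d) ^ 2 := by
    rw [← sq_abs x.1]
    refine pow_le_pow_left₀ (abs_nonneg _) ?_ 2
    have := abs_sub_abs_le_abs_sub x.1 a.1
    have e : |x.1 - a.1| ≤ d := h.1
    linarith
  have h2 : x.2 ^ 2 ≤ (|a.2| + d) ^ 2 := by
    rw [← sq_abs x.2]
    refine pow_le_pow_left₀ (abs_nonneg _) ?_ 2
    have := abs_sub_abs_le_abs_sub x.2 a.2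
    have e : |x.2 - a.2| ≤ d := h.2
    linarith
  have e1 := sq_abs a.1
  have e2 := sq_abs a.2
  unfold nsq
  nlinarith

theorem abs_le_of_nsq {x : Pl} {c : ℝ} (hc : 0 ≤ c) (h : nsq x ≤ c ^ 2) :
    |x.1| ≤ c ∧ |x.2| ≤ c := by
  unfold nsq at h
  exact ⟨abs_le_of_sq_le_sq (by nlinarith [sq_nonneg x.2]) hc,
    abs_le_of_sq_le_sq (by nlinarith [sq_nonneg x.1]) hc⟩

theorem glue_partition {M : ℕ} (hM : 100 ≤ M) {f : Pl → ℝ} (hf : tsupport f ⊆ disc (9 / 10))
    (x : Pl) : ∑ p ∈ nodes M, cell M (node M p) 0 0 x * f x = f x := by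
  classical
  by_cases hx : f x = 0
  · simp [hx]
  have hd : nsq x < (9 / 10) ^ 2 := hf (subset_tsupport f hx)
  have hab := abs_le_of_nsq (by norm_num : (0 : ℝ) ≤ 9 / 10) hd.le
  rw [← Finset.sum_mul, nodes, Finset.sum_filter_of_ne, sum_cell (by omega) ⟨by linarith, by linarith⟩,
    one_mul]
  intro p _ hp
  have hM' : (100 : ℝ) ≤ M := by exact_mod_cast hM
  have hn : ‖node M p - x‖ ≤ 1 / 100 := by
    rw [norm_sub_rev]
    have := not_le.1 fun h => hp (cell_eq_zero (by omega) 0 0 h)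
    exact this.le.trans (one_div_le_one_div_of_le (by norm_num) hM')
  nlinarith [nsq_close hn]

theorem tsupport_cell_disc {M : ℕ} (hM : 100 ≤ M) {p : ℕ × ℕ} (hp : p ∈ nodes M) (i j : ℕ) :
    tsupport (cell M (node M p) i j) ⊆ disc (28 / 25) := by
  refine (tsupport_cell (by omega) _ i j).trans fun x hx => ?_
  have hM' : (100 : ℝ) ≤ M := by exact_mod_cast hM
  rw [mem_closedBall, dist_eq_norm] at hx
  have hn : nsq (node M p) < 1 := by
    classical
    exact (Finset.mem_filter.1 hp).2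
  have hab := abs_le_of_nsq zero_le_one (c := 1) (by linarith : nsq (node M p) ≤ 1 ^ 2)
  have := nsq_close (hx.trans (one_div_le_one_div_of_le (by norm_num) hM'))
  show nsq x < (28 / 25) ^ 2
  nlinarith [hab.1, hab.2]

theorem norm_iteratedFDeriv_sum_le {ι : Type*} (s : Finset ι) {g : ι → Pl → ℝ}
    (hg : ∀ i ∈ s, ContDiff ℝ 31 (g i)) {q : ℕ} (hq : q ≤ 31) (x : Pl) :
    ‖iteratedFDeriv ℝ q (fun y => ∑ i ∈ s, g i y) x‖
      ≤ ∑ i ∈ s, ‖iteratedFDeriv ℝ q (g i) x‖ := by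
  rw [iteratedFDeriv_sum fun i hi => (hg i hi).of_le (mod_cast hq)]
  simp only [Finset.sum_apply]
  exact norm_sum_le _ _

/-- The glued Taylor polynomials approximate. -/
theorem glue_error {M : ℕ} (hM : 100 ≤ M) {a : Pl} {f : Pl → ℝ} (hf : ContDiff ℝ 31 f) {B C : ℝ}
    (hC1 : 1 ≤ C) (hB : ∀ x, ‖iteratedFDeriv ℝ 31 f x‖ ≤ B)
    (hC : ∀ q ≤ 5, ∀ y, ‖iteratedFDeriv ℝ q (prof 0 0) y‖ ≤ C) {q : ℕ} (hq : q ≤ 5) (x : Pl) :
    ‖iteratedFDeriv ℝ q (fun y => cell M a 0 0 y * (f y - Tay 30 f a y)) x‖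
      ≤ 32 * C * B / (M : ℝ) ^ 26 := by
  have hM' : (100 : ℝ) ≤ M := by exact_mod_cast hM
  have hB0 : 0 ≤ B := (norm_nonneg _).trans (hB x)
  have hf' : ContDiff ℝ ((30 + 1 : ℕ)) f := by exact_mod_cast hf
  refine (norm_iteratedFDeriv_mul_le ((contDiff_cell M a 0 0).of_le le31)
    (hf.sub (contDiff_tay _ _ _ le31)) x (n := q) (mod_cast (by omega : q ≤ 31))).trans ?_
  have hterm : ∀ i ∈ Finset.range (q + 1), (q.choose i : ℝ) *
      ‖iteratedFDeriv ℝ i (cell M a 0 0) x‖ *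
      ‖iteratedFDeriv ℝ (q - i) (fun y => f y - Tay 30 f a y) x‖
        ≤ (q.choose i : ℝ) * (C * B / (M : ℝ) ^ 26) := by
    intro i hi
    have hiq : i ≤ q := Nat.lt_succ_iff.1 (Finset.mem_range.1 hi)
    rw [mul_assoc]
    gcongr
    by_cases hx : x ∈ closedBall a (1 / (M : ℝ))
    · calc ‖iteratedFDeriv ℝ i (cell M a 0 0) x‖ *
            ‖iteratedFDeriv ℝ (q - i) (fun y => f y - Tay 30 f a y) x‖
          ≤ (C * (M : ℝ) ^ i) * (B * (1 / (M : ℝ)) ^ (31 - (q - i))) :=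
            mul_le_mul (norm_iteratedFDeriv_cell M a 0 0 i (fun y => hC i (by omega) y) x)
              (tay_rem hf' hB a (by positivity) (q - i) (by omega) x hx) (norm_nonneg _)
              (by positivity)
        _ = C * B * (1 / (M : ℝ)) ^ (31 - q) := by
            rw [show 31 - (q - i) = (31 - q) + i by omega, pow_add, one_div, inv_pow, inv_pow]
            field_simp
        _ ≤ C * B / (M : ℝ) ^ 26 := by
            rw [one_div, inv_pow, ← div_eq_mul_inv]
            gcongr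
            · linarith
            · omega
    · have h0 : iteratedFDeriv ℝ i (cell M a 0 0) x = 0 := by
        by_contra h
        exact hx (tsupport_cell (by omega) a 0 0 (support_iteratedFDeriv_subset i h))
      rw [h0, norm_zero, zero_mul]
      positivity
  refine (Finset.sum_le_sum hterm).trans ?_
  rw [← Finset.sum_mul, ← Nat.cast_sum, Nat.sum_range_choose]
  calc ((2 ^ q : ℕ) : ℝ) * (C * B / (M : ℝ) ^ 26) ≤ ((2 ^ 5 : ℕ) : ℝ) * (C * B / (M : ℝ) ^ 26) := by
        gcongr; norm_num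
    _ = _ := by norm_num; ring

theorem round_err {Y : ℝ} {n : ℕ} (h : |Y| ≤ n) : |round Y| ≤ (n : ℤ) := by
  have h1 := abs_sub_round Y
  have h2 : |((round Y : ℤ) : ℝ)| < ((n + 1 : ℤ) : ℝ) := by
    have := abs_sub_abs_le_abs_sub ((round Y : ℤ) : ℝ) Y
    rw [abs_sub_comm] at this
    push_cast
    linarith
  have h3 : |round Y| < (n : ℤ) + 1 := by exact_mod_cast h2
  omega

theorem basisSpec : BasisSpec := by
  intro A B m
  obtain ⟨C, hC1, hC⟩ := exists_prof_bound (m + 5)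
  obtain ⟨K, hK⟩ : ∃ K, K = A + B + 1 := ⟨_, rfl⟩
  obtain ⟨A', hA'⟩ : ∃ A', A' = A + B + (m + 7) * K + 1 := ⟨_, rfl⟩
  obtain ⟨N1, hN1⟩ := exists_nat_ge (2 * 9 * 961 * 32 * C)
  refine ⟨A', max (max N1 100) (9 * 961), fun N hN => ?_⟩
  have hN100 : 100 ≤ N := le_trans (le_trans (le_max_right _ _) (le_max_left _ _)) hN
  have hNR : (100 : ℝ) ≤ N := by exact_mod_cast hN100
  have hN1R : 2 * 9 * 961 * 32 * C ≤ (N : ℝ) :=
    hN1.trans (by exact_mod_cast le_trans (le_trans (le_max_left _ _) (le_max_left _ _)) hN)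
  have hone : (1 : ℝ) ≤ N := by linarith
  obtain ⟨M, hMdef⟩ : ∃ M, M = N ^ K := ⟨_, rfl⟩
  have hM : 100 ≤ M := hMdef ▸ hN100.trans (Nat.le_self_pow (by omega) N)
  have hMR : (M : ℝ) = (N : ℝ) ^ K := by simp [hMdef]
  have hM1 : (1 : ℝ) ≤ M := by exact_mod_cast (by omega : 1 ≤ M)
  have hNpow : ∀ {a b : ℕ}, a ≤ b → (N : ℝ) ^ a ≤ (N : ℝ) ^ b := fun h =>
    pow_le_pow_right₀ hone h
  let ι := {p // p ∈ nodes M} × Fin 31 × Fin 31
  let e := Fintype.equivFin ι
  let b : ι → Pl → ℝ := fun u x => (N : ℝ) ^ A * cell M (node M u.1.1) u.2.1 u.2.2 x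
  have hcard : Fintype.card ι ≤ 9 * 961 * M ^ 2 := by
    have := card_nodes (M := M) (by omega)
    simp only [ι, Fintype.card_prod, Fintype.card_coe, Fintype.card_fin]
    linarith
  have hb : ∀ u, ContDiff ℝ ∞ (b u) := fun u => contDiff_const.mul (contDiff_cell _ _ _ _)
  have hbD : ∀ u q, q ≤ m + 5 → ∀ x,
      ‖iteratedFDeriv ℝ q (b u) x‖ ≤ (N : ℝ) ^ A * (C * (M : ℝ) ^ q) := by
    intro u q hq x
    rw [show b u = (N : ℝ) ^ A • cell M (node M u.1.1) u.2.1 u.2.2 from rfl,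
      iteratedFDeriv_const_smul_apply ((contDiff_cell _ _ _ _).of_le (mod_cast le_top)).contDiffAt,
      norm_smul, Real.norm_of_nonneg (by positivity)]
    gcongr
    exact norm_iteratedFDeriv_cell _ _ _ _ _ (fun y => hC u.2.1 u.2.2 q hq y) x
  have hCN : C ≤ (N : ℝ) := by linarith
  refine ⟨Fintype.card ι, fun l => b (e.symm l), ?_, fun l => ⟨hb _, ?_, ?_⟩, ?_⟩
  · calc Fintype.card ι ≤ 9 * 961 * M ^ 2 := hcard
      _ ≤ N * M ^ 2 := Nat.mul_le_mul_right _ (le_trans (le_max_right _ _) hN)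
      _ = N ^ (1 + 2 * K) := by rw [hMdef, pow_add, pow_one, mul_comm 2 K, pow_mul]
      _ ≤ N ^ A' := Nat.pow_le_pow_right (by omega) (by rw [hA']; nlinarith)
  · refine tsupport_mul_subset_right.trans ?_
    exact tsupport_cell_disc hM (e.symm l).1.2 _ _
  · intro q hq x _
    refine (hbD _ q (by omega) x).trans ?_
    calc (N : ℝ) ^ A * (C * (M : ℝ) ^ q) ≤ (N : ℝ) ^ A * (N * (M : ℝ) ^ m) := by gcongr
      _ = (N : ℝ) ^ (A + (1 + K * m)) := by rw [hMR, pow_add, pow_add, pow_one, ← pow_mul]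
      _ ≤ (N : ℝ) ^ A' := hNpow (by rw [hA']; nlinarith)
  intro f hf hfs hfb
  let coef : ι → ℝ := fun u => if (u.2.1 : ℕ) + (u.2.2 : ℕ) ≤ 30 then
    tayC f (node M u.1.1) u.2.1 u.2.2 / (M : ℝ) ^ ((u.2.1 : ℕ) + (u.2.2 : ℕ)) / (N : ℝ) ^ A else 0
  have hcoef : ∀ u, |coef u| ≤ 1 := by
    intro u
    simp only [coef]
    split_ifs with h
    · rw [abs_div, abs_div, abs_of_pos (show (0 : ℝ) < (N : ℝ) ^ A by positivity),
        abs_of_pos (show (0 : ℝ) < (M : ℝ) ^ _ by positivity), div_le_one (by positivity),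
        div_le_iff₀ (by positivity)]
      refine le_trans ?_ (le_mul_of_one_le_right (by positivity) (one_le_pow₀ hM1))
      rw [tayC, abs_div]
      refine (div_le_self (abs_nonneg _) ?_).trans
        ((abs_iter_le _ (hf.of_le (mod_cast (by omega)))).trans (hfb _ (by omega) _ (mem_univ _)))
      rw [abs_of_pos (by positivity)]
      exact_mod_cast Nat.mul_pos (Nat.factorial_pos _) (Nat.factorial_pos _)
    · simp
  let n : ι → ℤ := fun u => round (coef u * (N : ℝ) ^ A')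
  have hsum : ∀ x, ∑ u, coef u * b u x
      = ∑ p ∈ nodes M, cell M (node M p) 0 0 x * Tay 30 f (node M p) x := by
    intro x
    rw [Fintype.sum_prod_type, ← Finset.sum_coe_sort (nodes M)
      (fun p => cell M (node M p) 0 0 x * Tay 30 f (node M p) x)]
    refine Finset.sum_congr rfl fun p _ => ?_
    rw [Fintype.sum_prod_type, Tay, Finset.mul_sum]
    simp only [Finset.mul_sum]
    rw [← Fin.sum_univ_eq_sum_range]
    refine Finset.sum_congr rfl fun i _ => ?_
    rw [← Fin.sum_univ_eq_sum_range]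
    refine Finset.sum_congr rfl fun j _ => ?_
    simp only [coef, b]
    split_ifs with h
    · rw [← cell_mul_mono M (node M p.1) i j x]
      field_simp
    · simp
  refine ⟨fun l => n (e.symm l), fun l => ?_, fun q hq x _ => ?_⟩
  · have := round_err (Y := coef (e.symm l) * (N : ℝ) ^ A') (n := N ^ A') (by
      rw [abs_mul, abs_of_pos (show (0 : ℝ) < (N : ℝ) ^ A' by positivity)]
      push_cast
      exact mul_le_of_le_one_left (by positivity) (hcoef _))
    simpa [n] using this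
  let g1 : ℕ × ℕ → Pl → ℝ := fun p y =>
    cell M (node M p) 0 0 y * (f y - Tay 30 f (node M p) y)
  let g2 : ι → Pl → ℝ := fun u y => (coef u - (n u : ℝ) / (N : ℝ) ^ A') * b u y
  have heq : (fun y => f y - 1 / (N : ℝ) ^ A' * ∑ l, (n (e.symm l) : ℝ) * b (e.symm l) y)
      = (fun y => ∑ p ∈ nodes M, g1 p y) + fun y => ∑ u, g2 u y := by
    funext y
    rw [Pi.add_apply, e.symm.sum_comp (fun u => (n u : ℝ) * b u y)]
    simp only [g1, g2, mul_sub, sub_mul, Finset.sum_sub_distrib, hsum, glue_partition hM hfs]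
    rw [Finset.mul_sum]
    have : ∀ u, 1 / (N : ℝ) ^ A' * ((n u : ℝ) * b u y) = (n u : ℝ) / (N : ℝ) ^ A' * b u y :=
      fun u => by ring
    simp only [this]
    ring
  have hg1 : ∀ p, ContDiff ℝ 31 (g1 p) := fun p =>
    ((contDiff_cell _ _ _ _).of_le le31).mul
      (hf.sub (contDiff_tay _ _ _ le31))
  have hg2 : ∀ u, ContDiff ℝ 31 (g2 u) := fun u =>
    contDiff_const.mul ((hb u).of_le le31)
  rw [heq, iteratedFDeriv_add ((ContDiff.sum fun p _ => hg1 p).of_le (mod_cast (by omega : q ≤ 31)))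
    ((ContDiff.sum fun u _ => hg2 u).of_le (mod_cast (by omega : q ≤ 31)))]
  refine (norm_add_le _ _).trans ?_
  have hC00 : ∀ q ≤ 5, ∀ y, ‖iteratedFDeriv ℝ q (prof 0 0) y‖ ≤ C := fun q hq y =>
    hC 0 0 q (by omega) y
  have hM2 : ((nodes M).card : ℝ) ≤ 9 * (M : ℝ) ^ 2 := by
    exact_mod_cast card_nodes (M := M) (by omega)
  have hNB : (0 : ℝ) < (N : ℝ) ^ B := by positivity
  have t1 : ‖iteratedFDeriv ℝ q (fun y => ∑ p ∈ nodes M, g1 p y) x‖ ≤ 1 / (2 * (N : ℝ) ^ B) := by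
    calc _ ≤ ∑ p ∈ nodes M, ‖iteratedFDeriv ℝ q (g1 p) x‖ :=
          norm_iteratedFDeriv_sum_le _ (fun p _ => hg1 p) (by omega) x
      _ ≤ ∑ p ∈ nodes M, 32 * C * (N : ℝ) ^ A / (M : ℝ) ^ 26 :=
          Finset.sum_le_sum fun p _ => glue_error hM hf hC1
            (fun y => hfb 31 le_rfl y (mem_univ _)) hC00 hq x
      _ ≤ 9 * (M : ℝ) ^ 2 * (32 * C * (N : ℝ) ^ A / (M : ℝ) ^ 26) := by
          rw [Finset.sum_const, nsmul_eq_mul]
          gcongr
      _ = 9 * 32 * C * (N : ℝ) ^ A / (M : ℝ) ^ 24 := by field_simp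
      _ ≤ 1 / (2 * (N : ℝ) ^ B) := by
          rw [div_le_div_iff₀ (by positivity) (by positivity), one_mul]
          calc 9 * 32 * C * (N : ℝ) ^ A * (2 * (N : ℝ) ^ B)
              = (2 * 9 * 32 * C) * (N : ℝ) ^ (A + B) := by rw [pow_add]; ring
            _ ≤ N * (N : ℝ) ^ (A + B) := by gcongr; linarith
            _ = (N : ℝ) ^ K := by rw [hK, pow_succ (n := A + B)]; ring
            _ ≤ (M : ℝ) ^ 24 := by rw [hMR, ← pow_mul]; exact hNpow (by omega)
  have t2 : ‖iteratedFDeriv ℝ q (fun y => ∑ u, g2 u y) x‖ ≤ 1 / (2 * (N : ℝ) ^ B) := by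
    calc _ ≤ ∑ u, ‖iteratedFDeriv ℝ q (g2 u) x‖ :=
          norm_iteratedFDeriv_sum_le _ (fun u _ => hg2 u) (by omega) x
      _ ≤ ∑ _u : ι, 1 / (2 * (N : ℝ) ^ A') * ((N : ℝ) ^ A * (C * (M : ℝ) ^ 5)) := by
          refine Finset.sum_le_sum fun u _ => ?_
          rw [show g2 u = (coef u - (n u : ℝ) / (N : ℝ) ^ A') • b u from rfl,
            iteratedFDeriv_const_smul_apply ((hb u).of_le (mod_cast le_top)).contDiffAt, norm_smul,
            Real.norm_eq_abs]
          refine mul_le_mul ?_ ((hbD u q (by omega) x).trans ?_) (norm_nonneg _) (by positivity)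
          · have h := abs_sub_round (coef u * (N : ℝ) ^ A')
            rw [show coef u - (n u : ℝ) / (N : ℝ) ^ A'
              = (coef u * (N : ℝ) ^ A' - (n u : ℝ)) / (N : ℝ) ^ A' by field_simp, abs_div,
              abs_of_pos (show (0 : ℝ) < (N : ℝ) ^ A' by positivity), ← div_div]
            gcongr
          · gcongr
      _ ≤ (9 * 961 * (M : ℝ) ^ 2) * (1 / (2 * (N : ℝ) ^ A') * ((N : ℝ) ^ A * (C * (M : ℝ) ^ 5))) := by
          rw [Finset.sum_const, Finset.card_univ, nsmul_eq_mul]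
          gcongr
          exact_mod_cast hcard
      _ = (9 * 961 * C) * ((N : ℝ) ^ A * (M : ℝ) ^ 7) / (2 * (N : ℝ) ^ A') := by ring
      _ ≤ 1 / (2 * (N : ℝ) ^ B) := by
          rw [div_le_div_iff₀ (by positivity) (by positivity), one_mul]
          calc 9 * 961 * C * ((N : ℝ) ^ A * (M : ℝ) ^ 7) * (2 * (N : ℝ) ^ B)
              ≤ N * ((N : ℝ) ^ A * (M : ℝ) ^ 7) * (2 * (N : ℝ) ^ B) := by gcongr; linarith
            _ = 2 * (N : ℝ) ^ (1 + A + K * 7 + B) := by
                rw [hMR, pow_add, pow_add, pow_add, pow_mul, pow_one]; ring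
            _ ≤ 2 * (N : ℝ) ^ A' := by gcongr 2 * ?_; exact hNpow (by rw [hA']; nlinarith)
  calc _ ≤ 1 / (2 * (N : ℝ) ^ B) + 1 / (2 * (N : ℝ) ^ B) := add_le_add t1 t2
    _ = 1 / (N : ℝ) ^ B := by field_simp; ring

end Vale.Agent.P229
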