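import Vale.Agent.P229.Base

/-!
# P229: calculus of the bounds `BdOn`

All statements are for open sets and functions that are `C^k` there; the constants are explicit.
-/

open scoped ContDiff RealInnerProductSpace Nat
open Set Filter Topology

namespace Vale.Agent.P229

variable {F : Type*} [NormedAddCommGroup F] [NormedSpace ℝ F]
variable {G : Type*} [NormedAddCommGroup G] [NormedSpace ℝ G]
variable {U V : Set Pl} {k l : ℕ} {C C' : ℝ} {f g : Pl → F}

/-! ### Discs -/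

theorem isOpen_disc (R : ℝ) : IsOpen (disc R) :=
  isOpen_lt (by unfold nsq; fun_prop) continuous_const

theorem zero_mem_disc {R : ℝ} (hR : 0 < R) : (0 : Pl) ∈ disc R := by
  simp [disc, nsq]; positivity

theorem convexOn_nsq : ConvexOn ℝ univ nsq := by
  refine ⟨convex_univ, fun x _ y _ a b ha hb hab => ?_⟩
  simp only [nsq, Prod.fst_add, Prod.snd_add, Prod.smul_fst, Prod.smul_snd, smul_eq_mul]
  have hb' : b = 1 - a := by linarith
  subst hb'
  nlinarith [mul_nonneg (mul_nonneg ha hb) (sq_nonneg (x.1 - y.1)),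
    mul_nonneg (mul_nonneg ha hb) (sq_nonneg (x.2 - y.2))]

theorem convex_disc (R : ℝ) : Convex ℝ (disc R) := by
  have h := convexOn_nsq.convex_lt (R ^ 2)
  simpa [disc] using h

theorem disc_mono {a b : ℝ} (ha : 0 ≤ a) (h : a ≤ b) : disc a ⊆ disc b :=
  fun x hx => lt_of_lt_of_le (show nsq x < a ^ 2 from hx) (pow_le_pow_left₀ ha h 2)

theorem norm_sq_le_nsq (x : Pl) : ‖x‖ ^ 2 ≤ nsq x := by
  rw [Prod.norm_def, nsq, Real.norm_eq_abs, Real.norm_eq_abs]
  rcases max_cases |x.1| |x.2| with ⟨h, _⟩ | ⟨h, _⟩ <;> rw [h, sq_abs]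
  · nlinarith [sq_nonneg x.2]
  · nlinarith [sq_nonneg x.1]

theorem nsq_le_two_norm_sq (x : Pl) : nsq x ≤ 2 * ‖x‖ ^ 2 := by
  have h1 : |x.1| ≤ ‖x‖ := norm_fst_le x
  have h2 : |x.2| ≤ ‖x‖ := norm_snd_le x
  have h1' := pow_le_pow_left₀ (abs_nonneg _) h1 2
  have h2' := pow_le_pow_left₀ (abs_nonneg _) h2 2
  rw [sq_abs] at h1' h2'
  unfold nsq; linarith

theorem norm_lt_of_mem_disc {R : ℝ} (hR : 0 ≤ R) {x : Pl} (hx : x ∈ disc R) : ‖x‖ < R :=
  (pow_lt_pow_iff_left₀ (norm_nonneg _) hR two_ne_zero).1 (lt_of_le_of_lt (norm_sq_le_nsq x) hx)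

/-! ### Iterated derivatives on open sets -/

theorem norm_iteratedFDeriv_within_eq (hU : IsOpen U) {x : Pl} (hx : x ∈ U) (j : ℕ) (f : Pl → F) :
    ‖iteratedFDerivWithin ℝ j f U x‖ = ‖iteratedFDeriv ℝ j f x‖ := by
  rw [iteratedFDerivWithin_of_isOpen j hU hx]

theorem contDiffAt_of_open {n : ℕ∞ω} (hU : IsOpen U) (hf : ContDiffOn ℝ n f U) {x : Pl}
    (hx : x ∈ U) {j : ℕ} (hj : (j : ℕ∞ω) ≤ n) : ContDiffAt ℝ j f x :=
  (hf.contDiffAt (hU.mem_nhds hx)).of_le hj

/-! ### Elementary rules -/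

theorem BdOn.mono_const (h : BdOn U k C f) (hC : C ≤ C') : BdOn U k C' f :=
  fun j hj x hx => (h j hj x hx).trans hC

theorem BdOn.mono_order (h : BdOn U k C f) (hl : l ≤ k) : BdOn U l C f :=
  fun j hj x hx => h j (hj.trans hl) x hx

theorem BdOn.mono_set (h : BdOn U k C f) (hV : V ⊆ U) : BdOn V k C f :=
  fun j hj x hx => h j hj x (hV hx)

theorem BdOn.norm_le (h : BdOn U k C f) {x : Pl} (hx : x ∈ U) : ‖f x‖ ≤ C := by
  simpa using h 0 (Nat.zero_le _) x hx

theorem BdOn.nonneg (h : BdOn U k C f) {x : Pl} (hx : x ∈ U) : 0 ≤ C :=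
  (norm_nonneg _).trans (h.norm_le hx)

theorem BdOn.norm_fderiv_le (h : BdOn U k C f) (hk : 1 ≤ k) {x : Pl} (hx : x ∈ U) :
    ‖fderiv ℝ f x‖ ≤ C := by
  rw [← norm_iteratedFDeriv_one]; exact h 1 hk x hx

theorem BdOn.congr (hU : IsOpen U) (h : BdOn U k C f) (hfg : EqOn f g U) : BdOn U k C g := by
  intro j hj x hx
  have he : g =ᶠ[𝓝 x] f := eventually_of_mem (hU.mem_nhds hx) fun y hy => (hfg hy).symm
  rw [(he.iteratedFDeriv ℝ j).eq_of_nhds]
  exact h j hj x hx

theorem bdOn_const (U : Set Pl) (k : ℕ) (c : F) : BdOn U k ‖c‖ (fun _ : Pl => c) := by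
  intro j _ x _
  rcases j with _ | j
  · simp
  · simp [iteratedFDeriv_const_of_ne (𝕜 := ℝ) (Nat.succ_ne_zero j) c]

theorem bdOn_zero (U : Set Pl) (k : ℕ) : BdOn U k 0 (fun _ : Pl => (0 : F)) := by
  simpa using bdOn_const U k (0 : F)

theorem BdOn.add (hU : IsOpen U) (hf : ContDiffOn ℝ k f U) (hg : ContDiffOn ℝ k g U)
    (h : BdOn U k C f) (h' : BdOn U k C' g) : BdOn U k (C + C') (fun x => f x + g x) := by
  intro j hj x hx
  rw [fun_iteratedFDeriv_add_apply (contDiffAt_of_open hU hf hx (mod_cast hj))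
    (contDiffAt_of_open hU hg hx (mod_cast hj))]
  exact (norm_add_le _ _).trans (add_le_add (h j hj x hx) (h' j hj x hx))

theorem BdOn.neg (h : BdOn U k C f) : BdOn U k C (fun x => -f x) := by
  intro j hj x hx
  have he : (fun x => -f x) = -f := rfl
  rw [he, iteratedFDeriv_neg_apply, norm_neg]
  exact h j hj x hx

theorem BdOn.sub (hU : IsOpen U) (hf : ContDiffOn ℝ k f U) (hg : ContDiffOn ℝ k g U)
    (h : BdOn U k C f) (h' : BdOn U k C' g) : BdOn U k (C + C') (fun x => f x - g x) := by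
  simpa [sub_eq_add_neg] using h.add hU hf hg.neg h'.neg

theorem BdOn.sum (hU : IsOpen U) {ι : Type*} (s : Finset ι) (f : ι → Pl → F) (C : ι → ℝ)
    (hf : ∀ i ∈ s, ContDiffOn ℝ k (f i) U) (h : ∀ i ∈ s, BdOn U k (C i) (f i)) :
    BdOn U k (∑ i ∈ s, C i) (fun x => ∑ i ∈ s, f i x) := by
  classical
  induction s using Finset.induction_on with
  | empty => simpa using bdOn_zero (F := F) U k
  | insert a s ha ih =>
    simp only [Finset.sum_insert ha]
    exact (h a (Finset.mem_insert_self a s)).add hU (hf a (Finset.mem_insert_self a s))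
      (ContDiffOn.sum fun i hi => hf i (Finset.mem_insert_of_mem hi))
      (ih (fun i hi => hf i (Finset.mem_insert_of_mem hi))
        (fun i hi => h i (Finset.mem_insert_of_mem hi)))

theorem BdOn.comp_clm (hU : IsOpen U) (L : F →L[ℝ] G) (hf : ContDiffOn ℝ k f U)
    (h : BdOn U k C f) : BdOn U k (‖L‖ * C) (fun x => L (f x)) := by
  intro j hj x hx
  exact (L.norm_iteratedFDeriv_comp_left (hf.contDiffAt (hU.mem_nhds hx)) (mod_cast hj)).trans
    (mul_le_mul_of_nonneg_left (h j hj x hx) (norm_nonneg L))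

theorem BdOn.const_smul (hU : IsOpen U) (r : ℝ) (hf : ContDiffOn ℝ k f U)
    (h : BdOn U k C f) : BdOn U k (|r| * C) (fun x => r • f x) := by
  intro j hj x hx
  rw [iteratedFDeriv_const_smul_apply' (contDiffAt_of_open hU hf hx (mod_cast hj)), norm_smul,
    Real.norm_eq_abs]
  exact mul_le_mul_of_nonneg_left (h j hj x hx) (abs_nonneg r)

theorem BdOn.const_mul {f : Pl → ℝ} (hU : IsOpen U) (r : ℝ) (hf : ContDiffOn ℝ k f U)
    (h : BdOn U k C f) : BdOn U k (|r| * C) (fun x => r * f x) := by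
  simpa using h.const_smul hU r hf

theorem BdOn.inner_const {f : Pl → R3} (hU : IsOpen U) (e : R3) (hf : ContDiffOn ℝ k f U)
    (h : BdOn U k C f) : BdOn U k (‖e‖ * C) (fun x => ⟪f x, e⟫) := by
  rcases U.eq_empty_or_nonempty with rfl | ⟨x₀, hx₀⟩
  · intro j _ x hx; exact absurd hx (notMem_empty x)
  have hL : ‖(innerSL ℝ e : R3 →L[ℝ] ℝ)‖ = ‖e‖ := innerSL_apply_norm ℝ e
  have h2 := h.comp_clm hU (innerSL ℝ e) hf
  rw [hL] at h2
  exact h2.congr hU fun x _ => by simp [innerSL_apply_apply, real_inner_comm]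

theorem BdOn.prodMk {g : Pl → G} (hU : IsOpen U) (hf : ContDiffOn ℝ k f U)
    (hg : ContDiffOn ℝ k g U) (h : BdOn U k C f) (h' : BdOn U k C' g) :
    BdOn U k (max C C') (fun x => (f x, g x)) := by
  intro j hj x hx
  rw [iteratedFDeriv_prodMk (n := (j : ℕ∞ω)) (contDiffAt_of_open hU hf hx (mod_cast hj))
    (contDiffAt_of_open hU hg hx (mod_cast hj)) le_rfl, ContinuousMultilinearMap.opNorm_prod]
  exact max_le_max (h j hj x hx) (h' j hj x hx)

theorem BdOn.fst {f : Pl → F × G} (hU : IsOpen U) (hf : ContDiffOn ℝ k f U) (h : BdOn U k C f) :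
    BdOn U k C (fun x => (f x).1) := by
  intro j hj x hx
  exact ((ContinuousLinearMap.fst ℝ F G).norm_iteratedFDeriv_comp_left
    (hf.contDiffAt (hU.mem_nhds hx)) (mod_cast hj)).trans
    ((mul_le_of_le_one_left (norm_nonneg _) (ContinuousLinearMap.norm_fst_le ℝ F G)).trans
      (h j hj x hx))

theorem BdOn.snd {f : Pl → F × G} (hU : IsOpen U) (hf : ContDiffOn ℝ k f U) (h : BdOn U k C f) :
    BdOn U k C (fun x => (f x).2) := by
  intro j hj x hx
  exact ((ContinuousLinearMap.snd ℝ F G).norm_iteratedFDeriv_comp_left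
    (hf.contDiffAt (hU.mem_nhds hx)) (mod_cast hj)).trans
    ((mul_le_of_le_one_left (norm_nonneg _) (ContinuousLinearMap.norm_snd_le ℝ F G)).trans
      (h j hj x hx))

/-! ### Products -/

theorem BdOn.bilinear {H : Type*} [NormedAddCommGroup H] [NormedSpace ℝ H] (B : F →L[ℝ] G →L[ℝ] H)
    (hB : ‖B‖ ≤ 1) {g : Pl → G} (hU : IsOpen U) (hf : ContDiffOn ℝ k f U)
    (hg : ContDiffOn ℝ k g U) (h : BdOn U k C f) (h' : BdOn U k C' g) :
    BdOn U k (2 ^ k * C * C') (fun x => B (f x) (g x)) := by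
  intro j hj x hx
  have hC := h.nonneg hx
  have hC' := h'.nonneg hx
  rw [← norm_iteratedFDeriv_within_eq hU hx]
  refine (B.norm_iteratedFDerivWithin_le_of_bilinear_of_le_one hf hg hU.uniqueDiffOn hx
    (mod_cast hj) hB).trans ?_
  calc ∑ i ∈ Finset.range (j + 1), (j.choose i : ℝ) * ‖iteratedFDerivWithin ℝ i f U x‖ *
        ‖iteratedFDerivWithin ℝ (j - i) g U x‖
      ≤ ∑ i ∈ Finset.range (j + 1), (j.choose i : ℝ) * C * C' := by
        refine Finset.sum_le_sum fun i hi => ?_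
        rw [norm_iteratedFDeriv_within_eq hU hx, norm_iteratedFDeriv_within_eq hU hx]
        have hij : i ≤ j := Nat.lt_succ_iff.1 (Finset.mem_range.1 hi)
        gcongr
        · exact h i (hij.trans hj) x hx
        · exact h' (j - i) ((Nat.sub_le _ _).trans hj) x hx
    _ = 2 ^ j * C * C' := by
        rw [← Finset.sum_mul, ← Finset.sum_mul]
        norm_cast
        rw [Nat.sum_range_choose]
    _ ≤ 2 ^ k * C * C' := by
        gcongr
        norm_num

theorem BdOn.smul {a : Pl → ℝ} (hU : IsOpen U) (ha : ContDiffOn ℝ k a U)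
    (hg : ContDiffOn ℝ k g U) (h : BdOn U k C a) (h' : BdOn U k C' g) :
    BdOn U k (2 ^ k * C * C') (fun x => a x • g x) :=
  h.bilinear (ContinuousLinearMap.lsmul ℝ ℝ) ContinuousLinearMap.opNorm_lsmul_le hU ha hg h'

theorem BdOn.mul {f g : Pl → ℝ} (hU : IsOpen U) (hf : ContDiffOn ℝ k f U)
    (hg : ContDiffOn ℝ k g U) (h : BdOn U k C f) (h' : BdOn U k C' g) :
    BdOn U k (2 ^ k * C * C') (fun x => f x * g x) :=
  h.bilinear (ContinuousLinearMap.mul ℝ ℝ) (ContinuousLinearMap.opNorm_mul_le ℝ ℝ) hU hf hg h'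

theorem BdOn.inner {f g : Pl → R3} (hU : IsOpen U) (hf : ContDiffOn ℝ k f U)
    (hg : ContDiffOn ℝ k g U) (h : BdOn U k C f) (h' : BdOn U k C' g) :
    BdOn U k (2 ^ k * C * C') (fun x => ⟪f x, g x⟫) :=
  h.bilinear (innerSL ℝ : R3 →L[ℝ] R3 →L[ℝ] ℝ) (norm_innerSL_le ℝ) hU hf hg h'

theorem BdOn.pow {f : Pl → ℝ} (hU : IsOpen U) (hf : ContDiffOn ℝ k f U) (h : BdOn U k C f) :
    ∀ n : ℕ, BdOn U k ((2 ^ k * C) ^ n) (fun x => f x ^ n)
  | 0 => by simpa using bdOn_const U k (1 : ℝ)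
  | n + 1 => by
      have := (BdOn.pow hU hf h n).mul hU (hf.pow n) hf h
      simp only [pow_succ]
      convert this using 1
      ring

/-! ### Composition -/

/-- Composition with a map of a set `V` of a general space. -/
theorem bdOn_comp {E : Type*} [NormedAddCommGroup E] [NormedSpace ℝ E] {V : Set E} {h : E → F}
    {g : Pl → E} (hU : IsOpen U) (hV : IsOpen V) (hmaps : MapsTo g U V)
    (hh : ContDiffOn ℝ k h V) (hg : ContDiffOn ℝ k g U)
    (hb : ∀ j ≤ k, ∀ y ∈ V, ‖iteratedFDeriv ℝ j h y‖ ≤ C)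
    (hgb : ∀ j, 1 ≤ j → j ≤ k → ∀ x ∈ U, ‖iteratedFDeriv ℝ j g x‖ ≤ C') :
    BdOn U k (k ! * C * max 1 C' ^ k) (fun x => h (g x)) := by
  intro j hj x hx
  have hC : 0 ≤ C := (norm_nonneg _).trans (hb 0 (Nat.zero_le _) (g x) (hmaps hx))
  rw [← norm_iteratedFDeriv_within_eq hU hx]
  have := norm_iteratedFDerivWithin_comp_le hh hg (n := j) (mod_cast hj) hV.uniqueDiffOn
    hU.uniqueDiffOn hmaps hx (C := C) (D := max 1 C')
    (fun i hi => by
      rw [iteratedFDerivWithin_of_isOpen i hV (hmaps hx)]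
      exact hb i (hi.trans hj) (g x) (hmaps hx))
    (fun i hi hi' => by
      rw [norm_iteratedFDeriv_within_eq hU hx]
      exact ((hgb i hi (hi'.trans hj) x hx).trans (le_max_right 1 C')).trans
        (le_self_pow₀ (le_max_left 1 C') (by omega)))
  refine this.trans ?_
  have hfac : (j ! : ℝ) ≤ k ! := mod_cast Nat.factorial_le hj
  have hpow : max 1 C' ^ j ≤ max 1 C' ^ k := pow_le_pow_right₀ (le_max_left 1 C') hj
  gcongr

theorem BdOn.comp {g : Pl → Pl} (hU : IsOpen U) (hV : IsOpen V) (hmaps : MapsTo g U V)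
    (hf : ContDiffOn ℝ k f V) (hg : ContDiffOn ℝ k g U) (h : BdOn V k C f) (h' : BdOn U k C' g) :
    BdOn U k (k ! * C * max 1 C' ^ k) (fun x => f (g x)) :=
  bdOn_comp hU hV hmaps hf hg h (fun j _ hj x hx => h' j hj x hx)

/-- Composition when only the derivatives of the inner map are bounded. -/
theorem BdOn.comp' {g : Pl → Pl} (hU : IsOpen U) (hV : IsOpen V) (hmaps : MapsTo g U V)
    (hf : ContDiffOn ℝ k f V) (hg : ContDiffOn ℝ k g U) (h : BdOn V k C f)
    (h' : ∀ j, 1 ≤ j → j ≤ k → ∀ x ∈ U, ‖iteratedFDeriv ℝ j g x‖ ≤ C') :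
    BdOn U k (k ! * C * max 1 C' ^ k) (fun x => f (g x)) :=
  bdOn_comp hU hV hmaps hf hg h h'

/-- The constant of `BdOn.inv`. -/
noncomputable def invC (k : ℕ) (c C : ℝ) : ℝ :=
  k ! * (k ! * max 1 c⁻¹ ^ (k + 1)) * max 1 C ^ k

theorem iteratedFDeriv_inv_le {c : ℝ} (hc : 0 < c) {j : ℕ} (hj : j ≤ k) {t : ℝ} (ht : c ≤ |t|) :
    ‖iteratedFDeriv ℝ j (Inv.inv : ℝ → ℝ) t‖ ≤ k ! * max 1 c⁻¹ ^ (k + 1) := by
  rw [norm_iteratedFDeriv_eq_norm_iteratedDeriv, iteratedDeriv_eq_iterate, iter_deriv_inv,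
    norm_mul, norm_mul, norm_pow, norm_neg, norm_one, one_pow, one_mul, RCLike.norm_natCast,
    show (-1 - (j : ℤ)) = -((j + 1 : ℕ) : ℤ) by push_cast; ring, zpow_neg, zpow_natCast,
    norm_inv, norm_pow, Real.norm_eq_abs, ← inv_pow]
  have h1 : |t|⁻¹ ≤ max 1 c⁻¹ :=
    ((inv_le_inv₀ (hc.trans_le ht) hc).2 ht).trans (le_max_right _ _)
  have h2 : (j ! : ℝ) ≤ k ! := mod_cast Nat.factorial_le hj
  refine mul_le_mul h2 ?_ (by positivity) (by positivity)
  exact (pow_le_pow_left₀ (by positivity) h1 _).trans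
    (pow_le_pow_right₀ (le_max_left _ _) (by omega))

theorem BdOn.inv {f : Pl → ℝ} (hU : IsOpen U) {c : ℝ} (hc : 0 < c) (hf : ContDiffOn ℝ k f U)
    (h : BdOn U k C f) (hlow : ∀ x ∈ U, c ≤ |f x|) :
    BdOn U k (invC k c C) (fun x => (f x)⁻¹) := by
  intro j hj x hx
  have hne : ∀ y ∈ U, f y ≠ 0 := fun y hy h0 => by
    have := hlow y hy; rw [h0] at this; simp at this; linarith
  have hcd : ContDiffOn ℝ k (Inv.inv : ℝ → ℝ) {0}ᶜ := fun y hy =>
    (contDiffAt_inv ℝ hy).contDiffWithinAt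
  rw [← norm_iteratedFDeriv_within_eq hU hx]
  have := norm_iteratedFDerivWithin_comp_le hcd hf (n := j) (mod_cast hj)
    isOpen_compl_singleton.uniqueDiffOn hU.uniqueDiffOn (fun y hy => hne y hy) hx
    (C := k ! * max 1 c⁻¹ ^ (k + 1)) (D := max 1 C)
    (fun i hi => by
      rw [iteratedFDerivWithin_of_isOpen i isOpen_compl_singleton (hne x hx)]
      exact iteratedFDeriv_inv_le hc (hi.trans hj) (hlow x hx))
    (fun i hi hi' => by
      rw [norm_iteratedFDeriv_within_eq hU hx]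
      exact ((h i (hi'.trans hj) x hx).trans (le_max_right 1 C)).trans
        (le_self_pow₀ (le_max_left 1 C) (by omega)))
  refine this.trans ?_
  have hfac : (j ! : ℝ) ≤ k ! := mod_cast Nat.factorial_le hj
  have hpow : max 1 C ^ j ≤ max 1 C ^ k := pow_le_pow_right₀ (le_max_left 1 C) hj
  unfold invC
  gcongr

theorem BdOn.div {f g : Pl → ℝ} (hU : IsOpen U) {c : ℝ} (hc : 0 < c) (hf : ContDiffOn ℝ k f U)
    (hg : ContDiffOn ℝ k g U) (h : BdOn U k C f) (h' : BdOn U k C' g)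
    (hlow : ∀ x ∈ U, c ≤ |g x|) :
    BdOn U k (2 ^ k * C * invC k c C') (fun x => f x / g x) := by
  have hne : ∀ y ∈ U, g y ≠ 0 := fun y hy h0 => by
    have := hlow y hy; rw [h0] at this; simp at this; linarith
  simpa [div_eq_mul_inv] using h.mul hU hf (hg.inv hne) (h'.inv hU hc hg hlow)

/-! ### Derivatives -/

theorem BdOn.fderiv_bound (h : BdOn U (k + 1) C f) : BdOn U k C (fderiv ℝ f) := by
  intro j hj x hx
  rw [norm_iteratedFDeriv_fderiv]
  exact h (j + 1) (by omega) x hx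

theorem ContDiffOn.fderivPl (hU : IsOpen U) (hf : ContDiffOn ℝ (k + 1 : ℕ) f U) :
    ContDiffOn ℝ k (fderiv ℝ f) U :=
  hf.fderiv_of_isOpen hU (by norm_cast)

theorem contDiffOn_apply_fderiv (hU : IsOpen U) (hf : ContDiffOn ℝ (k + 1 : ℕ) f U) (v : Pl) :
    ContDiffOn ℝ k (fun x => fderiv ℝ f x v) U :=
  (ContDiffOn.fderivPl hU hf).clm_apply contDiffOn_const

theorem contDiffOn_d1 (hU : IsOpen U) (hf : ContDiffOn ℝ (k + 1 : ℕ) f U) :
    ContDiffOn ℝ k (d1 f) U :=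
  contDiffOn_apply_fderiv hU hf (1, 0)

theorem contDiffOn_d2 (hU : IsOpen U) (hf : ContDiffOn ℝ (k + 1 : ℕ) f U) :
    ContDiffOn ℝ k (d2 f) U :=
  contDiffOn_apply_fderiv hU hf (0, 1)

theorem BdOn.apply_fderiv (hU : IsOpen U) (hf : ContDiffOn ℝ (k + 1 : ℕ) f U)
    (h : BdOn U (k + 1) C f) (v : Pl) : BdOn U k (‖v‖ * C) (fun x => fderiv ℝ f x v) := by
  intro j hj x hx
  exact (norm_iteratedFDeriv_clm_apply_const
    ((ContDiffOn.fderivPl hU hf).contDiffAt (hU.mem_nhds hx)) (mod_cast hj)).trans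
    (mul_le_mul_of_nonneg_left (h.fderiv_bound j hj x hx) (norm_nonneg v))

theorem norm_e1 : ‖((1, 0) : Pl)‖ = 1 := by simp [Prod.norm_def]

theorem norm_e2 : ‖((0, 1) : Pl)‖ = 1 := by simp [Prod.norm_def]

theorem BdOn.d1 (hU : IsOpen U) (hf : ContDiffOn ℝ (k + 1 : ℕ) f U)
    (h : BdOn U (k + 1) C f) : BdOn U k C (P229.d1 f) := by
  have := h.apply_fderiv hU hf (1, 0)
  rwa [norm_e1, one_mul] at this

theorem BdOn.d2 (hU : IsOpen U) (hf : ContDiffOn ℝ (k + 1 : ℕ) f U)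
    (h : BdOn U (k + 1) C f) : BdOn U k C (P229.d2 f) := by
  have := h.apply_fderiv hU hf (0, 1)
  rwa [norm_e2, one_mul] at this

theorem clm_apply_eq_d (L : Pl →L[ℝ] F) (v : Pl) : L v = v.1 • L (1, 0) + v.2 • L (0, 1) := by
  rw [← L.map_smul, ← L.map_smul, ← L.map_add]
  congr 1
  ext <;> simp

theorem norm_clm_le_d (L : Pl →L[ℝ] F) : ‖L‖ ≤ ‖L (1, 0)‖ + ‖L (0, 1)‖ := by
  refine L.opNorm_le_bound (by positivity) fun v => ?_
  rw [clm_apply_eq_d L v, add_mul]
  refine (norm_add_le _ _).trans (add_le_add ?_ ?_)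
  · rw [norm_smul, mul_comm]
    exact mul_le_mul_of_nonneg_left (norm_fst_le v) (norm_nonneg _)
  · rw [norm_smul, mul_comm]
    exact mul_le_mul_of_nonneg_left (norm_snd_le v) (norm_nonneg _)

/-! ### Rules for the partial derivatives -/

theorem diffAt_of_open {n : ℕ∞ω} (hU : IsOpen U) (hf : ContDiffOn ℝ n f U) (hn : 1 ≤ n) {x : Pl}
    (hx : x ∈ U) : DifferentiableAt ℝ f x :=
  (hf.contDiffAt (hU.mem_nhds hx)).differentiableAt (zero_lt_one.trans_le hn).ne'

theorem d1_congr (hU : IsOpen U) (hfg : EqOn f g U) {x : Pl} (hx : x ∈ U) : d1 f x = d1 g x := by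
  have he : f =ᶠ[𝓝 x] g := eventually_of_mem (hU.mem_nhds hx) fun y hy => hfg hy
  simp [P229.d1, he.fderiv_eq]

theorem d2_congr (hU : IsOpen U) (hfg : EqOn f g U) {x : Pl} (hx : x ∈ U) : d2 f x = d2 g x := by
  have he : f =ᶠ[𝓝 x] g := eventually_of_mem (hU.mem_nhds hx) fun y hy => hfg hy
  simp [P229.d2, he.fderiv_eq]

theorem d1_add {x : Pl} (hf : DifferentiableAt ℝ f x) (hg : DifferentiableAt ℝ g x) :
    d1 (fun y => f y + g y) x = d1 f x + d1 g x := by
  simp [P229.d1, fderiv_fun_add hf hg]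

theorem d2_add {x : Pl} (hf : DifferentiableAt ℝ f x) (hg : DifferentiableAt ℝ g x) :
    d2 (fun y => f y + g y) x = d2 f x + d2 g x := by
  simp [P229.d2, fderiv_fun_add hf hg]

theorem d1_sub {x : Pl} (hf : DifferentiableAt ℝ f x) (hg : DifferentiableAt ℝ g x) :
    d1 (fun y => f y - g y) x = d1 f x - d1 g x := by
  simp [P229.d1, fderiv_fun_sub hf hg]

theorem d2_sub {x : Pl} (hf : DifferentiableAt ℝ f x) (hg : DifferentiableAt ℝ g x) :
    d2 (fun y => f y - g y) x = d2 f x - d2 g x := by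
  simp [P229.d2, fderiv_fun_sub hf hg]

theorem d1_const_smul {x : Pl} (r : ℝ) (hf : DifferentiableAt ℝ f x) :
    d1 (fun y => r • f y) x = r • d1 f x := by
  simp [P229.d1, fderiv_fun_const_smul hf r]

theorem d2_const_smul {x : Pl} (r : ℝ) (hf : DifferentiableAt ℝ f x) :
    d2 (fun y => r • f y) x = r • d2 f x := by
  simp [P229.d2, fderiv_fun_const_smul hf r]

theorem d1_mul {f g : Pl → ℝ} {x : Pl} (hf : DifferentiableAt ℝ f x)
    (hg : DifferentiableAt ℝ g x) :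
    d1 (fun y => f y * g y) x = d1 f x * g x + f x * d1 g x := by
  simp [P229.d1, fderiv_fun_mul hf hg]; ring

theorem d2_mul {f g : Pl → ℝ} {x : Pl} (hf : DifferentiableAt ℝ f x)
    (hg : DifferentiableAt ℝ g x) :
    d2 (fun y => f y * g y) x = d2 f x * g x + f x * d2 g x := by
  simp [P229.d2, fderiv_fun_mul hf hg]; ring

theorem d1_comp {P : Pl → Pl} {x : Pl} (hf : DifferentiableAt ℝ f (P x))
    (hP : DifferentiableAt ℝ P x) :
    d1 (fun y => f (P y)) x = (d1 P x).1 • d1 f (P x) + (d1 P x).2 • d2 f (P x) := by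
  simp only [P229.d1, P229.d2]
  rw [show (fun y => f (P y)) = f ∘ P from rfl, fderiv_comp (g := f) x hf hP]
  exact clm_apply_eq_d (fderiv ℝ f (P x)) _

theorem d2_comp {P : Pl → Pl} {x : Pl} (hf : DifferentiableAt ℝ f (P x))
    (hP : DifferentiableAt ℝ P x) :
    d2 (fun y => f (P y)) x = (d2 P x).1 • d1 f (P x) + (d2 P x).2 • d2 f (P x) := by
  simp only [P229.d1, P229.d2]
  rw [show (fun y => f (P y)) = f ∘ P from rfl, fderiv_comp (g := f) x hf hP]
  exact clm_apply_eq_d (fderiv ℝ f (P x)) _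

theorem d1_d2_comm (hU : IsOpen U) (hf : ContDiffOn ℝ (2 : ℕ) f U) {x : Pl} (hx : x ∈ U) :
    d1 (d2 f) x = d2 (d1 f) x := by
  have hdd : DifferentiableAt ℝ (fderiv ℝ f) x :=
    diffAt_of_open hU (ContDiffOn.fderivPl (k := 1) hU hf) le_rfl hx
  have key : ∀ v w : Pl,
      fderiv ℝ (fun y => fderiv ℝ f y v) x w = fderiv ℝ (fderiv ℝ f) x w v := by
    intro v w
    rw [fderiv_clm_apply hdd (differentiableAt_const v)]
    simp
  have hs : IsSymmSndFDerivAt ℝ f x :=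
    (hf.contDiffAt (hU.mem_nhds hx)).isSymmSndFDerivAt (by simp)
  show fderiv ℝ (fun y => fderiv ℝ f y (0, 1)) x (1, 0) =
    fderiv ℝ (fun y => fderiv ℝ f y (1, 0)) x (0, 1)
  rw [key, key]
  exact hs.eq _ _

/-! ### A converse, coordinates, affine maps -/

/-- Bounds on the differential and on the function give bounds one order higher. -/
theorem BdOn.of_fderiv (h0 : ∀ x ∈ U, ‖f x‖ ≤ C) (h : BdOn U k C (fderiv ℝ f)) :
    BdOn U (k + 1) C f := by
  intro j hj x hx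
  rcases j with _ | j
  · simpa using h0 x hx
  · rw [← norm_iteratedFDeriv_fderiv]
    exact h j (by omega) x hx

/-- Bounds on both partial derivatives and on the function give bounds one order higher. -/
theorem BdOn.of_d1_d2 (hU : IsOpen U) (hf : ContDiffOn ℝ (k + 1 : ℕ) f U)
    (h0 : ∀ x ∈ U, ‖f x‖ ≤ C) (h1 : BdOn U k C (P229.d1 f)) (h2 : BdOn U k C' (P229.d2 f)) :
    BdOn U (k + 1) (C + C') f := by
  rcases U.eq_empty_or_nonempty with rfl | ⟨x₀, hx₀⟩
  · intro j _ x hx; exact absurd hx (notMem_empty x)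
  refine BdOn.of_fderiv (fun x hx => (h0 x hx).trans (le_add_of_nonneg_right (h2.nonneg hx₀))) ?_
  let L : Pl →L[ℝ] ℝ := ContinuousLinearMap.fst ℝ ℝ ℝ
  let M : Pl →L[ℝ] ℝ := ContinuousLinearMap.snd ℝ ℝ ℝ
  have hA : ‖ContinuousLinearMap.smulRightL ℝ Pl F L‖ ≤ 1 :=
    ContinuousLinearMap.opNorm_le_bound _ zero_le_one fun c => by
      change ‖L.smulRight c‖ ≤ _
      rw [ContinuousLinearMap.norm_smulRight_apply]
      exact mul_le_mul_of_nonneg_right (ContinuousLinearMap.norm_fst_le ℝ ℝ ℝ) (norm_nonneg c)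
  have hB : ‖ContinuousLinearMap.smulRightL ℝ Pl F M‖ ≤ 1 :=
    ContinuousLinearMap.opNorm_le_bound _ zero_le_one fun c => by
      change ‖M.smulRight c‖ ≤ _
      rw [ContinuousLinearMap.norm_smulRight_apply]
      exact mul_le_mul_of_nonneg_right (ContinuousLinearMap.norm_snd_le ℝ ℝ ℝ) (norm_nonneg c)
  have hd1 := contDiffOn_d1 hU hf
  have hd2 := contDiffOn_d2 hU hf
  have ha := h1.comp_clm hU (ContinuousLinearMap.smulRightL ℝ Pl F L) hd1
  have hb := h2.comp_clm hU (ContinuousLinearMap.smulRightL ℝ Pl F M) hd2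
  have ha' := ha.mono_const (mul_le_of_le_one_left (h1.nonneg hx₀) hA)
  have hb' := hb.mono_const (mul_le_of_le_one_left (h2.nonneg hx₀) hB)
  refine (ha'.add hU ((ContinuousLinearMap.contDiff _).comp_contDiffOn hd1)
    ((ContinuousLinearMap.contDiff _).comp_contDiffOn hd2) hb').congr hU fun x _ => ?_
  refine ContinuousLinearMap.ext fun v => ?_
  rw [clm_apply_eq_d (fderiv ℝ f x) v]
  rfl

theorem bdOn_id_disc {R : ℝ} (hR : 0 ≤ R) (k : ℕ) : BdOn (disc R) k (max R 1) (id : Pl → Pl) := by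
  intro j _ x hx
  rcases j with _ | _ | j
  · simpa using Or.inl (norm_lt_of_mem_disc hR hx).le
  · rw [norm_iteratedFDeriv_one, fderiv_id]
    exact ContinuousLinearMap.norm_id_le.trans (le_max_right _ _)
  · have hid : fderiv ℝ (id : Pl → Pl) = fun _ => ContinuousLinearMap.id ℝ Pl :=
      funext fun y => fderiv_id
    have h : iteratedFDeriv ℝ (j + 1) (fderiv ℝ (id : Pl → Pl)) x = 0 := by
      rw [hid, iteratedFDeriv_const_of_ne (Nat.succ_ne_zero j)]
      rfl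
    rw [← norm_iteratedFDeriv_fderiv, h, norm_zero]
    exact le_max_of_le_left hR

theorem bdOn_fst_disc {R : ℝ} (hR : 0 ≤ R) (k : ℕ) :
    BdOn (disc R) k (max R 1) (fun x : Pl => x.1) :=
  (bdOn_id_disc hR k).fst (isOpen_disc R) contDiffOn_id

theorem bdOn_snd_disc {R : ℝ} (hR : 0 ≤ R) (k : ℕ) :
    BdOn (disc R) k (max R 1) (fun x : Pl => x.2) :=
  (bdOn_id_disc hR k).snd (isOpen_disc R) contDiffOn_id

/-! ### Mean value inequality and compact sets -/

theorem BdOn.lip (hU : IsOpen U) (hc : Convex ℝ U) (hf : ContDiffOn ℝ k f U) (h : BdOn U k C f)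
    (hk : 1 ≤ k) {x y : Pl} (hx : x ∈ U) (hy : y ∈ U) : ‖f x - f y‖ ≤ C * ‖x - y‖ :=
  hc.norm_image_sub_le_of_norm_fderiv_le
    (fun _ hz => diffAt_of_open hU hf (mod_cast hk) hz)
    (fun _ hz => h.norm_fderiv_le hk hz) hy hx

theorem exists_bdOn_compact (hU : IsOpen U) (hf : ContDiffOn ℝ k f U) {K : Set Pl}
    (hK : IsCompact K) (hKU : K ⊆ U) : ∃ C, 0 ≤ C ∧ BdOn K k C f := by
  have hcont : ∀ j ∈ Finset.range (k + 1), ∃ B, ∀ x ∈ K, ‖iteratedFDeriv ℝ j f x‖ ≤ B := by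
    intro j hj
    have hjk : j ≤ k := Nat.lt_succ_iff.1 (Finset.mem_range.1 hj)
    have h1 : ContinuousOn (iteratedFDeriv ℝ j f) U :=
      (hf.continuousOn_iteratedFDerivWithin (mod_cast hjk) hU.uniqueDiffOn).congr
        fun x hx => (iteratedFDerivWithin_of_isOpen j hU hx).symm
    exact hK.exists_bound_of_continuousOn (h1.mono hKU)
  choose! B hB using hcont
  refine ⟨∑ j ∈ Finset.range (k + 1), |B j|, Finset.sum_nonneg fun j _ => abs_nonneg _,
    fun j hj x hx => ?_⟩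
  have hmem : j ∈ Finset.range (k + 1) := Finset.mem_range.2 (Nat.lt_succ_of_le hj)
  exact ((hB j hmem x hx).trans (le_abs_self _)).trans
    (Finset.single_le_sum (f := fun j => |B j|) (fun i _ => abs_nonneg _) hmem)

theorem exists_bdOn_univ (hf : ContDiff ℝ k f) (hs : HasCompactSupport f) :
    ∃ C, 0 ≤ C ∧ BdOn univ k C f := by
  obtain ⟨C, hC, h⟩ := exists_bdOn_compact isOpen_univ hf.contDiffOn hs (subset_univ _)
  refine ⟨C, hC, fun j hj x _ => ?_⟩
  by_cases hx : x ∈ tsupport f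
  · exact h j hj x hx
  · have h0 : iteratedFDeriv ℝ j f x = 0 := by
      by_contra hne
      exact hx (support_iteratedFDeriv_subset j hne)
    simp [h0, hC]

end Vale.Agent.P229
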