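import Vale.Agent.P229.Spec

/-!
# P229, section 3: Gauss's equations for the heights of an isometric immersion

`gaussSpec : GaussSpec`: with `n` the normalised cross product of `G₁, G₂` and `a, b, c` the normal
components of the second derivatives, the covariant Hessian of every height is `(a, b, c)` times
`⟪n, e⟫ / s`, `a c - b² = rcur`, and `s² |Dz|² + ⟪n, e⟫² = ‖e‖²`.
-/

open scoped ContDiff RealInnerProductSpace
open Filter Topology

namespace Vale.Agent.P229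

/-- Directional derivative. -/
noncomputable def dir {W : Type*} [NormedAddCommGroup W] [NormedSpace ℝ W] (a : Pl) (f : Pl → W)
    (x : Pl) : W :=
  fderiv ℝ f x a

/-- The first coordinate direction. -/
def u₁ : Pl := (1, 0)

/-- The second coordinate direction. -/
def u₂ : Pl := (0, 1)

theorem d1_eq {W : Type*} [NormedAddCommGroup W] [NormedSpace ℝ W] (f : Pl → W) :
    d1 f = dir u₁ f := rfl

theorem d2_eq {W : Type*} [NormedAddCommGroup W] [NormedSpace ℝ W] (f : Pl → W) :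
    d2 f = dir u₂ f := rfl

namespace Met

variable (m : Met) (x : Pl)

/-- `⟪F₁₁, F₁⟫` and the five other first kind Christoffel symbols. -/
noncomputable def a1 : ℝ := dir u₁ m.e x / 2
noncomputable def a2 : ℝ := dir u₁ m.f x - dir u₂ m.e x / 2
noncomputable def b1 : ℝ := dir u₂ m.e x / 2
noncomputable def b2 : ℝ := dir u₁ m.g x / 2
noncomputable def c1 : ℝ := dir u₂ m.f x - dir u₁ m.g x / 2
noncomputable def c2 : ℝ := dir u₂ m.g x / 2

/-- The inverse metric paired with two covectors, times the determinant. -/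
noncomputable def adj (p q p' q' : ℝ) : ℝ :=
  m.g x * p * p' - m.f x * (p * q' + q * p') + m.e x * q * q'

/-- The curvature component in the first kind symbols. -/
noncomputable def rcur₁ : ℝ :=
  dir u₂ (dir u₁ m.f) x - dir u₂ (dir u₂ m.e) x / 2 - dir u₁ (dir u₁ m.g) x / 2 -
    (m.adj x (m.a1 x) (m.a2 x) (m.c1 x) (m.c2 x) -
      m.adj x (m.b1 x) (m.b2 x) (m.b1 x) (m.b2 x)) / m.det x

theorem rcur_eq_rcur₁ (hdet : m.det x ≠ 0)
    (hsym : dir u₁ (dir u₂ m.f) x = dir u₂ (dir u₁ m.f) x) : m.rcur x = m.rcur₁ x := by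
  simp only [rcur, rcur₁, c111, c211, c112, c212, c122, c222, a1, a2, b1, b2, c1, c2, adj,
    d1_eq, d2_eq, hsym]
  field_simp
  simp only [det] at *
  ring

end Met

/-- The triple product. -/
def triple (a b c : R3) : ℝ :=
  a 0 * (b 1 * c 2 - b 2 * c 1) - a 1 * (b 0 * c 2 - b 2 * c 0) + a 2 * (b 0 * c 1 - b 1 * c 0)

theorem inner_eq (a b : R3) : ⟪a, b⟫ = a 0 * b 0 + a 1 * b 1 + a 2 * b 2 := by
  simp [PiLp.inner_apply, Fin.sum_univ_three, mul_comm]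

/-- Product of two triple products is a Gram determinant. -/
theorem triple_mul (a c u v : R3) :
    triple a u v * triple c u v = ⟪a, c⟫ * (⟪u, u⟫ * ⟪v, v⟫ - ⟪u, v⟫ ^ 2) -
      (⟪v, v⟫ * ⟪a, u⟫ * ⟪c, u⟫ - ⟪u, v⟫ * (⟪a, u⟫ * ⟪c, v⟫ + ⟪a, v⟫ * ⟪c, u⟫) +
        ⟪u, u⟫ * ⟪a, v⟫ * ⟪c, v⟫) := by
  simp only [inner_eq, triple]; ring

variable {W : Type*} [NormedAddCommGroup W] [NormedSpace ℝ W]

theorem dir_congr {f g : Pl → W} {x : Pl} (h : f =ᶠ[𝓝 x] g) (a : Pl) : dir a f x = dir a g x := by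
  simp only [dir, h.fderiv_eq]

theorem contDiffAt_dir {f : Pl → W} {x : Pl} {n N : ℕ} (hN : n + 1 ≤ N) (hf : ContDiffAt ℝ N f x)
    (a : Pl) : ContDiffAt ℝ n (dir a f) x :=
  ((hf.of_le (mod_cast hN)).fderiv_right le_rfl).clm_apply contDiffAt_const

theorem dir_symm {f : Pl → W} {x : Pl} (hf : ContDiffAt ℝ 2 f x) (a b : Pl) :
    dir a (dir b f) x = dir b (dir a f) x := by
  have hd : DifferentiableAt ℝ (fderiv ℝ f) x :=
    (hf.fderiv_right (m := 1) (by norm_num)).differentiableAt (by norm_num)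
  have e : ∀ c d : Pl, dir c (dir d f) x = fderiv ℝ (fderiv ℝ f) x c d := fun c d => by
    show fderiv ℝ (fun y => fderiv ℝ f y d) x c = _
    rw [fderiv_clm_apply hd (differentiableAt_const d)]
    simp
  rw [e, e]
  exact (hf.isSymmSndFDerivAt (by simp)) a b

theorem dir_two_mul {f : Pl → ℝ} {x : Pl} (hf : DifferentiableAt ℝ f x) (a : Pl) :
    dir a (fun y => 2 * f y) x = 2 * dir a f x := by
  simp [dir, fderiv_const_mul hf]

theorem dir_add {f g : Pl → ℝ} {x : Pl} (hf : DifferentiableAt ℝ f x) (hg : DifferentiableAt ℝ g x)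
    (a : Pl) : dir a (fun y => f y + g y) x = dir a f x + dir a g x := by
  simp [dir, fderiv_fun_add hf hg]

theorem dir_inner {f g : Pl → R3} {x : Pl} (hf : DifferentiableAt ℝ f x)
    (hg : DifferentiableAt ℝ g x) (a : Pl) :
    dir a (fun y => ⟪f y, g y⟫) x = ⟪f x, dir a g x⟫ + ⟪dir a f x, g x⟫ :=
  fderiv_inner_apply ℝ hf hg a

variable {m : Met} {U : Set Pl} {F : Pl → R3}

/-- First derivatives of the metric at a point of `U`. -/
theorem metric_D (hU : IsOpen U) (hF : ContDiffOn ℝ 3 F U) (hiso : IsIsometric m U F)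
    {y : Pl} (hy : y ∈ U) (a : Pl) :
    dir a m.e y = 2 * ⟪dir a (dir u₁ F) y, dir u₁ F y⟫ ∧
    dir a m.f y = ⟪dir u₁ F y, dir a (dir u₂ F) y⟫ + ⟪dir a (dir u₁ F) y, dir u₂ F y⟫ ∧
    dir a m.g y = 2 * ⟪dir a (dir u₂ F) y, dir u₂ F y⟫ := by
  have h : ∀ b, DifferentiableAt ℝ (dir b F) y := fun b =>
    (contDiffAt_dir (n := 2) le_rfl ((hF y hy).contDiffAt (hU.mem_nhds hy)) b).differentiableAt
      (by norm_num)
  refine ⟨?_, ?_, ?_⟩
  · rw [dir_congr (eventually_of_mem (hU.mem_nhds hy) fun q hq => ((hiso q hq).1).symm) a]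
    refine (dir_inner (h u₁) (h u₁) a).trans ?_
    rw [real_inner_comm]; ring
  · rw [dir_congr (eventually_of_mem (hU.mem_nhds hy) fun q hq => ((hiso q hq).2.1).symm) a]
    exact dir_inner (h u₁) (h u₂) a
  · rw [dir_congr (eventually_of_mem (hU.mem_nhds hy) fun q hq => ((hiso q hq).2.2).symm) a]
    refine (dir_inner (h u₂) (h u₂) a).trans ?_
    rw [real_inner_comm]; ring

/-- The six tangential products of the second derivatives. -/
theorem christoffel (hU : IsOpen U) (hF : ContDiffOn ℝ 3 F U) (hiso : IsIsometric m U F)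
    {y : Pl} (hy : y ∈ U) :
    ⟪dir u₁ (dir u₁ F) y, dir u₁ F y⟫ = m.a1 y ∧ ⟪dir u₁ (dir u₁ F) y, dir u₂ F y⟫ = m.a2 y ∧
    ⟪dir u₁ (dir u₂ F) y, dir u₁ F y⟫ = m.b1 y ∧ ⟪dir u₁ (dir u₂ F) y, dir u₂ F y⟫ = m.b2 y ∧
    ⟪dir u₂ (dir u₂ F) y, dir u₁ F y⟫ = m.c1 y ∧ ⟪dir u₂ (dir u₂ F) y, dir u₂ F y⟫ = m.c2 y := by
  have hs : dir u₂ (dir u₁ F) y = dir u₁ (dir u₂ F) y :=
    dir_symm (((hF y hy).contDiffAt (hU.mem_nhds hy)).of_le (by norm_num)) u₂ u₁
  obtain ⟨e₁, f₁, g₁⟩ := metric_D hU hF hiso hy u₁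
  obtain ⟨e₂, f₂, g₂⟩ := metric_D hU hF hiso hy u₂
  simp only [Met.a1, Met.a2, Met.b1, Met.b2, Met.c1, Met.c2, e₁, f₁, g₁, e₂, f₂, g₂, hs,
    real_inner_comm (dir u₁ F y), real_inner_comm (dir u₂ F y)]
  refine ⟨?_, ?_, ?_, ?_, ?_, ?_⟩ <;> ring

theorem det_eq (hiso : IsIsometric m U F) {y : Pl} (hy : y ∈ U) :
    m.det y = ⟪dir u₁ F y, dir u₁ F y⟫ * ⟪dir u₂ F y, dir u₂ F y⟫ - ⟪dir u₁ F y, dir u₂ F y⟫ ^ 2 := by
  obtain ⟨h1, h2, h3⟩ := hiso y hy
  simp only [Met.det, dir, u₁, u₂, h1, h2, h3]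

/-- The equation of Gauss in the form `det II · det g = rcur · det g`. -/
theorem det_sff (hU : IsOpen U) (hF : ContDiffOn ℝ 3 F U) (hiso : IsIsometric m U F)
    {x : Pl} (hx : x ∈ U) (hdet : m.det x ≠ 0) :
    triple (dir u₁ (dir u₁ F) x) (dir u₁ F x) (dir u₂ F x) * triple (dir u₂ (dir u₂ F) x) (dir u₁ F x) (dir u₂ F x)
      - triple (dir u₁ (dir u₂ F) x) (dir u₁ F x) (dir u₂ F x) ^ 2 = m.rcur₁ x * m.det x := by
  have hat : ∀ y ∈ U, ContDiffAt ℝ 3 F y := fun y hy => (hF y hy).contDiffAt (hU.mem_nhds hy)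
  have h1 : ∀ b, DifferentiableAt ℝ (dir b F) x := fun b =>
    (contDiffAt_dir (n := 2) le_rfl (hat x hx) b).differentiableAt (by norm_num)
  have h2 : ∀ b c, DifferentiableAt ℝ (dir b (dir c F)) x := fun b c =>
    (contDiffAt_dir (n := 1) le_rfl (contDiffAt_dir (n := 2) le_rfl (hat x hx) c) b).differentiableAt
      (by norm_num)
  have hsy : ∀ y ∈ U, dir u₂ (dir u₁ F) y = dir u₁ (dir u₂ F) y := fun y hy =>
    dir_symm ((hat y hy).of_le (by norm_num)) u₂ u₁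
  have nb := hU.mem_nhds hx
  have eE : dir u₂ (dir u₂ m.e) x = 2 * (⟪dir u₁ (dir u₂ F) x, dir u₁ (dir u₂ F) x⟫ +
      ⟪dir u₂ (dir u₁ (dir u₂ F)) x, dir u₁ F x⟫) := by
    rw [dir_congr (g := fun y => (2 : ℝ) * ⟪dir u₁ (dir u₂ F) y, dir u₁ F y⟫) (eventually_of_mem nb
      fun y hy => by rw [(metric_D hU hF hiso hy u₂).1, hsy y hy])]
    rw [dir_two_mul ((h2 u₁ u₂).inner ℝ (h1 u₁)), dir_inner (h2 u₁ u₂) (h1 u₁), hsy x hx]
  have eG : dir u₁ (dir u₁ m.g) x = 2 * (⟪dir u₁ (dir u₂ F) x, dir u₁ (dir u₂ F) x⟫ +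
      ⟪dir u₁ (dir u₁ (dir u₂ F)) x, dir u₂ F x⟫) := by
    rw [dir_congr (g := fun y => (2 : ℝ) * ⟪dir u₁ (dir u₂ F) y, dir u₂ F y⟫) (eventually_of_mem nb
      fun y hy => (metric_D hU hF hiso hy u₁).2.2)]
    rw [dir_two_mul ((h2 u₁ u₂).inner ℝ (h1 u₂)), dir_inner (h2 u₁ u₂) (h1 u₂)]
  have eF : dir u₂ (dir u₁ m.f) x = ⟪dir u₁ F x, dir u₂ (dir u₁ (dir u₂ F)) x⟫ +
      ⟪dir u₁ (dir u₂ F) x, dir u₁ (dir u₂ F) x⟫ + (⟪dir u₁ (dir u₁ F) x, dir u₂ (dir u₂ F) x⟫ +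
        ⟪dir u₂ (dir u₁ (dir u₁ F)) x, dir u₂ F x⟫) := by
    rw [dir_congr (g := fun y => ⟪dir u₁ F y, dir u₁ (dir u₂ F) y⟫ + ⟪dir u₁ (dir u₁ F) y, dir u₂ F y⟫)
      (eventually_of_mem nb fun y hy => (metric_D hU hF hiso hy u₁).2.1)]
    rw [dir_add ((h1 u₁).inner ℝ (h2 u₁ u₂)) ((h2 u₁ u₁).inner ℝ (h1 u₂)),
      dir_inner (h1 u₁) (h2 u₁ u₂), dir_inner (h2 u₁ u₁) (h1 u₂), hsy x hx]
  have e3 : dir u₂ (dir u₁ (dir u₁ F)) x = dir u₁ (dir u₁ (dir u₂ F)) x :=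
    (dir_symm (contDiffAt_dir (n := 2) le_rfl (hat x hx) u₁) u₂ u₁).trans
      (dir_congr (eventually_of_mem nb hsy) u₁)
  obtain ⟨ha1, ha2, hb1, hb2, hc1, hc2⟩ := christoffel hU hF hiso hx
  obtain ⟨g1, g2, g3⟩ := hiso x hx
  have hd := det_eq hiso hx
  rw [Met.rcur₁, eE, eG, eF, e3, sub_mul, div_mul_cancel₀ _ hdet, sq (triple _ _ _),
    triple_mul, triple_mul, ← hd, ha1, ha2, hb1, hb2, hc1, hc2,
    real_inner_comm (dir u₂ (dir u₁ (dir u₂ F)) x)]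
  simp only [Met.adj, dir, u₁, u₂, g1, g2, g3]
  ring

/-- The cross product. -/
noncomputable def cross (u v : R3) : R3 :=
  !₂[u 1 * v 2 - u 2 * v 1, u 2 * v 0 - u 0 * v 2, u 0 * v 1 - u 1 * v 0]

theorem inner_cross (a u v : R3) : ⟪a, cross u v⟫ = triple a u v := by
  simp [inner_eq, cross, triple]; ring

theorem inner_cross_self (u v : R3) :
    ⟪cross u v, cross u v⟫ = ⟪u, u⟫ * ⟪v, v⟫ - ⟪u, v⟫ ^ 2 := by
  simp only [inner_eq, cross]
  simp
  ring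

theorem gaussSpec : GaussSpec := by
  intro m U G hU hG hiso hdet
  set n : Pl → R3 := fun x => (Real.sqrt (m.det x))⁻¹ • cross (dir u₁ G x) (dir u₂ G x) with hn
  have hat : ∀ y ∈ U, ContDiffAt ℝ 3 G y := fun y hy => (hG y hy).contDiffAt (hU.mem_nhds hy)
  have hT : ∀ x a, ⟪a, n x⟫ = (Real.sqrt (m.det x))⁻¹ * triple a (dir u₁ G x) (dir u₂ G x) :=
    fun x a => by rw [hn, inner_smul_right, inner_cross]
  refine ⟨n, fun x => ⟪dir u₁ (dir u₁ G) x, n x⟫, fun x => ⟪dir u₁ (dir u₂ G) x, n x⟫,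
    fun x => ⟪dir u₂ (dir u₂ G) x, n x⟫, fun x hx => ?_, fun x hx => ?_⟩
  · have hd : ∀ a, ContDiffAt ℝ 2 (dir a G) x := fun a =>
      contDiffAt_dir (n := 2) le_rfl (hat x hx) a
    have hi : ∀ a i, ContDiffAt ℝ 2 (fun y => dir a G y i) x := fun a i =>
      (contDiffAt_piLp 2).1 (hd a) i
    have hdd : ContDiffAt ℝ 2 m.det x := by
      refine ((((hd u₁).inner ℝ (hd u₁)).mul ((hd u₂).inner ℝ (hd u₂))).sub
        (((hd u₁).inner ℝ (hd u₂)).pow 2)).congr_of_eventuallyEq ?_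
      exact eventually_of_mem (hU.mem_nhds hx) fun y hy => det_eq hiso hy
    refine ((((Real.contDiffAt_sqrt (hdet x hx).ne').comp x hdd).inv
      (Real.sqrt_pos.2 (hdet x hx)).ne').smul ((contDiffAt_piLp 2).2 fun i => ?_)).contDiffWithinAt
    fin_cases i <;> simp [cross] <;>
      exact ((hi _ _).mul (hi _ _)).sub ((hi _ _).mul (hi _ _))
  have hd0 := hdet x hx
  have hsq : (Real.sqrt (m.det x))⁻¹ * (Real.sqrt (m.det x))⁻¹ = (m.det x)⁻¹ := by
    rw [← mul_inv, Real.mul_self_sqrt hd0.le]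
  obtain ⟨g1, g2, g3⟩ := hiso x hx
  have hg := det_eq hiso hx
  have key : ∀ (A v : R3), ⟪A, n x⟫ * ⟪v, n x⟫ = ⟪A, v⟫ -
      m.adj x ⟪A, dir u₁ G x⟫ ⟪A, dir u₂ G x⟫ ⟪v, dir u₁ G x⟫ ⟪v, dir u₂ G x⟫ / m.det x := by
    intro A v
    rw [hT, hT, mul_mul_mul_comm, hsq, triple_mul, ← hg, inv_mul_eq_div, sub_div, mul_div_assoc,
      div_self hd0.ne', mul_one]
    simp only [Met.adj, dir, u₁, u₂, g1, g2, g3]
  have hnn : ‖n x‖ = 1 := by
    have h : ⟪n x, n x⟫ = (1 : ℝ) := by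
      simp only [hn, inner_smul_left, inner_smul_right, inner_cross_self, ← hg, conj_trivial]
      rw [← mul_assoc, hsq, inv_mul_cancel₀ hd0.ne']
    rw [real_inner_self_eq_norm_sq] at h
    nlinarith [norm_nonneg (n x)]
  refine ⟨hnn, ?_, ?_, ?_, fun s e hs => ?_⟩
  · rw [d1_eq, hT]; simp [triple]; right; ring
  · rw [d2_eq, hT]; simp [triple]; right; ring
  · have hsym : dir u₁ (dir u₂ m.f) x = dir u₂ (dir u₁ m.f) x := by
      refine dir_symm (((contDiffAt_dir (n := 2) le_rfl (hat x hx) u₁).inner ℝ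
        (contDiffAt_dir (n := 2) le_rfl (hat x hx) u₂)).congr_of_eventuallyEq ?_) u₁ u₂
      exact eventually_of_mem (hU.mem_nhds hx) fun y hy => ((hiso y hy).2.1).symm
    show ⟪_, n x⟫ * ⟪_, n x⟫ - ⟪_, n x⟫ ^ 2 = _
    rw [Met.rcur_eq_rcur₁ m x hd0.ne' hsym, hT, hT, hT]
    have h := det_sff hU hG hiso hx hd0.ne'
    field_simp
    rw [Real.sq_sqrt hd0.le]
    linear_combination h
  have hz : ∀ y ∈ U, ∀ a, dir a (zOf s G e) y = ⟪dir a G y, e⟫ / s := fun y hy a => by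
    have h := ((hat y hy).differentiableAt (by norm_num)).inner ℝ
      (differentiableAt_const (𝕜 := ℝ) e (x := y))
    show fderiv ℝ (fun q => ⟪G q, e⟫ / s) y a = _
    simp only [div_eq_mul_inv]
    rw [fderiv_mul_const h]
    simp only [smul_apply, smul_eq_mul]
    rw [fderiv_inner_apply ℝ ((hat y hy).differentiableAt (by norm_num)) (differentiableAt_const e)]
    simp [dir]; ring
  have hzz : ∀ a b, dir a (dir b (zOf s G e)) x = ⟪dir a (dir b G) x, e⟫ / s := fun a b => by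
    have h := (contDiffAt_dir (n := 2) le_rfl (hat x hx) b).differentiableAt (by norm_num)
    rw [dir_congr (g := fun y => ⟪dir b G y, e⟫ / s) (eventually_of_mem (hU.mem_nhds hx)
      fun y hy => hz y hy b)]
    show fderiv ℝ (fun q => ⟪dir b G q, e⟫ / s) x a = _
    simp only [div_eq_mul_inv]
    rw [fderiv_mul_const (h.inner ℝ (differentiableAt_const e))]
    simp only [smul_apply, smul_eq_mul]
    rw [fderiv_inner_apply ℝ h (differentiableAt_const e)]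
    simp [dir]; ring
  obtain ⟨ha1, ha2, hb1, hb2, hc1, hc2⟩ := christoffel hU hG hiso hx
  simp only [Met.h11, Met.h12, Met.h22, Met.gradSq, d1_eq, d2_eq, hz x hx, hzz]
  rw [real_inner_comm e (n x)]
  have fin : ∀ (A : R3) (α β c d : ℝ), ⟪A, dir u₁ G x⟫ = α → ⟪A, dir u₂ G x⟫ = β →
      c = (m.g x * α - m.f x * β) / m.det x → d = (m.e x * β - m.f x * α) / m.det x →
      ⟪A, e⟫ / s - c * (⟪dir u₁ G x, e⟫ / s) - d * (⟪dir u₂ G x, e⟫ / s) =
        ⟪A, n x⟫ * ⟪e, n x⟫ / s := fun A α β c d hα hβ hc hd => by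
    rw [key A e, hα, hβ, hc, hd, real_inner_comm e (dir u₁ G x), real_inner_comm e (dir u₂ G x)]
    simp only [Met.adj]
    field_simp; ring
  refine ⟨fin _ _ _ _ _ ha1 ha2 ?_ ?_, fin _ _ _ _ _ hb1 hb2 ?_ ?_, fin _ _ _ _ _ hc1 hc2 ?_ ?_,
    ?_⟩
  rotate_right
  · rw [sq ⟪e, n x⟫, key e e, real_inner_self_eq_norm_sq, real_inner_comm e (dir u₁ G x),
      real_inner_comm e (dir u₂ G x)]
    simp only [Met.adj]
    field_simp; ring
  all_goals
    simp only [Met.c111, Met.c211, Met.c112, Met.c212, Met.c122, Met.c222, Met.a1, Met.a2, Met.b1,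
      Met.b2, Met.c1, Met.c2, d1_eq, d2_eq]
    field_simp
    try ring

end Vale.Agent.P229
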