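import Vale.Agent.P229.Bd

/-!
# P229: first bounds on the height of an island solution
-/

open scoped ContDiff RealInnerProductSpace

namespace Vale.Agent.P229

theorem norm_le_of_mem_disc {R : ℝ} (hR : 0 ≤ R) {x : Pl} (hx : x ∈ disc R) : ‖x‖ ≤ R :=
  (norm_lt_of_mem_disc hR hx).le

section

variable {k : ℕ} {s β M a0 : ℝ} {π : Pert} {G : Pl → R3} {e : R3}

/-- The height is as smooth as the immersion. -/
theorem IslandSol.contDiffOn_zOf (h : IslandSol k s β M a0 π G e) :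
    ContDiffOn ℝ k (zOf s G e) (disc 4) :=
  ((h.1.inner ℝ contDiffOn_const).div_const s).congr fun _ _ => rfl

theorem IslandSol.nonneg (h : IslandSol k s β M a0 π G e) (hs : 0 < s) (hk : 2 ≤ k) : 0 ≤ M := by
  have h0 : (0 : Pl) ∈ disc 4 := by simp [disc, nsq]
  have := (norm_nonneg _).trans (h.2.2.2.1 2 le_rfl hk 0 h0)
  simp only [Nat.add_one_sub_one, pow_one] at this
  exact nonneg_of_mul_nonneg_left this hs

/-- The derivatives of order at least two of the height are at most `M`. -/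
theorem IslandSol.norm_iteratedFDeriv_zOf (h : IslandSol k s β M a0 π G e) (hs : 0 < s)
    {j : ℕ} (hj : 2 ≤ j) (hjk : j ≤ k) {x : Pl} (hx : x ∈ disc 4) :
    ‖iteratedFDeriv ℝ j (zOf s G e) x‖ ≤ M * s ^ (j - 2) := by
  set ℓ : R3 →L[ℝ] ℝ := s⁻¹ • innerSL ℝ e with hℓ
  have he : zOf s G e = fun y => ℓ (G y) := by
    funext y
    simp [zOf, hℓ, real_inner_comm, div_eq_inv_mul]
  have hℓn : ‖ℓ‖ ≤ s⁻¹ := by
    rw [hℓ, norm_smul, Real.norm_eq_abs, abs_of_pos (inv_pos.2 hs), innerSL_apply_norm, h.2.2.2.2.1,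
      mul_one]
  rw [he, show (fun y => ℓ (G y)) = ℓ ∘ G from rfl]
  refine (ℓ.norm_iteratedFDeriv_comp_left ((h.1.of_le (mod_cast hjk)).contDiffAt
    ((isOpen_disc 4).mem_nhds hx)) le_rfl).trans ?_
  refine (mul_le_mul hℓn (h.2.2.2.1 j hj hjk x hx) (norm_nonneg _) (inv_nonneg.2 hs.le)).trans
    (le_of_eq ?_)
  rw [show j - 1 = j - 2 + 1 by omega, pow_succ]
  field_simp

/-- The height vanishes to first order at the centre. -/
theorem IslandSol.zOf_zero (h : IslandSol k s β M a0 π G e) (hk : 1 ≤ k) :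
    zOf s G e 0 = 0 ∧ fderiv ℝ (zOf s G e) 0 = 0 := by
  refine ⟨by simp [zOf, h.2.2.1], ?_⟩
  have h0 : (0 : Pl) ∈ disc 4 := by simp [disc, nsq]
  have hG : DifferentiableAt ℝ G 0 :=
    (h.1.contDiffAt ((isOpen_disc 4).mem_nhds h0)).differentiableAt
      (by exact_mod_cast (show k ≠ 0 by omega))
  set ℓ : R3 →L[ℝ] ℝ := s⁻¹ • innerSL ℝ e with hℓ
  have he : zOf s G e = ℓ ∘ G := by
    funext y
    simp [zOf, hℓ, real_inner_comm, div_eq_inv_mul]
  rw [he, fderiv_comp 0 ℓ.differentiableAt hG, ℓ.fderiv]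
  have h1 : ℓ (d1 G 0) = 0 := by
    simp [hℓ, (real_inner_comm _ _).trans h.2.2.2.2.2.1]
  have h2 : ℓ (d2 G 0) = 0 := by
    simp [hℓ, (real_inner_comm _ _).trans h.2.2.2.2.2.2.1]
  refine ContinuousLinearMap.ext fun v => ?_
  rw [show v = v.1 • ((1 : ℝ), (0 : ℝ)) + v.2 • ((0 : ℝ), (1 : ℝ)) by ext <;> simp, map_add,
    map_smul, map_smul]
  simp [d1, d2] at h1 h2 ⊢
  simp [h1, h2]

/-- All derivatives up to order `k` of the height are bounded on the disc of radius `3`. -/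
theorem IslandSol.bdOn_zOf (h : IslandSol k s β M a0 π G e) (hs : 0 < s) (hs1 : s ≤ 1)
    (hk : 2 ≤ k) : BdOn (disc 3) k (9 * M) (zOf s G e) := by
  have hM := h.nonneg hs hk
  have h34 : disc 3 ⊆ disc 4 := disc_mono (by norm_num) (by norm_num)
  have hd : ∀ x ∈ disc 3, ContDiffAt ℝ k (zOf s G e) x := fun x hx =>
    h.contDiffOn_zOf.contDiffAt ((isOpen_disc 4).mem_nhds (h34 hx))
  have h2 : ∀ j, 2 ≤ j → j ≤ k → ∀ x ∈ disc 3, ‖iteratedFDeriv ℝ j (zOf s G e) x‖ ≤ M :=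
    fun j hj hjk x hx => (h.norm_iteratedFDeriv_zOf hs hj hjk (h34 hx)).trans
      (mul_le_of_le_one_right hM (pow_le_one₀ hs.le hs1))
  obtain ⟨hz0, hz1⟩ := h.zOf_zero (by omega)
  have h0 : (0 : Pl) ∈ disc 3 := by simp [disc, nsq]
  have hb1 : ∀ x ∈ disc 3, ‖fderiv ℝ (zOf s G e) x‖ ≤ 3 * M := by
    intro x hx
    have := (convex_disc 3).norm_image_sub_le_of_norm_fderiv_le (𝕜 := ℝ)
      (f := fderiv ℝ (zOf s G e)) (C := M) (fun y hy => ?_) (fun y hy => ?_) h0 hx
    · rw [hz1, sub_zero, sub_zero] at this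
      exact this.trans (by nlinarith [norm_le_of_mem_disc (by norm_num) hx, norm_nonneg x])
    · exact ((hd y hy).fderiv_right (m := 1) (by exact_mod_cast (show 1 + 1 ≤ k by omega))
        ).differentiableAt one_ne_zero
    · rw [← norm_iteratedFDeriv_one, norm_iteratedFDeriv_fderiv]
      exact h2 2 le_rfl hk y hy
  have hb0 : ∀ x ∈ disc 3, ‖zOf s G e x‖ ≤ 9 * M := by
    intro x hx
    have := (convex_disc 3).norm_image_sub_le_of_norm_fderiv_le (𝕜 := ℝ)
      (f := zOf s G e) (C := 3 * M) (fun y hy => (hd y hy).differentiableAt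
        (by exact_mod_cast (show k ≠ 0 by omega))) hb1 h0 hx
    rw [hz0, sub_zero, sub_zero] at this
    exact this.trans (by nlinarith [norm_le_of_mem_disc (by norm_num) hx, norm_nonneg x])
  intro j hjk x hx
  match j with
  | 0 => simpa using hb0 x hx
  | 1 => rw [norm_iteratedFDeriv_one]; exact (hb1 x hx).trans (by linarith)
  | j + 2 => exact (h2 (j + 2) (by omega) hjk x hx).trans (by linarith)

end

end Vale.Agent.P229
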