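import Vale.Agent.P229.Bd

/-!
# P229: quantitative inverse of a map of a disc that is close to the identity

`P` is `C^k` on `disc R`, fixes `0` and has differential within `eps ≤ 1/10` of the identity.
Then it has an inverse on `disc (R * (1 - 3 * eps))` with bounds depending only on `k` and `C`.
-/

open scoped ContDiff RealInnerProductSpace Nat
open Set Filter Topology Metric

namespace Vale.Agent.P229

/-- The hypotheses of the inverse theorem. -/
structure NearId (P : Pl → Pl) (R eps : ℝ) (k : ℕ) : Prop where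
  hR : 0 < R
  eps_le : eps ≤ 1 / 10
  one_le : 1 ≤ k
  smooth : ContDiffOn ℝ k P (disc R)
  zero : P 0 = 0
  near : ∀ x ∈ disc R, ‖fderiv ℝ P x - ContinuousLinearMap.id ℝ Pl‖ ≤ eps

/-- The inverse. -/
noncomputable def invP (P : Pl → Pl) (R : ℝ) : Pl → Pl := Function.invFunOn P (disc R)

namespace NearId

variable {P : Pl → Pl} {R eps eta C : ℝ} {k : ℕ}

theorem eps_nonneg (h : NearId P R eps k) : 0 ≤ eps :=
  (norm_nonneg _).trans (h.near 0 (zero_mem_disc h.hR))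

theorem differentiableAt (h : NearId P R eps k) {x : Pl} (hx : x ∈ disc R) :
    DifferentiableAt ℝ P x :=
  diffAt_of_open (isOpen_disc R) h.smooth (mod_cast h.one_le) hx

theorem lip_sub (h : NearId P R eps k) {x y : Pl} (hx : x ∈ disc R) (hy : y ∈ disc R) :
    ‖(P x - x) - (P y - y)‖ ≤ eps * ‖x - y‖ := by
  refine (convex_disc R).norm_image_sub_le_of_norm_fderiv_le (f := fun z => P z - z)
    (fun z hz => (h.differentiableAt hz).sub differentiableAt_id) (fun z hz => ?_) hy hx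
  rw [fderiv_fun_sub (h.differentiableAt hz) differentiableAt_fun_id, fderiv_fun_id]
  exact h.near z hz

theorem antilip (h : NearId P R eps k) {x y : Pl} (hx : x ∈ disc R) (hy : y ∈ disc R) :
    (1 - eps) * ‖x - y‖ ≤ ‖P x - P y‖ := by
  have h1 := h.lip_sub hx hy
  have h2 : x - y = (P x - P y) - ((P x - x) - (P y - y)) := by abel
  have h3 := norm_sub_le (P x - P y) ((P x - x) - (P y - y))
  rw [← h2] at h3
  linarith

theorem injOn (h : NearId P R eps k) : InjOn P (disc R) := by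
  intro x hx y hy hxy
  have h1 := h.antilip hx hy
  rw [hxy, sub_self, norm_zero] at h1
  have h2 := h.eps_le
  have h3 : ‖x - y‖ = 0 := by nlinarith [norm_nonneg (x - y)]
  exact sub_eq_zero.1 (norm_eq_zero.1 h3)

theorem norm_sub_self_le (h : NearId P R eps k) {x : Pl} (hx : x ∈ disc R) :
    ‖P x - x‖ ≤ eps * ‖x‖ := by
  simpa [h.zero] using h.lip_sub hx (zero_mem_disc h.hR)

theorem surj (h : NearId P R eps k) {y : Pl} (hy : y ∈ disc (R * (1 - 3 * eps))) :
    ∃ x ∈ disc R, P x = y := by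
  have he := h.eps_le
  have he0 := h.eps_nonneg
  have hR := h.hR
  have hA : 0 < R * (1 - 3 * eps) := mul_pos hR (by linarith)
  set A := R * (1 - 3 * eps) with hAdef
  set δ := 6 / 5 * eps * A with hδ
  have hδ0 : 0 ≤ δ := by positivity
  have hyA : ‖y‖ ≤ A := (norm_lt_of_mem_disc hA.le hy).le
  have hsub : closedBall y δ ⊆ disc R := by
    intro x hx
    rw [mem_closedBall, dist_eq_norm] at hx
    have h1 : |x.1 - y.1| ≤ δ := le_trans (norm_fst_le (x - y)) hx
    have h2 : |x.2 - y.2| ≤ δ := le_trans (norm_snd_le (x - y)) hx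
    have hy1 : |y.1| ≤ A := le_trans (norm_fst_le y) hyA
    have hy2 : |y.2| ≤ A := le_trans (norm_snd_le y) hyA
    have hy' : y.1 ^ 2 + y.2 ^ 2 < A ^ 2 := hy
    show x.1 ^ 2 + x.2 ^ 2 < R ^ 2
    have q1 : y.1 * (x.1 - y.1) ≤ A * δ :=
      (le_abs_self _).trans (by rw [abs_mul]; exact mul_le_mul hy1 h1 (abs_nonneg _) hA.le)
    have q2 : y.2 * (x.2 - y.2) ≤ A * δ :=
      (le_abs_self _).trans (by rw [abs_mul]; exact mul_le_mul hy2 h2 (abs_nonneg _) hA.le)
    have q3 : (x.1 - y.1) ^ 2 ≤ δ ^ 2 := sq_le_sq.2 (by rwa [abs_of_nonneg hδ0])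
    have q4 : (x.2 - y.2) ^ 2 ≤ δ ^ 2 := sq_le_sq.2 (by rwa [abs_of_nonneg hδ0])
    have q5 : x.1 ^ 2 + x.2 ^ 2 < A ^ 2 + 4 * (A * δ) + 2 * δ ^ 2 := by
      linarith only [hy', q1, q2, q3, q4, sq_abs x.1,
        show x.1 ^ 2 = y.1 ^ 2 + 2 * (y.1 * (x.1 - y.1)) + (x.1 - y.1) ^ 2 by ring,
        show x.2 ^ 2 = y.2 ^ 2 + 2 * (y.2 * (x.2 - y.2)) + (x.2 - y.2) ^ 2 by ring]
    have q6 : (1 - 3 * eps) ^ 2 * (1 + 24 / 5 * eps + 72 / 25 * eps ^ 2) ≤ 1 := by
      nlinarith only [he, he0, mul_nonneg he0 he0, mul_nonneg (mul_nonneg he0 he0) he0,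
        mul_le_mul_of_nonneg_left he he0, mul_le_mul_of_nonneg_left he (mul_nonneg he0 he0),
        mul_le_mul_of_nonneg_left he (mul_nonneg (mul_nonneg he0 he0) he0)]
    have q7 := mul_le_mul_of_nonneg_left q6 (sq_nonneg R)
    have q8 : A ^ 2 + 4 * (A * δ) + 2 * δ ^ 2 =
        R ^ 2 * ((1 - 3 * eps) ^ 2 * (1 + 24 / 5 * eps + 72 / 25 * eps ^ 2)) := by
      rw [hδ, hAdef]; ring
    linarith
  let T : Pl → Pl := fun x => y - (P x - x)
  have hmaps : MapsTo T (closedBall y δ) (closedBall y δ) := by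
    intro x hx
    have h1 := h.norm_sub_self_le (hsub hx)
    rw [mem_closedBall, dist_eq_norm] at hx ⊢
    have h2 : ‖x‖ ≤ ‖y‖ + δ := by
      have := norm_le_norm_add_norm_sub' x y
      linarith [norm_sub_rev x y]
    show ‖y - (P x - x) - y‖ ≤ δ
    rw [sub_sub_cancel_left, norm_neg]
    refine h1.trans ?_
    calc eps * ‖x‖ ≤ eps * (A + δ) := mul_le_mul_of_nonneg_left (by linarith) he0
      _ ≤ δ := by rw [hδ]; nlinarith [mul_nonneg he0 hA.le]
  have hT : ContractingWith eps.toNNReal (hmaps.restrict T (closedBall y δ) (closedBall y δ)) := by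
    refine ⟨Real.toNNReal_lt_one.2 (by linarith), LipschitzWith.of_dist_le_mul fun a b => ?_⟩
    rw [Real.coe_toNNReal _ he0, Subtype.dist_eq, Subtype.dist_eq, dist_eq_norm, dist_eq_norm]
    show ‖y - (P a - a) - (y - (P b - b))‖ ≤ _
    rw [sub_sub_sub_cancel_left, norm_sub_rev]
    exact h.lip_sub (hsub a.2) (hsub b.2)
  obtain ⟨x, hx, hfix, -⟩ := hT.exists_fixedPoint' isClosed_closedBall.isComplete hmaps
    (mem_closedBall_self hδ0) (edist_ne_top _ _)
  refine ⟨x, hsub hx, ?_⟩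
  have hfix' : y - (P x - x) = x := hfix
  rw [sub_eq_iff_eq_add, add_sub_cancel] at hfix'
  exact hfix'.symm

theorem invP_mem (h : NearId P R eps k) {y : Pl} (hy : y ∈ disc (R * (1 - 3 * eps))) :
    invP P R y ∈ disc R :=
  Function.invFunOn_mem (h.surj hy)

theorem apply_invP (h : NearId P R eps k) {y : Pl} (hy : y ∈ disc (R * (1 - 3 * eps))) :
    P (invP P R y) = y :=
  Function.invFunOn_eq (h.surj hy)

theorem invP_apply (h : NearId P R eps k) {x : Pl} (hx : x ∈ disc R) : invP P R (P x) = x :=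
  h.injOn.leftInvOn_invFunOn hx

theorem invP_zero (h : NearId P R eps k) : invP P R 0 = 0 := by
  have := h.invP_apply (zero_mem_disc h.hR)
  rwa [h.zero] at this

theorem norm_invP_le (h : NearId P R eps k) {y : Pl} (hy : y ∈ disc (R * (1 - 3 * eps))) :
    (1 - eps) * ‖invP P R y‖ ≤ ‖y‖ := by
  simpa [h.zero, h.apply_invP hy] using h.antilip (h.invP_mem hy) (zero_mem_disc h.hR)

theorem lip_invP (h : NearId P R eps k) {y y' : Pl} (hy : y ∈ disc (R * (1 - 3 * eps)))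
    (hy' : y' ∈ disc (R * (1 - 3 * eps))) :
    (1 - eps) * ‖invP P R y - invP P R y'‖ ≤ ‖y - y'‖ := by
  simpa [h.apply_invP hy, h.apply_invP hy'] using h.antilip (h.invP_mem hy) (h.invP_mem hy')

theorem apply_fderiv_bound (h : NearId P R eps k) {x : Pl} (hx : x ∈ disc R) (v : Pl) :
    ‖fderiv ℝ P x v - v‖ ≤ eps * ‖v‖ :=
  ((fderiv ℝ P x - ContinuousLinearMap.id ℝ Pl).le_opNorm v).trans
    (mul_le_mul_of_nonneg_right (h.near x hx) (norm_nonneg v))

theorem isUnit_fderiv (h : NearId P R eps k) {x : Pl} (hx : x ∈ disc R) :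
    IsUnit (fderiv ℝ P x) := by
  have h1 : ‖(1 : Pl →L[ℝ] Pl) - fderiv ℝ P x‖ < 1 := by
    rw [norm_sub_rev]
    exact lt_of_le_of_lt (h.near x hx) (by linarith [h.eps_le])
  have := (Units.oneSub _ h1).isUnit
  rwa [Units.val_oneSub, sub_sub_cancel] at this

theorem contDiffAt_invP (h : NearId P R eps k) {y : Pl} (hy : y ∈ disc (R * (1 - 3 * eps))) :
    ContDiffAt ℝ k (invP P R) y := by
  set x := invP P R y with hxdef
  have hx : x ∈ disc R := h.invP_mem hy
  have hP : ContDiffAt ℝ k P x := h.smooth.contDiffAt ((isOpen_disc R).mem_nhds hx)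
  obtain ⟨u, hu⟩ := h.isUnit_fderiv hx
  let e : Pl ≃L[ℝ] Pl := ContinuousLinearEquiv.ofUnit u
  have hf' : HasFDerivAt P (e : Pl →L[ℝ] Pl) x := by
    have he : (e : Pl →L[ℝ] Pl) = fderiv ℝ P x := by rw [← hu]; rfl
    rw [he]
    exact (h.differentiableAt hx).hasFDerivAt
  have hk : (k : ℕ∞ω) ≠ 0 := by
    have := h.one_le
    exact_mod_cast (by omega : k ≠ 0)
  have hloc := hP.to_localInverse hf' hk
  have hxy : P x = y := h.apply_invP hy
  rw [hxy] at hloc
  have hg0 : hP.localInverse hf' hk y = x := by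
    rw [← hxy]; exact hP.localInverse_apply_image hf' hk
  refine hloc.congr_of_eventuallyEq ?_
  have h1 : ∀ᶠ z in 𝓝 y, hP.localInverse hf' hk z ∈ disc R :=
    hloc.continuousAt.preimage_mem_nhds (by rw [hg0]; exact (isOpen_disc R).mem_nhds hx)
  have h2 : ∀ᶠ z in 𝓝 y, P (hP.localInverse hf' hk z) = z := by
    have := (hP.hasStrictFDerivAt' hf' hk).eventually_right_inverse
    rw [hxy] at this
    exact this
  filter_upwards [h1, h2] with z hz1 hz2
  conv_lhs => rw [← hz2]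
  exact h.invP_apply hz1

theorem contDiffOn_invP (h : NearId P R eps k) :
    ContDiffOn ℝ k (invP P R) (disc (R * (1 - 3 * eps))) :=
  fun _ hy => (h.contDiffAt_invP hy).contDiffWithinAt

theorem differentiableAt_invP (h : NearId P R eps k) {y : Pl}
    (hy : y ∈ disc (R * (1 - 3 * eps))) : DifferentiableAt ℝ (invP P R) y :=
  diffAt_of_open (isOpen_disc _) h.contDiffOn_invP (mod_cast h.one_le) hy

theorem fderiv_comp_invP (h : NearId P R eps k) {y : Pl} (hy : y ∈ disc (R * (1 - 3 * eps))) :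
    (fderiv ℝ P (invP P R y)).comp (fderiv ℝ (invP P R) y) = ContinuousLinearMap.id ℝ Pl := by
  rw [← fderiv_comp y (h.differentiableAt (h.invP_mem hy)) (h.differentiableAt_invP hy)]
  have he : (P ∘ invP P R) =ᶠ[𝓝 y] id :=
    eventually_of_mem ((isOpen_disc _).mem_nhds hy) fun z hz => h.apply_invP hz
  rw [he.fderiv_eq, fderiv_id]

theorem fderiv_apply_invP (h : NearId P R eps k) {y : Pl} (hy : y ∈ disc (R * (1 - 3 * eps)))
    (v : Pl) : fderiv ℝ P (invP P R y) (fderiv ℝ (invP P R) y v) = v :=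
  congrArg (fun L : Pl →L[ℝ] Pl => L v) (h.fderiv_comp_invP hy)

theorem norm_fderiv_invP_apply (h : NearId P R eps k) {y : Pl}
    (hy : y ∈ disc (R * (1 - 3 * eps))) (v : Pl) :
    (1 - eps) * ‖fderiv ℝ (invP P R) y v‖ ≤ ‖v‖ := by
  have h1 := h.apply_fderiv_bound (h.invP_mem hy) (fderiv ℝ (invP P R) y v)
  rw [h.fderiv_apply_invP hy v] at h1
  have h2 := norm_le_norm_add_norm_sub' (fderiv ℝ (invP P R) y v) v
  rw [norm_sub_rev] at h2
  linarith [norm_sub_rev v (fderiv ℝ (invP P R) y v)]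

theorem norm_fderiv_invP_sub_id (h : NearId P R eps k) {y : Pl}
    (hy : y ∈ disc (R * (1 - 3 * eps))) :
    ‖fderiv ℝ (invP P R) y - ContinuousLinearMap.id ℝ Pl‖ ≤ 2 * eps := by
  have he0 := h.eps_nonneg
  refine ContinuousLinearMap.opNorm_le_bound _ (by positivity) fun v => ?_
  have h1 := h.apply_fderiv_bound (h.invP_mem hy) (fderiv ℝ (invP P R) y v)
  rw [h.fderiv_apply_invP hy v, norm_sub_rev] at h1
  have h2 := h.norm_fderiv_invP_apply hy v
  show ‖fderiv ℝ (invP P R) y v - v‖ ≤ 2 * eps * ‖v‖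
  have h3 := h.eps_le
  have h4 : ‖fderiv ℝ (invP P R) y v‖ ≤ 2 * ‖v‖ := by
    nlinarith [norm_nonneg (fderiv ℝ (invP P R) y v)]
  linarith [mul_le_mul_of_nonneg_left h4 he0, mul_assoc 2 eps ‖v‖]

theorem fderiv_invP_eq (h : NearId P R eps k) {y : Pl} (hy : y ∈ disc (R * (1 - 3 * eps))) :
    fderiv ℝ (invP P R) y = Ring.inverse (fderiv ℝ P (invP P R y)) := by
  have h1 : fderiv ℝ P (invP P R y) * fderiv ℝ (invP P R) y = 1 := h.fderiv_comp_invP hy
  calc fderiv ℝ (invP P R) y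
      = Ring.inverse (fderiv ℝ P (invP P R y)) *
          (fderiv ℝ P (invP P R y) * fderiv ℝ (invP P R) y) := by
        rw [← mul_assoc, Ring.inverse_mul_cancel _ (h.isUnit_fderiv (h.invP_mem hy)), one_mul]
    _ = Ring.inverse (fderiv ℝ P (invP P R y)) := by rw [h1, mul_one]

/-- A bound on the second derivative of `P` gives twice that bound for the inverse. -/
theorem norm_second_invP_le (h : NearId P R eps k) (hk : 2 ≤ k)
    (h2 : ∀ x ∈ disc R, ‖iteratedFDeriv ℝ 2 P x‖ ≤ eta) {y : Pl}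
    (hy : y ∈ disc (R * (1 - 3 * eps))) : ‖iteratedFDeriv ℝ 2 (invP P R) y‖ ≤ 2 * eta := by
  have heta : 0 ≤ eta := (norm_nonneg _).trans (h2 0 (zero_mem_disc h.hR))
  have he := h.eps_le
  have he0 := h.eps_nonneg
  have hP2 : ContDiffOn ℝ (1 + 1 : ℕ) P (disc R) := h.smooth.of_le (by exact_mod_cast hk)
  have hlip : ∀ x ∈ disc R, ∀ x' ∈ disc R,
      ‖fderiv ℝ P x - fderiv ℝ P x'‖ ≤ eta * ‖x - x'‖ := by
    intro x hx x' hx'
    refine (convex_disc R).norm_image_sub_le_of_norm_fderiv_le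
      (fun z hz => diffAt_of_open (isOpen_disc R) (ContDiffOn.fderivPl (isOpen_disc R) hP2)
        le_rfl hz) (fun z hz => ?_) hx' hx
    rw [← norm_iteratedFDeriv_one, norm_iteratedFDeriv_fderiv]
    exact h2 z hz
  rw [← norm_iteratedFDeriv_fderiv (n := 1), norm_iteratedFDeriv_one]
  refine norm_fderiv_le_of_lip' ℝ (by positivity) ?_
  filter_upwards [(isOpen_disc _).mem_nhds hy] with y' hy'
  refine ContinuousLinearMap.opNorm_le_bound _ (by positivity) fun v => ?_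
  set Q := invP P R with hQ
  set w := fderiv ℝ Q y' v with hw
  set w' := fderiv ℝ Q y v with hw'
  show ‖w - w'‖ ≤ 2 * eta * ‖y' - y‖ * ‖v‖
  have e1 : fderiv ℝ P (Q y') w = v := h.fderiv_apply_invP hy' v
  have e2 : fderiv ℝ P (Q y) w' = v := h.fderiv_apply_invP hy v
  have e3 : fderiv ℝ P (Q y') (w - w') = (fderiv ℝ P (Q y) - fderiv ℝ P (Q y')) w' := by
    simp [map_sub, e1, e2]
  have b1 := h.apply_fderiv_bound (h.invP_mem hy') (w - w')
  have b2 : (1 - eps) * ‖w - w'‖ ≤ ‖fderiv ℝ P (Q y') (w - w')‖ := by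
    have := norm_le_norm_add_norm_sub' (w - w') (fderiv ℝ P (Q y') (w - w'))
    linarith [norm_sub_rev (w - w') (fderiv ℝ P (Q y') (w - w'))]
  rw [e3] at b2
  have b3 := b2.trans (((fderiv ℝ P (Q y) - fderiv ℝ P (Q y')).le_opNorm w').trans
    (mul_le_mul_of_nonneg_right (hlip _ (h.invP_mem hy) _ (h.invP_mem hy')) (norm_nonneg w')))
  rw [norm_sub_rev (Q y)] at b3
  have b4 : (1 - eps) * ‖Q y' - Q y‖ ≤ ‖y' - y‖ := h.lip_invP hy' hy
  have b5 : (1 - eps) * ‖w'‖ ≤ ‖v‖ := h.norm_fderiv_invP_apply hy v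
  have b6 : ((1 - eps) * ‖Q y' - Q y‖) * ((1 - eps) * ‖w'‖) ≤ ‖y' - y‖ * ‖v‖ :=
    mul_le_mul b4 b5 (mul_nonneg (by linarith) (norm_nonneg _)) (norm_nonneg _)
  have b7 : (729 / 1000 : ℝ) ≤ (1 - eps) ^ 3 := by
    calc (729 / 1000 : ℝ) = (9 / 10) ^ 3 := by norm_num
      _ ≤ (1 - eps) ^ 3 := pow_le_pow_left₀ (by norm_num) (by linarith) 3
  have b8 : (1 - eps) ^ 2 * ((1 - eps) * ‖w - w'‖) ≤
      (1 - eps) ^ 2 * (eta * ‖Q y' - Q y‖ * ‖w'‖) :=
    mul_le_mul_of_nonneg_left b3 (sq_nonneg _)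
  have b9 : (729 / 1000 : ℝ) * ‖w - w'‖ ≤ eta * (‖y' - y‖ * ‖v‖) := by
    refine (mul_le_mul_of_nonneg_right b7 (norm_nonneg _)).trans ?_
    calc (1 - eps) ^ 3 * ‖w - w'‖ = (1 - eps) ^ 2 * ((1 - eps) * ‖w - w'‖) := by ring
      _ ≤ eta * (((1 - eps) * ‖Q y' - Q y‖) * ((1 - eps) * ‖w'‖)) := by
        refine b8.trans_eq ?_; ring
      _ ≤ eta * (‖y' - y‖ * ‖v‖) := mul_le_mul_of_nonneg_left b6 heta
  linarith [mul_nonneg heta (mul_nonneg (norm_nonneg (y' - y)) (norm_nonneg v)),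
    mul_assoc (2 * eta) ‖y' - y‖ ‖v‖]

end NearId

theorem exists_ringInverse_bound (k : ℕ) :
    ∃ B, 0 ≤ B ∧ ∀ j ≤ k, ∀ A ∈ ball (1 : Pl →L[ℝ] Pl) (1 / 2),
      ‖iteratedFDeriv ℝ j Ring.inverse A‖ ≤ B := by
  let O : Set (Pl →L[ℝ] Pl) := {A | IsUnit A}
  have hO : IsOpen O := Units.isOpen
  have hcd : ContDiffOn ℝ k Ring.inverse O := by
    rintro A ⟨u, rfl⟩
    exact (contDiffAt_ringInverse ℝ u).contDiffWithinAt
  have hKO : closedBall (1 : Pl →L[ℝ] Pl) (1 / 2) ⊆ O := by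
    intro A hA
    rw [mem_closedBall, dist_eq_norm] at hA
    have h1 : ‖(1 : Pl →L[ℝ] Pl) - A‖ < 1 := by
      rw [norm_sub_rev]; linarith
    have := (Units.oneSub _ h1).isUnit
    rwa [Units.val_oneSub, sub_sub_cancel] at this
  have hK : IsCompact (closedBall (1 : Pl →L[ℝ] Pl) (1 / 2)) := isCompact_closedBall _ _
  have hcont : ∀ j ∈ Finset.range (k + 1), ∃ B, ∀ A ∈ closedBall (1 : Pl →L[ℝ] Pl) (1 / 2),
      ‖iteratedFDeriv ℝ j Ring.inverse A‖ ≤ B := by
    intro j hj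
    have hjk : j ≤ k := Nat.lt_succ_iff.1 (Finset.mem_range.1 hj)
    have h1 : ContinuousOn (iteratedFDeriv ℝ j Ring.inverse) O :=
      (hcd.continuousOn_iteratedFDerivWithin (mod_cast hjk) hO.uniqueDiffOn).congr
        fun x hx => (iteratedFDerivWithin_of_isOpen j hO hx).symm
    exact hK.exists_bound_of_continuousOn (h1.mono hKO)
  choose! B hB using hcont
  refine ⟨∑ j ∈ Finset.range (k + 1), |B j|, Finset.sum_nonneg fun j _ => abs_nonneg _,
    fun j hj A hA => ?_⟩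
  have hmem : j ∈ Finset.range (k + 1) := Finset.mem_range.2 (Nat.lt_succ_of_le hj)
  exact ((hB j hmem A (ball_subset_closedBall hA)).trans (le_abs_self _)).trans
    (Finset.single_le_sum (f := fun j => |B j|) (fun i _ => abs_nonneg _) hmem)

theorem exists_bdOn_invP (k : ℕ) (C : ℝ) :
    ∀ j, j ≤ k → ∃ C', 0 ≤ C' ∧ ∀ (P : Pl → Pl) (R eps : ℝ), NearId P R eps k →
      BdOn (disc R) k C P → BdOn (disc (R * (1 - 3 * eps))) j C' (invP P R) := by
  have hzero : ∀ (P : Pl → Pl) (R eps : ℝ), NearId P R eps k → BdOn (disc R) k C P →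
      ∀ y ∈ disc (R * (1 - 3 * eps)), ‖invP P R y‖ ≤ 2 * |C| := by
    intro P R eps h hb y hy
    have h1 := h.norm_invP_le hy
    have h2 : ‖y‖ ≤ C := by
      have := hb.norm_le (h.invP_mem hy)
      rwa [h.apply_invP hy] at this
    nlinarith [h.eps_le, norm_nonneg (invP P R y), le_abs_self C]
  intro j
  induction j with
  | zero =>
    intro _
    refine ⟨2 * |C|, by positivity, fun P R eps h hb i hi y hy => ?_⟩
    obtain rfl : i = 0 := Nat.le_zero.1 hi
    simpa using hzero P R eps h hb y hy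
  | succ j ih =>
    intro hj
    obtain ⟨Cj, hCj, hih⟩ := ih (by omega)
    obtain ⟨B, hB0, hB⟩ := exists_ringInverse_bound j
    let C1 : ℝ := j ! * C * max 1 Cj ^ j
    refine ⟨max (2 * |C|) (j ! * B * max 1 C1 ^ j), le_max_of_le_left (by positivity),
      fun P R eps h hb => ?_⟩
    refine BdOn.of_fderiv (fun y hy => (hzero P R eps h hb y hy).trans (le_max_left _ _)) ?_
    refine BdOn.mono_const ?_ (le_max_right _ _)
    have hV := isOpen_disc (R * (1 - 3 * eps))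
    have hD := isOpen_disc R
    have hP : ContDiffOn ℝ (j + 1 : ℕ) P (disc R) := h.smooth.of_le (by exact_mod_cast hj)
    have hQ : ContDiffOn ℝ j (invP P R) (disc (R * (1 - 3 * eps))) :=
      h.contDiffOn_invP.of_le (by exact_mod_cast (by omega : j ≤ k))
    have hDP := ContDiffOn.fderivPl hD hP
    have hmaps : MapsTo (invP P R) (disc (R * (1 - 3 * eps))) (disc R) :=
      fun y hy => h.invP_mem hy
    have hinner : BdOn (disc (R * (1 - 3 * eps))) j C1 (fun y => fderiv ℝ P (invP P R y)) :=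
      BdOn.comp hV hD hmaps hDP hQ (hb.mono_order hj).fderiv_bound (hih P R eps h hb)
    have hinv : ContDiffOn ℝ j Ring.inverse (ball (1 : Pl →L[ℝ] Pl) (1 / 2)) := by
      intro A hA
      rw [mem_ball, dist_eq_norm] at hA
      have h1 : ‖(1 : Pl →L[ℝ] Pl) - A‖ < 1 := by
        rw [norm_sub_rev]; linarith
      have hu := (Units.oneSub _ h1).isUnit
      rw [Units.val_oneSub, sub_sub_cancel] at hu
      obtain ⟨u, rfl⟩ := hu
      exact (contDiffAt_ringInverse ℝ u).contDiffWithinAt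
    refine (bdOn_comp hV isOpen_ball ?_ hinv (hDP.comp hQ hmaps) hB
      (fun i _ hi y hy => hinner i hi y hy)).congr hV fun y hy => (h.fderiv_invP_eq hy).symm
    intro y hy
    rw [mem_ball, dist_eq_norm]
    exact lt_of_le_of_lt (h.near _ (h.invP_mem hy)) (by linarith [h.eps_le])

/-- The inverse theorem. -/
theorem exists_inverse (k : ℕ) (C : ℝ) :
    ∃ C', 1 ≤ C' ∧ ∀ (P : Pl → Pl) (R eps : ℝ), NearId P R eps k → BdOn (disc R) k C P →
      ∃ Q : Pl → Pl, ContDiffOn ℝ k Q (disc (R * (1 - 3 * eps))) ∧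
        BdOn (disc (R * (1 - 3 * eps))) k C' Q ∧ Q 0 = 0 ∧
        (∀ y ∈ disc (R * (1 - 3 * eps)), Q y ∈ disc R ∧ P (Q y) = y) ∧
        (∀ x ∈ disc R, Q (P x) = x) ∧
        (∀ y ∈ disc (R * (1 - 3 * eps)),
          ‖fderiv ℝ Q y - ContinuousLinearMap.id ℝ Pl‖ ≤ 2 * eps) ∧
        (∀ eta, 2 ≤ k → (∀ x ∈ disc R, ‖iteratedFDeriv ℝ 2 P x‖ ≤ eta) →
          ∀ y ∈ disc (R * (1 - 3 * eps)), ‖iteratedFDeriv ℝ 2 Q y‖ ≤ 2 * eta) := by
  obtain ⟨C', hC', h⟩ := exists_bdOn_invP k C k le_rfl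
  refine ⟨max 1 C', le_max_left _ _, fun P R eps hn hb => ⟨invP P R, hn.contDiffOn_invP,
    (h P R eps hn hb).mono_const (le_max_right _ _), hn.invP_zero, ?_, ?_, ?_, ?_⟩⟩
  · exact fun y hy => ⟨hn.invP_mem hy, hn.apply_invP hy⟩
  · exact fun x hx => hn.invP_apply hx
  · exact fun y hy => hn.norm_fderiv_invP_sub_id hy
  · exact fun eta hk h2 y hy => hn.norm_second_invP_le hk h2 hy

/-- Discs go into slightly larger discs, so smaller discs land in the domain of the inverse. -/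
theorem NearId.mapsTo_disc {P : Pl → Pl} {R eps : ℝ} {k : ℕ} (h : NearId P R eps k) {r : ℝ}
    (hr : 0 ≤ r) (hrR : r ≤ R) : MapsTo P (disc r) (disc (r * (1 + 2 * eps))) := by
  intro x hx
  have hxR : x ∈ disc R := disc_mono hr hrR hx
  have he := h.eps_nonneg
  have hn : ‖x‖ ≤ r := (norm_lt_of_mem_disc hr hx).le
  set u := P x - x with hu
  have hu' : ‖u‖ ≤ eps * ‖x‖ := h.norm_sub_self_le hxR
  have h1 : P x = x + u := by rw [hu]; abel
  have hx' : x.1 ^ 2 + x.2 ^ 2 < r ^ 2 := hx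
  have hu1 : |u.1| ≤ eps * r := (norm_fst_le u).trans (hu'.trans (by gcongr))
  have hu2 : |u.2| ≤ eps * r := (norm_snd_le u).trans (hu'.trans (by gcongr))
  have q : ∀ a b : ℝ, |a| ≤ eps * r → b * a ≤ eps * (b ^ 2 + r ^ 2) / 2 := by
    intro a b ha
    have h2 : b * a ≤ |b| * (eps * r) :=
      (le_abs_self _).trans (by rw [abs_mul]; exact mul_le_mul_of_nonneg_left ha (abs_nonneg b))
    nlinarith [mul_nonneg he (sq_nonneg (|b| - r)), sq_abs b]
  have p1 : u.1 ^ 2 ≤ (eps * r) ^ 2 := sq_le_sq.2 (by rwa [abs_of_nonneg (mul_nonneg he hr)])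
  have p2 : u.2 ^ 2 ≤ (eps * r) ^ 2 := sq_le_sq.2 (by rwa [abs_of_nonneg (mul_nonneg he hr)])
  rw [h1]
  show (x.1 + u.1) ^ 2 + (x.2 + u.2) ^ 2 < (r * (1 + 2 * eps)) ^ 2
  nlinarith [q u.1 x.1 hu1, q u.2 x.2 hu2, p1, p2, mul_nonneg he (sq_nonneg r),
    mul_le_mul_of_nonneg_left hx'.le he, sq_nonneg (eps * r)]

/-- The inverse of `id + g` for small `g`: its distance to the identity is linear in the size
of `g`. -/
theorem exists_inverse_id_add (k : ℕ) (hk : 1 ≤ k) (R0 : ℝ) :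
    ∃ C', 0 ≤ C' ∧ ∀ (g : Pl → Pl) (R R' eps : ℝ), 0 < R → R ≤ R0 → 0 ≤ R' → eps ≤ 1 / 10 →
      R' + 2 * eps ≤ R * (1 - 3 * eps) → ContDiffOn ℝ k g (disc R) → BdOn (disc R) k eps g →
      ∃ I : Pl → Pl, ContDiffOn ℝ k I (disc R') ∧
        BdOn (disc R') k (C' * eps) (fun y => I y - y) ∧
        (∀ y ∈ disc R', I y ∈ disc R ∧ I y + g (I y) = y) ∧
        (∀ x ∈ disc R, I (x + g x) = x) := by
  obtain ⟨C1, hC1, h⟩ := exists_inverse k (max R0 1 + 1)
  refine ⟨k ! * max 1 C1 ^ k, by positivity,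
    fun g R R' eps hR hR0 hR' he hmargin hg hb => ?_⟩
  have hD := isOpen_disc R
  have h00 : (0 : Pl) ∈ disc R := zero_mem_disc hR
  have he0 : 0 ≤ eps := hb.nonneg h00
  set P : Pl → Pl := fun x => x + g x - g 0 with hP
  have hn : NearId P R eps k := by
    refine ⟨hR, he, hk, (contDiffOn_id.add hg).sub contDiffOn_const, by simp [hP], fun x hx => ?_⟩
    have hgx : DifferentiableAt ℝ g x := diffAt_of_open hD hg (mod_cast hk) hx
    rw [hP, fderiv_sub_const, fderiv_fun_add differentiableAt_fun_id hgx, fderiv_fun_id,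
      add_sub_cancel_left]
    exact hb.norm_fderiv_le hk hx
  have hbP : BdOn (disc R) k (max R0 1 + 1) P := by
    have h1 := ((bdOn_id_disc hR.le k).add hD contDiffOn_id hg hb).sub hD
      (contDiffOn_id.add hg) contDiffOn_const (bdOn_const (disc R) k (g 0))
    refine h1.mono_const ?_
    have := hb.norm_le h00
    linarith [max_le_max hR0 (le_refl (1 : ℝ))]
  obtain ⟨Q, hQ, hQb, -, hQP, hPQ, -, -⟩ := h P R eps hn hbP
  have hsh : ∀ y ∈ disc R', y - g 0 ∈ disc (R * (1 - 3 * eps)) := by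
    intro y hy
    have h1 : |(g 0).1| ≤ eps := (norm_fst_le (g 0)).trans (hb.norm_le h00)
    have h2 : |(g 0).2| ≤ eps := (norm_snd_le (g 0)).trans (hb.norm_le h00)
    have hy1 : |y.1| ≤ R' := (norm_fst_le y).trans (norm_lt_of_mem_disc hR' hy).le
    have hy2 : |y.2| ≤ R' := (norm_snd_le y).trans (norm_lt_of_mem_disc hR' hy).le
    have hy' : y.1 ^ 2 + y.2 ^ 2 < R' ^ 2 := hy
    show (y.1 - (g 0).1) ^ 2 + (y.2 - (g 0).2) ^ 2 < (R * (1 - 3 * eps)) ^ 2
    have q : ∀ a b : ℝ, |a| ≤ eps → |b| ≤ R' → -(b * a) ≤ R' * eps := by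
      intro a b ha hb'
      exact (neg_le_abs _).trans (by rw [abs_mul]; exact mul_le_mul hb' ha (abs_nonneg _) hR')
    have p1 : (g 0).1 ^ 2 ≤ eps ^ 2 := sq_le_sq.2 (by rwa [abs_of_nonneg he0])
    have p2 : (g 0).2 ^ 2 ≤ eps ^ 2 := sq_le_sq.2 (by rwa [abs_of_nonneg he0])
    have p3 := pow_le_pow_left₀ (by positivity : 0 ≤ R' + 2 * eps) hmargin 2
    nlinarith [q _ _ h1 hy1, q _ _ h2 hy2]
  refine ⟨fun y => Q (y - g 0), hQ.comp (contDiffOn_id.sub contDiffOn_const) hsh, ?_, ?_, ?_⟩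
  · have hI : ContDiffOn ℝ k (fun y => Q (y - g 0)) (disc R') :=
      hQ.comp (contDiffOn_id.sub contDiffOn_const) hsh
    have hid : ∀ y ∈ disc R', -g (Q (y - g 0)) = Q (y - g 0) - y := by
      intro y hy
      have h1 : Q (y - g 0) + g (Q (y - g 0)) - g 0 = y - g 0 := (hQP _ (hsh y hy)).2
      have h2 : Q (y - g 0) + g (Q (y - g 0)) = y := sub_left_inj.1 h1
      linear_combination (norm := abel) -h2
    refine BdOn.congr (isOpen_disc R') ?_ hid
    refine BdOn.neg ?_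
    have := BdOn.comp (isOpen_disc R') hD (fun y hy => (hQP _ (hsh y hy)).1) hg hI hb
      (C' := C1) (fun j hj y hy => by
        rw [iteratedFDeriv_comp_sub]
        exact hQb j hj _ (hsh y hy))
    refine this.mono_const (le_of_eq ?_)
    ring
  · intro y hy
    refine ⟨(hQP _ (hsh y hy)).1, ?_⟩
    have h1 : Q (y - g 0) + g (Q (y - g 0)) - g 0 = y - g 0 := (hQP _ (hsh y hy)).2
    exact sub_left_inj.1 h1
  · intro x hx
    exact hPQ x hx

end Vale.Agent.P229
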