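import Vale.Agent.P229.Base

/-!
# P229: section 7, the abstract estimates in the plane
-/

open scoped ContDiff
open MeasureTheory

namespace Vale.Agent.P229

/-- The fixed profile in the thin direction. -/
noncomputable def eta0 : ℝ → ℝ := fun x => (⟨1 / 2, 1, by norm_num, by norm_num⟩ : ContDiffBump (0 : ℝ)) x

/-- Coefficients of `v_yy + 2 d v_py + a v_pp + b v_p + e v_y`. -/
structure Coef where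
  d : Pl → ℝ
  a : Pl → ℝ
  b : Pl → ℝ
  e : Pl → ℝ

/-- The operator. -/
noncomputable def Coef.op (c : Coef) (v : Pl → ℝ) (x : Pl) : ℝ :=
  d2 (d2 v) x + 2 * c.d x * d1 (d2 v) x + c.a x * d1 (d1 v) x + c.b x * d1 v x + c.e x * d2 v x

/-- The hypotheses (H1), (H2), (H3) on the disc of radius `3/2`; globally `C³`. -/
def Coef.OK (c : Coef) (β d0 γ C : ℝ) : Prop :=
  ContDiff ℝ 3 c.d ∧ ContDiff ℝ 3 c.a ∧ ContDiff ℝ 3 c.b ∧ ContDiff ℝ 3 c.e ∧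
  BdOn (disc (3 / 2)) 3 γ c.d ∧ BdOn (disc (3 / 2)) 3 (C * β) c.a ∧
  BdOn (disc (3 / 2)) 2 (C * β) c.b ∧ BdOn (disc (3 / 2)) 2 (C * β) c.e ∧
  ∀ x ∈ disc (3 / 2),
    |c.a x - β * (nsq x - 1)| ≤ d0 * β ∧
    |d2 c.a x - 2 * β * x.2| ≤ d0 * β ∧
    |d1 c.a x - 2 * β * x.1| ≤ d0 * β * (|x.1| + Real.sqrt β) ∧
    |c.b x - d1 c.a x| ≤ d0 * β * (|x.1| + Real.sqrt β) ∧
    |c.e x| ≤ d0 * β

/-- The profile in the long direction: `G`, with `g = G''` the signal. -/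
def WaveOK (N : ℕ) (C : ℝ) (G : ℝ → ℝ) : Prop :=
  ContDiff ℝ ∞ G ∧ (∀ y, 27 / 100 ≤ |y| → G y = 0) ∧
  (∫ y, G y ^ 2) ≤ C / (N : ℝ) ^ 4 * ∫ y, deriv^[2] G y ^ 2 ∧
  (∫ y, deriv G y ^ 2) ≤ C / (N : ℝ) ^ 2 * ∫ y, deriv^[2] G y ^ 2 ∧
  (∫ y, deriv^[3] G y ^ 2) ≤ C * (N : ℝ) ^ 2 * ∫ y, deriv^[2] G y ^ 2 ∧
  (∫ y, deriv^[4] G y ^ 2) ≤ C * (N : ℝ) ^ 4 * ∫ y, deriv^[2] G y ^ 2 ∧
  1 / (C * (N : ℝ)) ≤ ∫ y, deriv^[2] G y ^ 2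

/-- The source (H4) for thickness `r = N⁻⁴`. -/
noncomputable def source (N : ℕ) (t : ℝ) (c0 c1 c2 c3 : Pl → ℝ) (G : ℝ → ℝ) (x : Pl) : ℝ :=
  t * (c0 x * eta0 ((N : ℝ) ^ 4 * x.1) * deriv^[2] G x.2
    + c1 x * eta0 ((N : ℝ) ^ 4 * x.1) * deriv G x.2
    + c2 x * ((N : ℝ) ^ 4 * deriv eta0 ((N : ℝ) ^ 4 * x.1)) * G x.2
    + c3 x * eta0 ((N : ℝ) ^ 4 * x.1) * G x.2)

/-- Section 7: such a solution does not exist. -/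
def EstSpec : Prop :=
  ∃ d0 > 0, ∀ C : ℝ, 1 ≤ C → ∃ β0 > 0, ∀ βm : ℝ, 0 < βm → ∃ N0 : ℕ, ∀ N : ℕ, N0 ≤ N →
    ∀ β, βm ≤ β → β ≤ β0 → ∀ (c : Coef) (v E : Pl → ℝ) (c0 c1 c2 c3 : Pl → ℝ) (G : ℝ → ℝ) (t : ℝ),
      0 < t → c.OK β d0 (C / (N : ℝ) ^ 32) C → WaveOK N C G →
      ContDiff ℝ 4 v → tsupport v ⊆ disc (29 / 20) →
      ContDiff ℝ 2 E → BdOn (disc (3 / 2)) 2 (C * t / (N : ℝ) ^ 28) E →
      ContDiff ℝ 2 c0 → ContDiff ℝ 2 c1 → ContDiff ℝ 2 c2 → ContDiff ℝ 2 c3 →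
      BdOn (disc (3 / 2)) 2 C c0 → BdOn (disc (3 / 2)) 2 C c1 →
      BdOn (disc (3 / 2)) 2 C c2 → BdOn (disc (3 / 2)) 2 C c3 →
      (∀ x ∈ disc (3 / 2), 1 / C ≤ c0 x) →
      (∀ x ∈ disc (3 / 2), c.op v x = source N t c0 c1 c2 c3 G x + E x) →
      False

end Vale.Agent.P229
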