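import Vale.Agent.P229.Base
import Vale.Agent.P229.Assembly

/-!
# P229: interfaces between the modules

Every statement here is a `Prop`; each module proves one of them, `MainLemma` follows from them.
-/

open scoped ContDiff RealInnerProductSpace
open Metric Set

namespace Vale.Agent.P229

/-- Gauss's equations for the heights of an isometric immersion: the covariant Hessians of all
heights are the second fundamental form times `⟪n, e⟫ / s`, and `det II = rcur`. -/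
def GaussSpec : Prop :=
  ∀ (m : Met) (U : Set Pl) (G : Pl → R3), IsOpen U → ContDiffOn ℝ 3 G U → IsIsometric m U G →
    (∀ x ∈ U, 0 < m.det x) →
    ∃ (n : Pl → R3) (a b c : Pl → ℝ), ContDiffOn ℝ 2 n U ∧ ∀ x ∈ U,
      ‖n x‖ = 1 ∧ ⟪d1 G x, n x⟫ = 0 ∧ ⟪d2 G x, n x⟫ = 0 ∧
      a x * c x - b x ^ 2 = m.rcur x ∧
      ∀ (s : ℝ) (e : R3), s ≠ 0 →
        m.h11 (zOf s G e) x = a x * ⟪n x, e⟫ / s ∧
        m.h12 (zOf s G e) x = b x * ⟪n x, e⟫ / s ∧
        m.h22 (zOf s G e) x = c x * ⟪n x, e⟫ / s ∧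
        s ^ 2 * m.gradSq (zOf s G e) x + ⟪n x, e⟫ ^ 2 = ‖e‖ ^ 2

/-- Section 2 and scaling: finitely many island centres outside the square such that every bounded
immersion has an island where its scaled version is an `IslandSol`. -/
def SpotIslandsSpec (k : ℕ) : Prop :=
  ∀ (c : Pl) (r : ℝ) (σ : Pl → ℝ) (M : ℝ),
    0 < r → ContDiff ℝ ∞ σ → (∀ x, 0 ≤ σ x) → (∀ x, σ x ≤ 1 / 4) → 0 < σ c →
    tsupport σ ⊆ ball c r →
    ∃ (I : ℕ) (M' a0 s0 : ℝ), 0 < a0 ∧ 0 < s0 ∧ s0 ≤ 1 ∧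
      ∀ s, 0 < s → s ≤ s0 → ∃ q : Fin I → Pl,
        (∀ i, ∀ x ∈ disc 4, q i + s • x ∈ ball c (2 * r) \ closedBall c r) ∧
        (∀ i j, i ≠ j → ∀ x ∈ disc 4, ∀ y ∈ disc 4, q i + s • x ≠ q j + s • y) ∧
        ∀ β, 0 < β → β ≤ s → ∀ π : Pert, PertOK π → (∀ i, BdOn univ 2 β (π i)) →
          ∀ F : Pl → R3, ContDiffOn ℝ k F (ball c (2 * r)) →
            DerivBound k M (ball c (2 * r)) F →
            IsIsometric (spotted σ (glueP q s β π) (glueQ q s π) (glueW q s β π))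
              (ball c (2 * r)) F →
            ∃ G e, IslandSol k s β M' a0 π G e

/-- Section 5, annulus: heights of island solutions are coded by `exp (C L⁶)` values up to
`2 ^ (-L/512)` on the annulus, where all of them solve one elliptic equation. -/
def AnnulusCodeSpec (k : ℕ) : Prop :=
  ∀ (M a0 : ℝ), 0 < a0 → ∃ s0 > 0, ∀ s, 0 < s → s ≤ s0 → ∃ β0 > 0, ∀ β, 0 < β → β ≤ β0 →
    ∃ C : ℝ, ∀ L : ℕ, 1 ≤ L → ∃ (K : ℕ) (code : (Pl → ℝ) → ℕ),
      (∀ z, code z < K) ∧ Real.log K ≤ C * (L : ℝ) ^ 6 ∧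
      ∀ π π' G G' e e', PertOK π → PertOK π' →
        IslandSol k s β M a0 π G e → IslandSol k s β M a0 π' G' e' →
        code (zOf s G e) = code (zOf s G' e') →
        BdOn (ring' (6 / 5) (29 / 20)) 6 (C * (2 : ℝ) ^ (-(L : ℝ) / 512))
          (fun x => zOf s G e x - zOf s G' e' x)

/-- Section 5, Taylor code: bounded `C^k` functions are coded up to `γ` in `C⁸`. -/
def TaylorCodeSpec (k : ℕ) : Prop :=
  ∀ C : ℝ, ∃ C' : ℝ, ∀ γ : ℝ, 0 < γ → γ ≤ 1 / 2 → ∃ (K : ℕ) (code : (Pl → ℝ) → ℕ),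
    (∀ z, code z < K) ∧
    Real.log K ≤ C' * γ ^ (-(2 : ℝ) / ((k : ℝ) - 8)) * Real.log (1 / γ) ∧
    ∀ z z' : Pl → ℝ, ContDiffOn ℝ k z (disc 3) → ContDiffOn ℝ k z' (disc 3) →
      BdOn (disc 3) k C z → BdOn (disc 3) k C z' → code z = code z' →
      BdOn (disc 2) 8 γ (fun x => z x - z' x)

/-- Section 4: a family of `≤ N^A'` functions whose integer combinations, scaled by `N^(-A')`,
approximate every bounded target to within `N^(-B)` in `C⁵`. -/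
def BasisSpec : Prop :=
  ∀ A B m : ℕ, ∃ A' N0 : ℕ, ∀ N : ℕ, N0 ≤ N → ∃ (D : ℕ) (b : Fin D → Pl → ℝ),
    D ≤ N ^ A' ∧ (∀ l, ContDiff ℝ ∞ (b l) ∧ tsupport (b l) ⊆ disc (28 / 25) ∧
      BdOn univ m ((N : ℝ) ^ A') (b l)) ∧
    ∀ f : Pl → ℝ, ContDiff ℝ 31 f → tsupport f ⊆ disc (9 / 10) →
      BdOn univ 31 ((N : ℝ) ^ A) f →
      ∃ n : Fin D → ℤ, (∀ l, |n l| ≤ (N : ℤ) ^ A') ∧
        BdOn univ 5 (1 / (N : ℝ) ^ B)
          (fun x => f x - (1 / (N : ℝ) ^ A') * ∑ l, (n l : ℝ) * b l x)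

/-- Section 5: the lattice pigeonhole with class dependent steps. -/
def PigeonSpec : Prop :=
  ∀ (ι : Type) [Fintype ι] (N K Q Dm : ℕ) (code : (ι → ℤ) → ℕ) (D : ℕ → Fin N → ι → ℤ),
    0 < Q → (∀ c, code c < K) → 8 * K < 2 ^ N → 2 * N * Dm * Fintype.card ι ≤ Q →
    (∀ κ, κ < K → ∀ j l, |D κ j l| ≤ Dm) →
    ∃ c c' : ι → ℤ, (∀ l, 0 ≤ c l ∧ c l < Q) ∧ (∀ l, 0 ≤ c' l ∧ c' l < Q) ∧
      code c = code c' ∧ ∃ δ : Fin N → ℤ, δ ≠ 0 ∧ (∀ j, |δ j| ≤ 1) ∧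
        ∀ l, c l - c' l = ∑ j, δ j * D (code c) j l

/-- Sections 6 and 7: next to a representative there are `N` target perturbations no nonzero signed
sum of which can separate two solutions that agree to `N^(-32)` with the representative and to
`t N^(-31)` on the annulus. -/
def CoreSpec (k : ℕ) : Prop :=
  ∃ A : ℕ, ∀ (M a0 : ℝ), 0 < a0 → ∃ s0 > 0, ∀ s, 0 < s → s ≤ s0 → ∃ β0 > 0,
    ∀ β, 0 < β → β ≤ β0 → ∃ N0 : ℕ, ∀ N : ℕ, N0 ≤ N →
      ∀ πr Gr er, PertOK πr → (∀ i, BdOn univ 8 (1 / (N : ℝ) ^ 40) (πr i)) →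
        IslandSol k s β M a0 πr Gr er →
        ∃ T : Fin N → Pert,
          (∀ j i, ContDiff ℝ 31 (T j i) ∧ tsupport (T j i) ⊆ disc (9 / 10) ∧
            BdOn univ 31 ((N : ℝ) ^ A) (T j i)) ∧
          ∀ (t : ℝ) (δ : Fin N → ℤ), 0 < t → t ≤ 1 → δ ≠ 0 → (∀ j, |δ j| ≤ 1) →
            ∀ π π' G G' e e', PertOK π → PertOK π' →
              (∀ i, BdOn univ 8 (1 / (N : ℝ) ^ 40) (π i)) →
              (∀ i, BdOn univ 8 (1 / (N : ℝ) ^ 40) (π' i)) →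
              IslandSol k s β M a0 π G e → IslandSol k s β M a0 π' G' e' →
              (∀ i, BdOn univ 4 (t / (N : ℝ) ^ 31)
                (fun x => π i x - π' i x - t * ∑ j, (δ j : ℝ) * T j i x)) →
              BdOn (disc 2) 8 (1 / (N : ℝ) ^ 32) (fun x => zOf s G e x - zOf s Gr er x) →
              BdOn (disc 2) 8 (1 / (N : ℝ) ^ 32) (fun x => zOf s G' e' x - zOf s Gr er x) →
              BdOn (ring' (6 / 5) (29 / 20)) 6 (t / (N : ℝ) ^ 31)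
                (fun x => zOf s G e x - zOf s G' e' x) →
              False

end Vale.Agent.P229
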