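import Mathlib

/-!
# P229: metrics on the plane and local isometric immersions into three-space

`IsMetric` is a smooth positive definite metric on `ℝ × ℝ` given by its three coefficients,
`Realizable k g U` says that `U` admits a `C^k` isometric immersion into Euclidean space, and
`Target k` is the statement of the disproof: some smooth metric has no `C^k` realization near `0`.
-/

open scoped ContDiff RealInnerProductSpace

namespace Vale.Agent.P229

/-- The coordinate plane. -/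
abbrev Pl : Type := ℝ × ℝ

/-- Euclidean three-space. -/
abbrev R3 : Type := EuclideanSpace ℝ (Fin 3)

/-- The three coefficients `g11, g12, g22` of a metric. -/
structure Met where
  e : Pl → ℝ
  f : Pl → ℝ
  g : Pl → ℝ

/-- Smooth and positive definite. -/
def Met.IsMetric (m : Met) : Prop :=
  ContDiff ℝ ∞ m.e ∧ ContDiff ℝ ∞ m.f ∧ ContDiff ℝ ∞ m.g ∧
    ∀ q, 0 < m.e q ∧ 0 < m.e q * m.g q - m.f q ^ 2

/-- `F` induces the metric `m` at every point of `U`. -/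
def IsIsometric (m : Met) (U : Set Pl) (F : Pl → R3) : Prop :=
  ∀ q ∈ U,
    ⟪fderiv ℝ F q (1, 0), fderiv ℝ F q (1, 0)⟫ = m.e q ∧
    ⟪fderiv ℝ F q (1, 0), fderiv ℝ F q (0, 1)⟫ = m.f q ∧
    ⟪fderiv ℝ F q (0, 1), fderiv ℝ F q (0, 1)⟫ = m.g q

/-- `U` admits a `C^k` isometric immersion of `m` into three-space. -/
def Realizable (k : ℕ∞) (m : Met) (U : Set Pl) : Prop :=
  ∃ F : Pl → R3, ContDiffOn ℝ k F U ∧ IsIsometric m U F

/-- Some smooth metric on the plane has no `C^k` isometric immersion of any neighbourhood of `0`. -/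
def Target (k : ℕ∞) : Prop :=
  ∃ m : Met, m.IsMetric ∧ ∀ U : Set Pl, IsOpen U → (0 : Pl) ∈ U → ¬ Realizable k m U

/-- The target unfolded: only Mathlib notions. -/
theorem target_iff (k : ℕ∞) :
    Target k ↔ ∃ E F G : ℝ × ℝ → ℝ,
      ContDiff ℝ ∞ E ∧ ContDiff ℝ ∞ F ∧ ContDiff ℝ ∞ G ∧
      (∀ q, 0 < E q ∧ 0 < E q * G q - F q ^ 2) ∧
      ∀ U : Set (ℝ × ℝ), IsOpen U → (0 : ℝ × ℝ) ∈ U →
        ¬ ∃ X : ℝ × ℝ → EuclideanSpace ℝ (Fin 3), ContDiffOn ℝ k X U ∧ ∀ q ∈ U,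
          ⟪fderiv ℝ X q (1, 0), fderiv ℝ X q (1, 0)⟫ = E q ∧
          ⟪fderiv ℝ X q (1, 0), fderiv ℝ X q (0, 1)⟫ = F q ∧
          ⟪fderiv ℝ X q (0, 1), fderiv ℝ X q (0, 1)⟫ = G q :=
  ⟨fun ⟨m, ⟨he, hf, hg, hp⟩, h⟩ => ⟨m.e, m.f, m.g, he, hf, hg, hp, h⟩,
    fun ⟨E, F, G, he, hf, hg, hp, h⟩ => ⟨⟨E, F, G⟩, ⟨he, hf, hg, hp⟩, h⟩⟩

theorem Realizable.mono {k l : ℕ∞} (hkl : k ≤ l) {m : Met} {U : Set Pl} :
    Realizable l m U → Realizable k m U :=
  fun ⟨F, hF, h⟩ => ⟨F, hF.of_le (mod_cast hkl), h⟩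

theorem Target.mono {k l : ℕ∞} (hkl : k ≤ l) : Target k → Target l :=
  fun ⟨m, hm, h⟩ => ⟨m, hm, fun U hU h0 hR => h U hU h0 (hR.mono hkl)⟩

theorem Realizable.restrict {k : ℕ∞} {m : Met} {U V : Set Pl} (hVU : V ⊆ U) :
    Realizable k m U → Realizable k m V :=
  fun ⟨F, hF, h⟩ => ⟨F, hF.mono hVU, fun q hq => h q (hVU hq)⟩

/-- The constant Euclidean metric is realizable on the whole plane (the target is not vacuous). -/
theorem realizable_flat (k : ℕ∞) :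
    Realizable k ⟨fun _ => 1, fun _ => 0, fun _ => 1⟩ Set.univ := by
  let L : Pl →L[ℝ] R3 :=
    (PiLp.continuousLinearEquiv 2 ℝ (fun _ : Fin 3 => ℝ)).symm.toContinuousLinearMap.comp
      (ContinuousLinearMap.pi ![ContinuousLinearMap.fst ℝ ℝ ℝ, ContinuousLinearMap.snd ℝ ℝ ℝ, 0])
  refine ⟨L, L.contDiff.contDiffOn, fun q _ => ?_⟩
  rw [L.fderiv]
  have h1 : L (1, 0) = !₂[1, 0, 0] := by
    ext i; fin_cases i <;> simp [L]
  have h2 : L (0, 1) = !₂[0, 1, 0] := by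
    ext i; fin_cases i <;> simp [L]
  rw [h1, h2]
  simp [PiLp.inner_apply, Fin.sum_univ_three, EuclideanSpace.norm_eq]

theorem flat_isMetric : Met.IsMetric ⟨fun _ => 1, fun _ => 0, fun _ => 1⟩ :=
  ⟨contDiff_const, contDiff_const, contDiff_const, fun _ => by norm_num⟩

end Vale.Agent.P229
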