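import Vale.Agent.P229.Spec

/-!
# P229: the lattice pigeonhole with class dependent steps

Some code class fills at least a `1 / K` part of the box. Shifting it by all `2 ^ N` subset sums
of the steps of the class stays in a box at most three times as large, so two shifts collide.
-/

open Finset

namespace Vale.Agent.P229

theorem box_growth {n Q e : ℕ} (h : e * n ≤ Q) : (Q + e) ^ n ≤ 3 * Q ^ n := by
  rcases Nat.eq_zero_or_pos n with rfl | hn
  · simp
  have hnR : (0 : ℝ) < n := by exact_mod_cast hn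
  have h1 : ((Q : ℝ) + e) ≤ Q * (1 + 1 / n) := by
    have : (e : ℝ) * n ≤ Q := by exact_mod_cast h
    rw [mul_add, mul_one, mul_one_div, add_le_add_iff_left, le_div_iff₀ hnR]
    exact this
  have h2 : (1 + 1 / (n : ℝ)) ^ n ≤ 3 := by
    refine le_trans ?_ Real.exp_one_lt_three.le
    calc (1 + 1 / (n : ℝ)) ^ n ≤ Real.exp (1 / n) ^ n := by
          gcongr
          linarith [Real.add_one_le_exp (1 / (n : ℝ))]
      _ = Real.exp 1 := by
          rw [← Real.exp_nat_mul, mul_one_div, div_self hnR.ne']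
  have h3 : ((Q : ℝ) + e) ^ n ≤ 3 * (Q : ℝ) ^ n := by
    calc ((Q : ℝ) + e) ^ n ≤ ((Q : ℝ) * (1 + 1 / n)) ^ n := by gcongr
      _ = (Q : ℝ) ^ n * (1 + 1 / (n : ℝ)) ^ n := mul_pow _ _ _
      _ ≤ (Q : ℝ) ^ n * 3 := by gcongr
      _ = _ := mul_comm _ _
  exact_mod_cast h3

theorem pigeonSpec : PigeonSpec := by
  intro ι _ N K Q Dm code D hQ hcode hK hQ2 hD
  classical
  set n := Fintype.card ι with hn
  let box : Finset (ι → ℤ) := Fintype.piFinset fun _ => Finset.Ico (0 : ℤ) Q
  have hbox : box.card = Q ^ n := by simp [box, hn]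
  have hKpos : 0 < K := lt_of_le_of_lt (Nat.zero_le _) (hcode 0)
  obtain ⟨κ, hκK, hκ⟩ : ∃ κ < K, Q ^ n ≤ K * (box.filter fun c => code c = κ).card := by
    by_contra! hc
    have h1 : box.card = ∑ κ ∈ Finset.range K, (box.filter fun c => code c = κ).card :=
      Finset.card_eq_sum_card_fiberwise fun c _ => Finset.mem_range.2 (hcode c)
    have h2 : ∑ κ ∈ Finset.range K, K * (box.filter fun c => code c = κ).card
        < ∑ _κ ∈ Finset.range K, Q ^ n :=
      Finset.sum_lt_sum_of_nonempty ⟨0, Finset.mem_range.2 hKpos⟩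
        fun κ hκ => hc κ (Finset.mem_range.1 hκ)
    rw [← Finset.mul_sum, ← h1, hbox, Finset.sum_const, Finset.card_range, smul_eq_mul] at h2
    exact lt_irrefl _ h2
  set S := box.filter fun c => code c = κ with hS
  let T : Finset (Fin N → Fin 2) := Finset.univ
  let ext : Finset (ι → ℤ) :=
    Fintype.piFinset fun _ => Finset.Ico (-((N : ℤ) * Dm)) (Q + N * Dm)
  let shift : (ι → ℤ) × (Fin N → Fin 2) → ι → ℤ :=
    fun p l => p.1 l + ∑ j, ((p.2 j : ℕ) : ℤ) * D κ j l
  have hext : ext.card = (Q + 2 * N * Dm) ^ n := by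
    simp only [ext, Fintype.card_piFinset, Int.card_Ico, Finset.prod_const, Finset.card_univ, ← hn]
    congr 1
    rw [show ((Q : ℤ) + N * Dm - -((N : ℤ) * Dm)) = ((Q + 2 * N * Dm : ℕ) : ℤ) by push_cast; ring,
      Int.toNat_natCast]
  have hmaps : ∀ p ∈ S ×ˢ T, shift p ∈ ext := by
    intro p hp
    have hb : p.1 ∈ box := (Finset.mem_filter.1 (Finset.mem_product.1 hp).1).1
    simp only [box, ext, Fintype.mem_piFinset, Finset.mem_Ico] at hb ⊢
    intro l
    have hs : |∑ j, ((p.2 j : ℕ) : ℤ) * D κ j l| ≤ (N : ℤ) * Dm := by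
      calc |∑ j, ((p.2 j : ℕ) : ℤ) * D κ j l| ≤ ∑ j, |((p.2 j : ℕ) : ℤ) * D κ j l| :=
            Finset.abs_sum_le_sum_abs _ _
        _ ≤ ∑ _j : Fin N, (Dm : ℤ) := by
            refine Finset.sum_le_sum fun j _ => ?_
            rw [abs_mul, Nat.abs_cast]
            have h1 : ((p.2 j : ℕ) : ℤ) ≤ 1 := by
              have := (p.2 j).isLt
              omega
            calc ((p.2 j : ℕ) : ℤ) * |D κ j l| ≤ 1 * |D κ j l| :=
                  mul_le_mul_of_nonneg_right h1 (abs_nonneg _)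
              _ ≤ Dm := by rw [one_mul]; exact hD κ hκK j l
        _ = (N : ℤ) * Dm := by simp
    have := abs_le.1 hs
    exact ⟨by simp only [shift]; linarith [(hb l).1], by simp only [shift]; linarith [(hb l).2]⟩
  have hlt : ext.card < (S ×ˢ T).card := by
    have hT : T.card = 2 ^ N := by simp [T]
    rw [hext, Finset.card_product, hT]
    refine lt_of_le_of_lt (box_growth hQ2) (Nat.lt_of_mul_lt_mul_left (a := K) ?_)
    have hQn : 0 < Q ^ n := pow_pos hQ n
    have hS' : Q ^ n * 2 ^ N ≤ K * (S.card * 2 ^ N) := by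
      rw [← mul_assoc]
      exact Nat.mul_le_mul_right _ hκ
    have h8 : K * (3 * Q ^ n) < Q ^ n * 2 ^ N := by
      calc K * (3 * Q ^ n) = Q ^ n * (3 * K) := by ring
        _ < Q ^ n * 2 ^ N := Nat.mul_lt_mul_of_pos_left (by omega) hQn
    exact lt_of_lt_of_le h8 hS'
  obtain ⟨⟨c, d⟩, hp, ⟨c', d'⟩, hp', hne, heq⟩ :=
    Finset.exists_ne_map_eq_of_card_lt_of_maps_to hlt hmaps
  have hc := Finset.mem_filter.1 (Finset.mem_product.1 hp).1
  have hc' := Finset.mem_filter.1 (Finset.mem_product.1 hp').1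
  have hb : ∀ {x : ι → ℤ}, x ∈ box → ∀ l, 0 ≤ x l ∧ x l < Q := fun hx l =>
    Finset.mem_Ico.1 (Fintype.mem_piFinset.1 hx l)
  refine ⟨c, c', hb hc.1, hb hc'.1, hc.2.trans hc'.2.symm,
    fun j => ((d' j : ℕ) : ℤ) - ((d j : ℕ) : ℤ), fun hz => hne ?_, fun j => ?_, fun l => ?_⟩
  · have hd : d = d' := by
      funext j
      have := congrFun hz j
      simp only [Pi.zero_apply] at this
      exact Fin.ext (by omega)
    subst hd
    refine Prod.ext (funext fun l => ?_) rfl
    have := congrFun heq l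
    simpa [shift] using this
  · have := (d' j).isLt
    have := (d j).isLt
    simp only [abs_le]
    omega
  · have h := congrFun heq l
    simp only [shift] at h
    rw [hc.2]
    simp only [sub_mul, Finset.sum_sub_distrib]
    linarith

end Vale.Agent.P229
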