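import Vale.Agent.P229.Spot
import Vale.Agent.P229.Assembly

/-!
# P229, section 2: finitely many islands catch the curvature forced by the spot

`exists_islands`: there are a constant `c₀`, finitely many points of the boundary of the square and
`s₀`, such that for `s < s₀` the discs round the shifted points `island c r s p` are disjoint, lie
outside the square, and every immersion with derivative bound `M` has `|D²F| ≥ c₀` at one of them.
-/

open scoped ContDiff RealInnerProductSpace
open Set Metric Function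

namespace Vale.Agent.P229

/-- The point at distance `5 s` outside the boundary point `p`. -/
noncomputable def island (c : Pl) (r s : ℝ) (p : Pl) : Pl := p + (5 * s / r) • (p - c)

theorem dist_island {c p : Pl} {r s : ℝ} (hr : 0 < r) (hs : 0 ≤ s) (hp : p ∈ sphere c r) :
    dist (island c r s p) p = 5 * s ∧ dist (island c r s p) c = r + 5 * s := by
  rw [mem_sphere, dist_eq_norm] at hp
  have e : island c r s p - c = (1 + 5 * s / r) • (p - c) := by rw [island]; module
  constructor
  · rw [dist_eq_norm, island, add_sub_cancel_left, norm_smul, hp, Real.norm_eq_abs,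
      abs_of_nonneg (by positivity)]
    field_simp
  · rw [dist_eq_norm, e, norm_smul, hp, Real.norm_eq_abs, abs_of_nonneg (by positivity)]
    field_simp

theorem disc_island {c p : Pl} {r s : ℝ} (hr : 0 < r) (hs : 0 < s) (hsr : 9 * s < r)
    (hp : p ∈ sphere c r) :
    closedBall (island c r s p) (4 * s) ⊆ ball c (2 * r) \ closedBall c r := fun x hx => by
  obtain ⟨-, h⟩ := dist_island hr hs.le hp
  rw [mem_closedBall] at hx
  refine ⟨mem_ball.2 ?_, fun hxc => ?_⟩
  · linarith [dist_triangle x (island c r s p) c]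
  · rw [mem_closedBall] at hxc
    linarith [dist_triangle (island c r s p) x c, dist_comm x (island c r s p)]

theorem norm_fderiv2 (F : Pl → R3) (x : Pl) :
    ‖fderiv ℝ (fderiv ℝ F) x‖ = ‖iteratedFDeriv ℝ 2 F x‖ := by
  rw [← norm_iteratedFDeriv_one, norm_iteratedFDeriv_fderiv]

theorem exists_islands {c : Pl} {r : ℝ} (hr : 0 < r) {σ : Pl → ℝ} (hσ : Continuous σ)
    (hσ0 : ∀ x, 0 ≤ σ x) (hσc : 0 < σ c) (hσs : tsupport σ ⊆ ball c r) (M : ℝ) :
    ∃ (c₀ : ℝ) (S : Finset Pl) (s₀ : ℝ), 0 < c₀ ∧ 0 < s₀ ∧ (↑S : Set Pl) ⊆ sphere c r ∧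
      ∀ s, 0 < s → s < s₀ →
        (∀ p ∈ S, closedBall (island c r s p) (4 * s) ⊆ ball c (2 * r) \ closedBall c r) ∧
        (∀ p ∈ S, ∀ p' ∈ S, p ≠ p' →
          Disjoint (closedBall (island c r s p) (4 * s)) (closedBall (island c r s p') (4 * s))) ∧
        ∀ (P Q W : Pl → ℝ) (F : Pl → R3) (k : ℕ), 3 ≤ k →
          (∀ x ∈ closedBall c r, P x = 0 ∧ Q x = 0 ∧ W x = 0) →
          ContDiffOn ℝ k F (ball c (2 * r)) → DerivBound k M (ball c (2 * r)) F →
          IsIsometric (spotted σ P Q W) (ball c (2 * r)) F →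
          ∃ p ∈ S, c₀ ≤ ‖iteratedFDeriv ℝ 2 F (island c r s p)‖ := by
  set C := spotC ⟨fun x => 1 - σ x, 0, fun x => 1 - σ x⟩ c r with hC
  have hC0 : 0 < C := spotC_pos hr (continuous_const.sub hσ)
    (fun t _ => by simp [hσ0]) (by simp [hσc])
  set δ : ℝ := C / (4 * (|M| + 1)) with hδ
  have hδ0 : 0 < δ := by positivity
  obtain ⟨T, hTS, hTf, hT⟩ := finite_cover_balls_of_compact (isCompact_sphere c r) hδ0
  classical
  -- a gap between distinct grid points
  obtain ⟨g, hg0, hg⟩ : ∃ g : ℝ, 0 < g ∧ ∀ p ∈ T, ∀ p' ∈ T, p ≠ p' → g ≤ dist p p' := by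
    set A := ((hTf.toFinset ×ˢ hTf.toFinset).filter fun z => z.1 ≠ z.2).image
      fun z => dist z.1 z.2 with hA
    rcases A.eq_empty_or_nonempty with h | h
    · refine ⟨1, one_pos, fun p hp p' hp' hne => absurd h (Finset.ne_empty_of_mem (a := dist p p') ?_)⟩
      exact Finset.mem_image.2 ⟨(p, p'), by simp [hp, hp', hne], rfl⟩
    · refine ⟨A.min' h, ?_, fun p hp p' hp' hne => A.min'_le _ <|
        Finset.mem_image.2 ⟨(p, p'), by simp [hp, hp', hne], rfl⟩⟩
      obtain ⟨z, hz, hz'⟩ := Finset.mem_image.1 (A.min'_mem h)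
      rw [← hz']
      exact dist_pos.2 (Finset.mem_filter.1 hz).2
  refine ⟨C / 2, hTf.toFinset, min (r / 10) (min (g / 19) (δ / 5)), half_pos hC0,
    lt_min (by positivity) (lt_min (by positivity) (by positivity)), by simpa using hTS,
    fun s hs hss => ?_⟩
  obtain ⟨hs1, hs2, hs3⟩ : s < r / 10 ∧ s < g / 19 ∧ s < δ / 5 := by
    simpa [lt_min_iff] using hss
  have hd : ∀ p ∈ T, closedBall (island c r s p) (4 * s) ⊆ ball c (2 * r) \ closedBall c r :=
    fun p hp => disc_island hr hs (by linarith) (hTS hp)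
  refine ⟨fun p hp => hd p (by simpa using hp), fun p hp p' hp' hne => ?_,
    fun P Q W F k hk hz hF hM hiso => ?_⟩
  · simp only [Set.Finite.mem_toFinset] at hp hp'
    refine closedBall_disjoint_closedBall ?_
    have h1 := (dist_island hr hs.le (hTS hp)).1
    have h2 := (dist_island hr hs.le (hTS hp')).1
    linarith [hg p hp p' hp' hne, dist_triangle4 p (island c r s p) (island c r s p') p',
      dist_comm p (island c r s p)]
  set U := ball c (2 * r) with hU
  have hQ : closedBall c r ⊆ U := closedBall_subset_ball (by linarith)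
  have hflat : ∀ x ∈ sphere c r, (spotted σ P Q W).e x = 1 := fun x hx => by
    have h1 := hz x (sphere_subset_closedBall hx)
    have h2 : σ x = 0 := image_eq_zero_of_notMem_tsupport fun h => by
      have := mem_ball.1 (hσs h); rw [mem_sphere.1 hx] at this; exact lt_irrefl _ this
    simp [spotted, h1.1, h2]
  obtain ⟨x, hx, hxC⟩ := spot_forces_curvature isOpen_ball (hF.of_le (by exact_mod_cast (show 2 ≤ k by omega)))
    hiso hr hQ hflat
  have eC : spotC (spotted σ P Q W) c r = C := by
    rw [hC, spotC, spotC]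
    congr 2
    refine intervalIntegral.integral_congr fun t ht => ?_
    rw [uIcc_of_le (by linarith)] at ht
    have hmem : ((c.1 + t, c.2) : Pl) ∈ closedBall c r := by
      rw [mem_closedBall_iff_abs]
      exact ⟨by simpa [abs_le] using ht, by simpa using hr.le⟩
    simp [spotted, (hz _ hmem).1]
  rw [eC, norm_fderiv2] at hxC
  obtain ⟨p, hp, hxp⟩ : ∃ p ∈ T, x ∈ ball p δ := by simpa using hT hx
  refine ⟨p, by simpa using hp, ?_⟩
  have hin : island c r s p ∈ U := (hd p hp (mem_closedBall_self (by linarith))).1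
  have hxU : x ∈ U := hQ (sphere_subset_closedBall hx)
  have hdist : ‖x - island c r s p‖ ≤ 2 * δ := by
    rw [← dist_eq_norm]
    linarith [dist_triangle x p (island c r s p), dist_comm p (island c r s p),
      (dist_island hr hs.le (hTS hp)).1, mem_ball.1 hxp]
  have h3 : ∀ y ∈ U, DifferentiableAt ℝ (iteratedFDeriv ℝ 2 F) y := fun y hy => by
    have h : ContDiffAt ℝ 3 F y :=
      ((hF y hy).contDiffAt (isOpen_ball.mem_nhds hy)).of_le (by exact_mod_cast hk)
    exact (h.iteratedFDeriv_right (m := 1) (i := 2) (by norm_num)).differentiableAt (by norm_num)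
  have hlip := (convex_ball c (2 * r)).norm_image_sub_le_of_norm_fderiv_le (C := |M| + 1) h3
    (fun y hy => by
      rw [norm_fderiv_iteratedFDeriv]
      exact (hM 3 (by norm_num) hk y hy).trans (by linarith [le_abs_self M])) hin hxU
  have h4 : (|M| + 1) * (2 * δ) = C / 2 := by rw [hδ]; field_simp; ring
  have h5 := norm_sub_norm_le (iteratedFDeriv ℝ 2 F x) (iteratedFDeriv ℝ 2 F (island c r s p))
  linarith [mul_le_mul_of_nonneg_left hdist (by positivity : (0 : ℝ) ≤ |M| + 1)]

end Vale.Agent.P229
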