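import Vale.Agent.P229.Gauss
import Vale.Agent.P229.Islands
import Vale.Agent.P229.Bd

/-!
# P229, sections 2 and 3: an island where a scaled immersion has curvature

`spotIslands : SpotIslandsSpec k` for `k ≥ 3`. The spot gives `‖D²F‖ ≥ c₀` at some island centre
`q` (`exists_islands`); the scaled immersion `G x = s⁻¹ (F (q + s x) - F q)` then has normal second
derivatives of size `s c₀` at `0`, and since their determinant is `O (s³)` the trace is of size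
`s c₀` as well, so one of the two unit normals gives a Laplacian of at least `c₀ / 4`.
-/

open scoped ContDiff RealInnerProductSpace
open Metric Set Filter Topology

namespace Vale.Agent.P229

/-- The scaling round `q`. -/
noncomputable def zoomG (F : Pl → R3) (q : Pl) (s : ℝ) (x : Pl) : R3 :=
  s⁻¹ • (F (q + s • x) - F q)

theorem fderiv_comp_zoom {W : Type*} [NormedAddCommGroup W] [NormedSpace ℝ W] (g : Pl → W) (q : Pl)
    (s : ℝ) (x : Pl) :
    fderiv ℝ (fun y => g (q + s • y)) x = s • fderiv ℝ g (q + s • x) := by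
  rw [fderiv_comp_smul (f := fun w => g (q + w)), fderiv_comp_add_left]

theorem fderiv_zoomG {s : ℝ} (hs : s ≠ 0) (F : Pl → R3) (q : Pl) :
    fderiv ℝ (zoomG F q s) = fun x => fderiv ℝ F (q + s • x) := funext fun x => by
  change fderiv ℝ (s⁻¹ • fun y => F (q + s • y) - F q) x = _
  rw [fderiv_const_smul_field, Pi.smul_apply, fderiv_sub_const, fderiv_comp_zoom, smul_smul,
    inv_mul_cancel₀ hs, one_smul]

theorem norm_iteratedFDeriv_comp_zoom {W : Type*} [NormedAddCommGroup W] [NormedSpace ℝ W] {s : ℝ}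
    (hs : 0 ≤ s) (g : Pl → W) (q x : Pl) (j : ℕ) :
    ‖iteratedFDeriv ℝ j (fun y => g (q + s • y)) x‖
      = s ^ j * ‖iteratedFDeriv ℝ j g (q + s • x)‖ := by
  have key : iteratedFDeriv ℝ j (fun y => g (q + s • y))
      = fun y => s ^ j • iteratedFDeriv ℝ j g (q + s • y) := by
    induction j with
    | zero => ext; simp
    | succ i hi =>
      ext y v
      rw [iteratedFDeriv_succ_eq_comp_left, iteratedFDeriv_succ_eq_comp_left]
      simp only [hi, Function.comp_apply, continuousMultilinearCurryLeftEquiv_symm_apply,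
        smul_apply]
      have hh := congrFun (fderiv_const_smul_field (𝕜 := ℝ) (s ^ i)
        (f := fun z => iteratedFDeriv ℝ i g (q + s • z))) y
      change (fderiv ℝ (fun z => s ^ i • iteratedFDeriv ℝ i g (q + s • z)) y (v 0)) (Fin.tail v) = _
      rw [show (fun z => s ^ i • iteratedFDeriv ℝ i g (q + s • z)) =
        (s ^ i) • fun z => iteratedFDeriv ℝ i g (q + s • z) from rfl, hh, Pi.smul_apply,
        fderiv_comp_zoom, smul_smul, ← pow_succ]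
      simp
  rw [key, norm_smul, Real.norm_eq_abs, abs_of_nonneg (pow_nonneg hs j)]

theorem norm_iteratedFDeriv_zoomG {s : ℝ} (hs : 0 < s) (F : Pl → R3) (q x : Pl) {j : ℕ}
    (hj : 1 ≤ j) :
    ‖iteratedFDeriv ℝ j (zoomG F q s) x‖ = s ^ (j - 1) * ‖iteratedFDeriv ℝ j F (q + s • x)‖ := by
  obtain ⟨i, rfl⟩ : ∃ i, j = i + 1 := ⟨j - 1, by omega⟩
  rw [← norm_iteratedFDeriv_fderiv, fderiv_zoomG hs.ne', norm_iteratedFDeriv_comp_zoom hs.le,
    norm_iteratedFDeriv_fderiv, Nat.add_sub_cancel]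

variable {W : Type*} [NormedAddCommGroup W] [NormedSpace ℝ W]

theorem norm_dir_le (f : Pl → W) (x : Pl) {a : Pl} (ha : ‖a‖ ≤ 1) :
    ‖dir a f x‖ ≤ ‖iteratedFDeriv ℝ 1 f x‖ := by
  rw [norm_iteratedFDeriv_one]
  exact ((fderiv ℝ f x).le_opNorm a).trans (mul_le_of_le_one_right (norm_nonneg _) ha)

theorem dir_dir {f : Pl → W} {x : Pl} (hf : ContDiffAt ℝ 2 f x) (a b : Pl) :
    dir a (dir b f) x = fderiv ℝ (fderiv ℝ f) x a b := by
  have hd : DifferentiableAt ℝ (fderiv ℝ f) x :=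
    (hf.fderiv_right (m := 1) (by norm_num)).differentiableAt (by norm_num)
  show fderiv ℝ (fun y => fderiv ℝ f y b) x a = _
  rw [fderiv_clm_apply hd (differentiableAt_const b)]
  simp

theorem norm_dir_dir_le {f : Pl → W} {x : Pl} (hf : ContDiffAt ℝ 2 f x) {a b : Pl} (ha : ‖a‖ ≤ 1)
    (hb : ‖b‖ ≤ 1) : ‖dir a (dir b f) x‖ ≤ ‖iteratedFDeriv ℝ 2 f x‖ := by
  rw [dir_dir hf, ← norm_iteratedFDeriv_fderiv, norm_iteratedFDeriv_one]
  refine ((fderiv ℝ (fderiv ℝ f) x).le_opNorm₂ a b).trans ?_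
  calc _ ≤ ‖fderiv ℝ (fderiv ℝ f) x‖ * 1 * 1 := by gcongr
    _ = _ := by ring

theorem norm_u₁ : ‖u₁‖ = 1 := by simp [u₁, Prod.norm_def]
theorem norm_u₂ : ‖u₂‖ = 1 := by simp [u₂, Prod.norm_def]

/-- The second derivative is bounded by its four entries. -/
theorem norm_hess_le {f : Pl → W} {x : Pl} (hf : ContDiffAt ℝ 2 f x) :
    ‖iteratedFDeriv ℝ 2 f x‖ ≤
      ‖d1 (d1 f) x‖ + 2 * ‖d1 (d2 f) x‖ + ‖d2 (d2 f) x‖ := by
  rw [← norm_iteratedFDeriv_fderiv, norm_iteratedFDeriv_one]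
  set A := fderiv ℝ (fderiv ℝ f) x with hA
  set T := ‖d1 (d1 f) x‖ + 2 * ‖d1 (d2 f) x‖ + ‖d2 (d2 f) x‖ with hT
  refine ContinuousLinearMap.opNorm_le_bound₂ A (by positivity) fun v w => ?_
  have ev : ∀ z : Pl, z = z.1 • u₁ + z.2 • u₂ := fun z => by ext <;> simp [u₁, u₂]
  have e11 : A u₁ u₁ = d1 (d1 f) x := (dir_dir hf u₁ u₁).symm
  have e12 : A u₁ u₂ = d1 (d2 f) x := (dir_dir hf u₁ u₂).symm
  have e21 : A u₂ u₁ = d1 (d2 f) x := (dir_dir hf u₂ u₁).symm.trans (dir_symm hf u₂ u₁)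
  have e22 : A u₂ u₂ = d2 (d2 f) x := (dir_dir hf u₂ u₂).symm
  rw [ev v, ev w, ← ev v, ← ev w]
  nth_rw 1 [ev v, ev w]
  simp only [map_add, map_smul, add_apply, smul_apply, e11, e12, e21, e22, smul_smul, smul_add]
  have bd : ∀ (a b : ℝ) (z : W), |a| ≤ ‖v‖ → |b| ≤ ‖w‖ → ‖(b * a) • z‖ ≤ ‖z‖ * ‖v‖ * ‖w‖ :=
    fun a b z ha hb => by
      rw [norm_smul, Real.norm_eq_abs, abs_mul]
      calc |b| * |a| * ‖z‖ ≤ ‖w‖ * ‖v‖ * ‖z‖ := by gcongr
        _ = _ := by ring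
  have v1 : |v.1| ≤ ‖v‖ := le_max_left _ _
  have v2 : |v.2| ≤ ‖v‖ := le_max_right _ _
  have w1 : |w.1| ≤ ‖w‖ := le_max_left _ _
  have w2 : |w.2| ≤ ‖w‖ := le_max_right _ _
  refine (norm_add_le _ _).trans ((add_le_add (norm_add_le _ _) (norm_add_le _ _)).trans ?_)
  nlinarith [bd _ _ (d1 (d1 f) x) v1 w1, bd _ _ (d1 (d2 f) x) v1 w2, bd _ _ (d1 (d2 f) x) v2 w1,
    bd _ _ (d2 (d2 f) x) v2 w2]

/-- Second fundamental data of a nearly Euclidean metric are small. -/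
theorem small_metric {m : Met} {x : Pl} {B : ℝ} (hB : B ≤ 1 / 10) (he : |m.e x - 1| ≤ B)
    (hf : |m.f x| ≤ B) (hg : |m.g x - 1| ≤ B)
    (h1 : |d1 m.e x| ≤ B ∧ |d2 m.e x| ≤ B ∧ |d1 m.f x| ≤ B ∧ |d2 m.f x| ≤ B ∧
      |d1 m.g x| ≤ B ∧ |d2 m.g x| ≤ B)
    (h2 : |d2 (d2 m.e) x| ≤ B ∧ |d1 (d2 m.f) x| ≤ B ∧ |d1 (d1 m.g) x| ≤ B) :
    |m.rcur x| ≤ 800 * B ∧ |m.c111 x * m.a1 x + m.c211 x * m.a2 x| ≤ 100 * B ∧
      |m.c112 x * m.b1 x + m.c212 x * m.b2 x| ≤ 100 * B ∧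
      |m.c122 x * m.c1 x + m.c222 x * m.c2 x| ≤ 100 * B := by
  have hB0 : 0 ≤ B := (abs_nonneg _).trans hf
  obtain ⟨p1, p2, p3, p4, p5, p6⟩ := h1
  obtain ⟨q1, q2, q3⟩ := h2
  have be : |m.e x| ≤ 2 := by rw [abs_le] at he ⊢; constructor <;> linarith
  have bg : |m.g x| ≤ 2 := by rw [abs_le] at hg ⊢; constructor <;> linarith
  have bf : |m.f x| ≤ 2 := by linarith
  have hd : 1 / 2 ≤ m.det x := by
    rw [abs_le] at he hg hf
    rw [Met.det]; nlinarith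
  have mul2 : ∀ c u : ℝ, |c| ≤ 2 → |u| ≤ B → |c * u| ≤ 2 * B := fun c u hc hu => by
    rw [abs_mul]; gcongr
  have div1 : ∀ u v w : ℝ, |u| ≤ 4 * B → |v| ≤ 4 * B → |w| ≤ 4 * B →
      |(u + v + w) / (2 * m.det x)| ≤ 12 * B := fun u v w hu hv hw => by
    rw [abs_div, div_le_iff₀ (by positivity), abs_of_pos (show 0 < 2 * m.det x by linarith)]
    nlinarith [abs_add_three u v w]
  have two : ∀ c u : ℝ, |c| ≤ 2 → |u| ≤ B → |2 * c * u| ≤ 4 * B ∧ |c * u| ≤ 4 * B ∧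
      |(-(2 * c * u))| ≤ 4 * B ∧ |(-(c * u))| ≤ 4 * B := fun c u hc hu => by
    have h := mul2 c u hc hu
    have h' : |2 * c * u| ≤ 4 * B := by rw [mul_assoc, abs_mul, abs_two]; linarith
    exact ⟨h', by linarith, by rwa [abs_neg], by rw [abs_neg]; linarith⟩
  have k1 : |m.c111 x| ≤ 12 * B := by
    rw [Met.c111, sub_eq_add_neg]
    exact div1 _ _ _ (two _ _ bg p1).2.1 (two _ _ bf p3).2.2.1 (two _ _ bf p2).2.1
  have k2 : |m.c211 x| ≤ 12 * B := by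
    rw [Met.c211, sub_eq_add_neg, sub_eq_add_neg]
    exact div1 _ _ _ (two _ _ be p3).1 (two _ _ be p2).2.2.2 (two _ _ bf p1).2.2.2
  have k3 : |m.c112 x| ≤ 12 * B := by
    rw [Met.c112, sub_eq_add_neg, ← add_zero (_ + -(_))]
    exact div1 _ _ _ (two _ _ bg p2).2.1 (two _ _ bf p5).2.2.2 (by simpa using hB0)
  have k4 : |m.c212 x| ≤ 12 * B := by
    rw [Met.c212, sub_eq_add_neg, ← add_zero (_ + -(_))]
    exact div1 _ _ _ (two _ _ be p5).2.1 (two _ _ bf p2).2.2.2 (by simpa using hB0)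
  have k5 : |m.c122 x| ≤ 12 * B := by
    rw [Met.c122, sub_eq_add_neg, sub_eq_add_neg]
    exact div1 _ _ _ (two _ _ bg p4).1 (two _ _ bg p5).2.2.2 (two _ _ bf p6).2.2.2
  have k6 : |m.c222 x| ≤ 12 * B := by
    rw [Met.c222, sub_eq_add_neg]
    exact div1 _ _ _ (two _ _ be p6).2.1 (two _ _ bf p4).2.2.1 (two _ _ bf p5).2.1
  have sq' : ∀ u v : ℝ, |u| ≤ 12 * B → |v| ≤ 12 * B → |u * v| ≤ 15 * B := fun u v hu hv => by
    rw [abs_mul]
    calc |u| * |v| ≤ (12 * B) * (12 * B) := by gcongr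
      _ ≤ 15 * B := by nlinarith
  have half : ∀ u v : ℝ, |u| ≤ B → |v| ≤ B → |u / 2| ≤ 12 * B ∧ |u - v / 2| ≤ 12 * B :=
    fun u v hu hv => by
      rw [abs_le] at hu hv
      constructor <;> rw [abs_le] <;> constructor <;> linarith
  simp only [Met.a1, Met.a2, Met.b1, Met.b2, Met.c1, Met.c2, ← d1_eq, ← d2_eq]
  refine ⟨?_, ?_, ?_, ?_⟩
  · rw [Met.rcur]
    have e : ∀ c u : ℝ, |c| ≤ 2 → |u| ≤ 100 * B → |c * u| ≤ 200 * B := fun c u hc hu => by
      rw [abs_mul]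
      calc |c| * |u| ≤ 2 * (100 * B) := by gcongr
        _ = _ := by ring
    have r1 : |m.c112 x ^ 2 - m.c111 x * m.c122 x| ≤ 100 * B := by
      rw [sq]; linarith [abs_sub (m.c112 x * m.c112 x) (m.c111 x * m.c122 x),
        sq' _ _ k3 k3, sq' _ _ k1 k5]
    have r3 : |m.c212 x ^ 2 - m.c211 x * m.c222 x| ≤ 100 * B := by
      rw [sq]; linarith [abs_sub (m.c212 x * m.c212 x) (m.c211 x * m.c222 x),
        sq' _ _ k4 k4, sq' _ _ k2 k6]
    have r2 : |2 * m.c112 x * m.c212 x - m.c111 x * m.c222 x - m.c211 x * m.c122 x| ≤ 100 * B := by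
      have := sq' _ _ k3 k4
      have h1 := sq' _ _ k1 k6
      have h2 := sq' _ _ k2 k5
      rw [abs_le] at *
      constructor <;> linarith
    have t1 := e _ _ be r1
    have t2 := e _ _ bf r2
    have t3 := e _ _ bg r3
    rw [abs_le] at q1 q2 q3 t1 t2 t3 ⊢
    constructor <;> linarith
  · refine (abs_add_le _ _).trans ?_
    linarith [sq' _ _ k1 (half _ _ p1 p1).1, sq' _ _ k2 (half _ _ p3 p2).2]
  · refine (abs_add_le _ _).trans ?_
    linarith [sq' _ _ k3 (half _ _ p2 p2).1, sq' _ _ k4 (half _ _ p5 p5).1]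
  · refine (abs_add_le _ _).trans ?_
    linarith [sq' _ _ k5 (half _ _ p4 p5).2, sq' _ _ k6 (half _ _ p6 p6).1]

theorem isIsometric_zoomG {s : ℝ} (hs : s ≠ 0) {m m' : Met} {U V : Set Pl} {F : Pl → R3} {q : Pl}
    (h : IsIsometric m U F) (hV : ∀ x ∈ V, q + s • x ∈ U)
    (hm : ∀ x ∈ V, m.e (q + s • x) = m'.e x ∧ m.f (q + s • x) = m'.f x ∧
      m.g (q + s • x) = m'.g x) :
    IsIsometric m' V (zoomG F q s) := fun x hx => by
  rw [fderiv_zoomG hs, ← (hm x hx).1, ← (hm x hx).2.1, ← (hm x hx).2.2]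
  exact h _ (hV x hx)

theorem contDiff_isl_psi : ContDiff ℝ ∞ psi := by
  have h : ContDiff ℝ ∞ nsq := (contDiff_fst.pow 2).add (contDiff_snd.pow 2)
  exact ((h.div_const 4).sub ((h.pow 2).div_const 16)).mul
    (Real.smoothTransition.contDiff.comp ((contDiff_const.sub h).div_const 3))

theorem psi_eq_zero {x : Pl} (hx : 8 ≤ nsq x) : psi x = 0 := by
  rw [psi, Real.smoothTransition.zero_of_nonpos (by linarith), mul_zero]

theorem hasCompactSupport_isl_psi : HasCompactSupport psi := by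
  refine HasCompactSupport.intro (isCompact_closedBall (0 : Pl) 3) fun x hx => psi_eq_zero ?_
  simp only [mem_closedBall, dist_zero_right, Prod.norm_def, Real.norm_eq_abs, max_le_iff,
    not_and_or, not_le] at hx
  rw [nsq]
  rcases hx with h | h <;> nlinarith [sq_abs x.1, sq_abs x.2, sq_nonneg x.1, sq_nonneg x.2]

/-- Values and derivatives up to order two of a coefficient `c + s² φ`. -/
theorem affine_bound {φ : Pl → ℝ} (hφ : ContDiff ℝ ∞ φ) {B : ℝ} (hb : BdOn univ 2 B φ) (c : ℝ)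
    {s : ℝ} (x : Pl) :
    |c + s ^ 2 * φ x - c| ≤ s ^ 2 * B ∧
    (∀ a, ‖a‖ ≤ 1 → |dir a (fun y => c + s ^ 2 * φ y) x| ≤ s ^ 2 * B) ∧
    ∀ a b, ‖a‖ ≤ 1 → ‖b‖ ≤ 1 → |dir a (dir b fun y => c + s ^ 2 * φ y) x| ≤ s ^ 2 * B := by
  have h1 : ∀ b y, dir b (fun y => c + s ^ 2 * φ y) y = s ^ 2 * dir b φ y := fun b y => by
    simp [dir, fderiv_const_mul (hφ.differentiable (by simp) y)]
  have h2 : ContDiffAt ℝ 2 φ x := hφ.contDiffAt.of_le ENat.LEInfty.out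
  refine ⟨?_, fun a ha => ?_, fun a b ha hb' => ?_⟩
  · rw [add_sub_cancel_left, abs_mul, abs_sq]
    gcongr
    simpa [norm_iteratedFDeriv_zero] using hb 0 (by norm_num) x (Set.mem_univ x)
  · rw [h1, abs_mul, abs_sq, ← Real.norm_eq_abs]
    gcongr
    exact (norm_dir_le φ x ha).trans (hb 1 (by norm_num) x (Set.mem_univ x))
  · have e : dir a (dir b fun y => c + s ^ 2 * φ y) x = s ^ 2 * dir a (dir b φ) x := by
      rw [show (dir b fun y => c + s ^ 2 * φ y) = fun y => s ^ 2 * dir b φ y from funext (h1 b)]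
      show fderiv ℝ (fun y => s ^ 2 * dir b φ y) x a = _
      rw [fderiv_const_mul
        ((contDiffAt_dir (n := 1) (N := 2) le_rfl h2 b).differentiableAt (by norm_num))]
      rfl
    rw [e, abs_mul, abs_sq, ← Real.norm_eq_abs]
    gcongr
    exact (norm_dir_dir_le h2 ha hb').trans (hb 2 le_rfl x (Set.mem_univ x))

/-- Derivatives of a height. -/
theorem dir_zOf {U : Set Pl} (hU : IsOpen U) {G : Pl → R3} (hG : ContDiffOn ℝ 2 G U) {x : Pl}
    (hx : x ∈ U) (s : ℝ) (e : R3) (a b : Pl) :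
    dir a (zOf s G e) x = ⟪dir a G x, e⟫ / s ∧
      dir a (dir b (zOf s G e)) x = ⟪dir a (dir b G) x, e⟫ / s := by
  have key : ∀ (H : Pl → R3) (y : Pl), DifferentiableAt ℝ H y → ∀ a,
      dir a (fun p => ⟪H p, e⟫ / s) y = ⟪dir a H y, e⟫ / s := fun H y hH a => by
    show fderiv ℝ (fun p => ⟪H p, e⟫ / s) y a = _
    simp only [div_eq_mul_inv]
    rw [fderiv_mul_const (hH.inner ℝ (differentiableAt_const e))]
    simp only [smul_apply, smul_eq_mul]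
    rw [fderiv_inner_apply ℝ hH (differentiableAt_const e)]
    simp [dir]; ring
  have hat : ∀ y ∈ U, ContDiffAt ℝ 2 G y := fun y hy => (hG y hy).contDiffAt (hU.mem_nhds hy)
  refine ⟨key G x ((hat x hx).differentiableAt (by norm_num)) a, ?_⟩
  refine (dir_congr (g := fun p => ⟪dir b G p, e⟫ / s) (eventually_of_mem (hU.mem_nhds hx)
    fun y hy => key G y ((hat y hy).differentiableAt (by norm_num)) b) a).trans ?_
  exact key _ x ((contDiffAt_dir (n := 1) le_rfl (hat x hx) b).differentiableAt (by norm_num)) a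

/-- A large second derivative and a small curvature give a large trace. -/
theorem exists_normal {m : Met} {U : Set Pl} {G : Pl → R3} (hU : IsOpen U)
    (hG : ContDiffOn ℝ 3 G U) (hiso : IsIsometric m U G) (hdet : ∀ x ∈ U, 0 < m.det x)
    {x : Pl} (hx : x ∈ U) {s T B : ℝ} (hs : 0 < s) (hT : 0 ≤ T)
    (hbig : T ≤ ‖iteratedFDeriv ℝ 2 G x‖)
    (hr : |m.rcur x| ≤ 800 * B)
    (h1 : |m.c111 x * m.a1 x + m.c211 x * m.a2 x| ≤ 100 * B)
    (h2 : |m.c112 x * m.b1 x + m.c212 x * m.b2 x| ≤ 100 * B)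
    (h3 : |m.c122 x * m.c1 x + m.c222 x * m.c2 x| ≤ 100 * B)
    (hB : 16 * 2000 * B ≤ 3 * T ^ 2) :
    ∃ e : R3, ‖e‖ = 1 ∧ ⟪d1 G x, e⟫ = 0 ∧ ⟪d2 G x, e⟫ = 0 ∧
      T / (4 * s) ≤ d1 (d1 (zOf s G e)) x + d2 (d2 (zOf s G e)) x := by
  obtain ⟨n, a, b, c, -, hn⟩ := gaussSpec m U G hU hG hiso hdet
  obtain ⟨n1, n2, n3, nabc, nh⟩ := hn x hx
  have hG2 : ContDiffOn ℝ 2 G U := hG.of_le (by norm_num)
  have hz : ∀ (t : ℝ) (e : R3) (u v : Pl), dir u (zOf t G e) x = ⟪dir u G x, e⟫ / t ∧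
      dir u (dir v (zOf t G e)) x = ⟪dir u (dir v G) x, e⟫ / t :=
    fun t e u v => dir_zOf hU hG2 hx t e u v
  obtain ⟨ha1, ha2, hb1, hb2, hc1, hc2⟩ := christoffel hU hG hiso hx
  have hnn : ⟪n x, n x⟫ = (1 : ℝ) := by rw [real_inner_self_eq_norm_sq, n1, one_pow]
  obtain ⟨eA, eB, eC, -⟩ := nh 1 (n x) one_ne_zero
  obtain ⟨fA, -, -, -⟩ := nh 1 (d1 (d1 G) x) one_ne_zero
  obtain ⟨-, fB, -, -⟩ := nh 1 (d1 (d2 G) x) one_ne_zero
  obtain ⟨-, -, fC, -⟩ := nh 1 (d2 (d2 G) x) one_ne_zero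
  rw [d1_eq] at n2; rw [d2_eq] at n3
  simp only [Met.h11, Met.h12, Met.h22, d1_eq, d2_eq, (hz _ _ u₁ u₁).1, (hz _ _ u₂ u₂).1,
    (hz _ _ u₁ u₁).2, (hz _ _ u₁ u₂).2, (hz _ _ u₂ u₂).2, div_one, n2, n3, hnn, mul_zero, sub_zero,
    mul_one] at eA eB eC fA fB fC
  rw [real_inner_comm (dir u₁ (dir u₁ G) x) (dir u₁ G x), ha1,
    real_inner_comm (dir u₁ (dir u₁ G) x) (dir u₂ G x), ha2, real_inner_self_eq_norm_sq,
    real_inner_comm (dir u₁ (dir u₁ G) x) (n x), eA] at fA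
  rw [real_inner_comm (dir u₁ (dir u₂ G) x) (dir u₁ G x), hb1,
    real_inner_comm (dir u₁ (dir u₂ G) x) (dir u₂ G x), hb2, real_inner_self_eq_norm_sq,
    real_inner_comm (dir u₁ (dir u₂ G) x) (n x), eB] at fB
  rw [real_inner_comm (dir u₂ (dir u₂ G) x) (dir u₁ G x), hc1,
    real_inner_comm (dir u₂ (dir u₂ G) x) (dir u₂ G x), hc2, real_inner_self_eq_norm_sq,
    real_inner_comm (dir u₂ (dir u₂ G) x) (n x), eC] at fC
  have hH : T ≤ ‖dir u₁ (dir u₁ G) x‖ + 2 * ‖dir u₁ (dir u₂ G) x‖ + ‖dir u₂ (dir u₂ G) x‖ := by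
    have := norm_hess_le ((hG2 x hx).contDiffAt (hU.mem_nhds hx))
    simp only [d1_eq, d2_eq] at this
    linarith
  rw [abs_le] at hr h1 h2 h3
  have hsum : (T / 4) ^ 2 ≤ (a x + c x) ^ 2 := by
    have h4 := pow_le_pow_left₀ hT hH 2
    nlinarith [sq_nonneg (‖dir u₁ (dir u₁ G) x‖ - ‖dir u₁ (dir u₂ G) x‖),
      sq_nonneg (‖dir u₁ (dir u₁ G) x‖ - ‖dir u₂ (dir u₂ G) x‖),
      sq_nonneg (‖dir u₁ (dir u₂ G) x‖ - ‖dir u₂ (dir u₂ G) x‖)]
  have habs : T / 4 ≤ |a x + c x| := by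
    rw [← abs_of_nonneg (show 0 ≤ T / 4 by positivity), ← sq_le_sq]; exact hsum
  have hfin : ∀ ε : ℝ, |ε| = 1 → T / 4 ≤ ε * (a x + c x) → ∃ e : R3, ‖e‖ = 1 ∧
      ⟪d1 G x, e⟫ = 0 ∧ ⟪d2 G x, e⟫ = 0 ∧
      T / (4 * s) ≤ d1 (d1 (zOf s G e)) x + d2 (d2 (zOf s G e)) x := fun ε hε h => by
    refine ⟨ε • n x, by rw [norm_smul, Real.norm_eq_abs, hε, n1, mul_one], ?_, ?_, ?_⟩
    · rw [d1_eq, inner_smul_right, n2, mul_zero]
    · rw [d2_eq, inner_smul_right, n3, mul_zero]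
    · simp only [d1_eq, d2_eq, (hz _ _ u₁ u₁).2, (hz _ _ u₂ u₂).2, inner_smul_right, eA, eC]
      rw [← add_div, ← mul_add, ← div_div]
      gcongr
  rcases abs_choice (a x + c x) with h | h <;> rw [h] at habs
  · exact hfin 1 abs_one (by linarith)
  · exact hfin (-1) (by simp) (by linarith)

theorem spotIslands {k : ℕ} (hk : 3 ≤ k) : SpotIslandsSpec k := by
  intro c r σ M hr hσ hσ0 _ hσc hσs
  obtain ⟨c₀, S, s₁, hc₀, hs₁, -, hS⟩ := exists_islands hr hσ.continuous hσ0 hσc hσs M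
  obtain ⟨Cψ, hCψ, hψ⟩ := exists_deriv_bound contDiff_isl_psi hasCompactSupport_isl_psi 2
  set C := 2 * Cψ + 1 with hC
  refine ⟨S.card, |M|, c₀ / 4,
    min (s₁ / 2) (min 1 (min (1 / (10 * C)) (3 * c₀ ^ 2 / (16 * 2000 * C)))), by positivity,
    by positivity, (min_le_right _ _).trans (min_le_left _ _), fun s hs hss => ?_⟩
  obtain ⟨hs2, hs3, hs4, hs5⟩ : s ≤ s₁ / 2 ∧ s ≤ 1 ∧ s ≤ 1 / (10 * C) ∧
      s ≤ 3 * c₀ ^ 2 / (16 * 2000 * C) := by simpa [le_min_iff] using hss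
  obtain ⟨hin, hdisj, hforce⟩ := hS s hs (by linarith)
  set φ := S.equivFin.symm with hφ
  set q : Fin S.card → Pl := fun i => island c r s (φ i) with hq
  have hmem : ∀ i, ∀ x ∈ disc 4, q i + s • x ∈ closedBall (q i) (4 * s) := fun i x hx => by
    rw [mem_closedBall, dist_self_add_left, norm_smul, Real.norm_eq_abs, abs_of_pos hs]
    nlinarith [norm_lt_of_mem_disc (by norm_num) hx]
  have hd : ∀ i, ∀ x ∈ disc 4, q i + s • x ∈ ball c (2 * r) \ closedBall c r := fun i x hx =>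
    hin _ (φ i).2 (hmem i x hx)
  have hne : ∀ i j, i ≠ j → ∀ x ∈ disc 4, ∀ y ∈ disc 4, q i + s • x ≠ q j + s • y :=
    fun i j hij x hx y hy h => Set.disjoint_left.1
      (hdisj _ (φ i).2 _ (φ j).2 fun e => hij (φ.injective (Subtype.ext e)))
      (hmem i x hx) (h ▸ hmem j y hy)
  refine ⟨q, hd, hne, fun β hβ hβs π hπ hπb F hF hM hiso => ?_⟩
  have hψ0 : ∀ ξ, ξ ∉ disc 4 → psi ξ = 0 := fun ξ hξ => psi_eq_zero (by
    simp only [disc, Set.mem_ofPred_eq, not_lt] at hξ; linarith)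
  have hπ0 : ∀ i ξ, ξ ∉ disc 4 → π i ξ = 0 := fun i ξ hξ => image_eq_zero_of_notMem_tsupport
    fun h => hξ (by
      have := (hπ i).2 h
      simp only [disc, Set.mem_ofPred_eq] at this ⊢
      linarith)
  have hback : ∀ i (x : Pl), q i + s • (s⁻¹ • (x - q i)) = x := fun i x => by
    rw [smul_smul, mul_inv_cancel₀ hs.ne', one_smul, add_sub_cancel]
  have hz : ∀ f : Pl → ℝ, (∀ ξ, ξ ∉ disc 4 → f ξ = 0) → ∀ x ∈ closedBall c r, glue q s f x = 0 :=
    fun f hf x hx => by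
      rw [glue, Finset.sum_eq_zero, mul_zero]
      exact fun i _ => hf _ fun h => (hd i _ h).2 (by rwa [hback])
  have hat : ∀ f : Pl → ℝ, (∀ ξ, ξ ∉ disc 4 → f ξ = 0) → ∀ i, ∀ ξ ∈ disc 4,
      glue q s f (q i + s • ξ) = s ^ 2 * f ξ := fun f hf i ξ hξ => by
    have e : s⁻¹ • (q i + s • ξ - q i) = ξ := by
      rw [add_sub_cancel_left, smul_smul, inv_mul_cancel₀ hs.ne', one_smul]
    rw [glue, Finset.sum_eq_single i, e]
    · exact fun j _ hji => hf _ fun h => hne j i hji _ h ξ hξ (hback j _)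
    · simp
  have f0 : ∀ ξ, ξ ∉ disc 4 → 2 * β * psi ξ + π 0 ξ = 0 := fun ξ h => by
    rw [hψ0 ξ h, hπ0 0 ξ h]; ring
  have f2 : ∀ ξ, ξ ∉ disc 4 → 2 * β * psi ξ + π 2 ξ = 0 := fun ξ h => by
    rw [hψ0 ξ h, hπ0 2 ξ h]; ring
  obtain ⟨p, hp, hpc⟩ := hforce _ _ _ F k hk
    (fun x hx => ⟨hz _ f0 x hx, hz _ (hπ0 1) x hx, hz _ f2 x hx⟩) hF hM hiso
  set i := φ.symm ⟨p, hp⟩ with hi
  have hqi : q i = island c r s p := by simp [hq, hi]
  rw [← hqi] at hpc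
  set G := zoomG F (q i) s with hG
  have hGd : ContDiffOn ℝ k G (disc 4) := by
    refine ((hF.comp (contDiffOn_const.add (contDiffOn_id.const_smul s))
      fun x hx => (hd i x hx).1).sub contDiffOn_const).const_smul s⁻¹
  have hσz : ∀ x ∈ disc 4, σ (q i + s • x) = 0 := fun x hx =>
    image_eq_zero_of_notMem_tsupport fun h => (hd i x hx).2 (ball_subset_closedBall (hσs h))
  have hGi : IsIsometric (islandMet s β π) (disc 4) G := by
    refine isIsometric_zoomG hs.ne' hiso (fun x hx => (hd i x hx).1) fun x hx => ?_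
    simp only [spotted, glueP, glueQ, glueW, islandMet, hσz x hx, hat _ f0 i x hx,
      hat _ (hπ0 1) i x hx, hat _ f2 i x hx, sub_zero, and_self]
  -- the metric is nearly Euclidean
  set B := s ^ 2 * (β * C) with hB
  have hbd : ∀ j : Fin 3, BdOn univ 2 (β * C) (fun x => 2 * β * psi x + π j x) ∧
      BdOn univ 2 (β * C) (π j) := fun j => by
    refine ⟨fun l hl x hx => ?_, fun l hl x hx => (hπb j l hl x hx).trans ?_⟩
    · have e : (fun x => 2 * β * psi x + π j x) = (2 * β) • psi + π j := rfl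
      have hl' : (l : WithTop ℕ∞) ≤ ∞ := mod_cast (le_top : (l : ℕ∞) ≤ ⊤)
      have k1 : ContDiffAt ℝ l ((2 * β) • psi) x :=
        ((contDiff_isl_psi.of_le hl').const_smul (2 * β)).contDiffAt
      rw [e, iteratedFDeriv_add_apply k1 ((hπ j).1.of_le hl').contDiffAt,
        iteratedFDeriv_const_smul_apply (contDiff_isl_psi.of_le hl').contDiffAt]
      refine (norm_add_le _ _).trans ?_
      rw [norm_smul, Real.norm_eq_abs, abs_of_pos (by positivity)]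
      nlinarith [hψ l hl x, hπb j l hl x hx]
    · nlinarith
  have cd : ∀ j : Fin 3, ContDiff ℝ ∞ fun x => 2 * β * psi x + π j x := fun j =>
    (contDiff_const.mul contDiff_isl_psi).add (hπ j).1
  have bnd := fun x => And.intro (affine_bound (s := s) (cd 0) (hbd 0).1 1 x)
    (And.intro (affine_bound (s := s) (hπ 1).1 (hbd 1).2 0 x)
      (affine_bound (s := s) (cd 2) (hbd 2).1 1 x))
  simp only [zero_add, sub_zero] at bnd
  have hBs : B ≤ C * s * s ^ 2 := by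
    rw [hB]; nlinarith [mul_le_mul_of_nonneg_right hβs (by positivity : (0:ℝ) ≤ C * s ^ 2)]
  have hCs : C * s ≤ 1 / 10 := by
    rw [le_div_iff₀ (by positivity)] at hs4; linarith
  have hB1 : B ≤ 1 / 10 := by nlinarith [pow_le_one₀ hs.le hs3 (n := 2)]
  have hdet : ∀ x ∈ disc 4, 0 < (islandMet s β π).det x := fun x _ => by
    obtain ⟨⟨he, -⟩, ⟨hf, -⟩, ⟨hg, -⟩⟩ := bnd x
    rw [abs_le] at he hf hg
    simp only [Met.det, islandMet]
    nlinarith
  obtain ⟨⟨he, he1, he2⟩, ⟨hf, hf1, hf2⟩, ⟨hg, hg1, hg2⟩⟩ := bnd 0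
  obtain ⟨hr', m1, m2, m3⟩ := small_metric (m := islandMet s β π) (x := 0) hB1 he hf hg
    ⟨he1 _ norm_u₁.le, he1 _ norm_u₂.le, hf1 _ norm_u₁.le, hf1 _ norm_u₂.le, hg1 _ norm_u₁.le,
      hg1 _ norm_u₂.le⟩
    ⟨he2 _ _ norm_u₂.le norm_u₂.le, hf2 _ _ norm_u₁.le norm_u₂.le, hg2 _ _ norm_u₁.le norm_u₁.le⟩
  have h0 : (0 : Pl) ∈ disc 4 := by norm_num [disc, nsq]
  obtain ⟨e, hne1, hne2, hne3, hlap⟩ := exists_normal (T := s * c₀) (isOpen_disc 4)
    (hGd.of_le (by exact_mod_cast hk)) hGi hdet h0 hs (by positivity)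
    (by
      rw [norm_iteratedFDeriv_zoomG hs F (q i) 0 one_le_two, smul_zero, add_zero,
        show 2 - 1 = 1 from rfl, pow_one]
      exact mul_le_mul_of_nonneg_left hpc hs.le)
    hr' m1 m2 m3 (by
      rw [le_div_iff₀ (by positivity)] at hs5
      nlinarith [mul_le_mul_of_nonneg_left hs5 (sq_nonneg s)])
  refine ⟨G, e, hGd, hGi, by simp [hG, zoomG], fun j hj hjk x hx => ?_, hne1, hne2, hne3, ?_⟩
  · rw [norm_iteratedFDeriv_zoomG hs F (q i) x (by omega), mul_comm]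
    exact mul_le_mul_of_nonneg_right ((hM j (by omega) hjk _ (hd i x hx).1).trans (le_abs_self M))
      (by positivity)
  · rwa [show s * c₀ / (4 * s) = c₀ / 4 by field_simp] at hlap

end Vale.Agent.P229
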