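import Vale.Agent.P229.Spec
import Vale.Agent.P229.IslandBasic

/-!
# P229: the Taylor code of bounded `C^k` functions

All derivatives of order `< k` are rounded at the points of a grid of mesh `h`; functions with
equal codes then differ by `O(h ^ (k - j))` in the derivative of order `j`.
-/

open scoped ContDiff
open Metric Set

namespace Vale.Agent.P229

/-- The two basis vectors of the plane. -/
def bvec : Fin 2 → Pl := ![(1, 0), (0, 1)]

/-- A multilinear map on the plane is controlled by its values on the basis vectors. -/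
theorem opNorm_le_tuples {j : ℕ} (T : Pl [×j]→L[ℝ] ℝ) {b : ℝ} (hb : 0 ≤ b)
    (h : ∀ r : Fin j → Fin 2, ‖T (bvec ∘ r)‖ ≤ b) : ‖T‖ ≤ 2 ^ j * b := by
  refine T.opNorm_le_bound (by positivity) fun v => ?_
  set c : Fin j → Fin 2 → ℝ := fun i => ![(v i).1, (v i).2]
  have hv : v = fun i => ∑ l, c i l • bvec l := by
    funext i; simp [c, bvec, Fin.sum_univ_two]
  have hc : ∀ i l, ‖c i l‖ ≤ ‖v i‖ := fun i l => by
    fin_cases l
    · exact norm_fst_le (v i)
    · exact norm_snd_le (v i)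
  conv_lhs => rw [hv, T.map_sum]
  simp only [T.map_smul_univ, smul_eq_mul]
  calc ‖∑ r : Fin j → Fin 2, (∏ i, c i (r i)) * T (fun i => bvec (r i))‖
      ≤ ∑ r : Fin j → Fin 2, (∏ i, ‖v i‖) * b := by
        refine (norm_sum_le _ _).trans (Finset.sum_le_sum fun r _ => ?_)
        rw [norm_mul, norm_prod]
        exact mul_le_mul (Finset.prod_le_prod (fun i _ => norm_nonneg _) fun i _ => hc i (r i))
          (h r) (norm_nonneg _) (Finset.prod_nonneg fun i _ => norm_nonneg _)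
    _ = 2 ^ j * b * ∏ i, ‖v i‖ := by
        simp [Finset.card_univ]; ring

/-- Descent of the derivative bounds from order `k`, given small values at nearby points. -/
theorem deriv_descent {k : ℕ} {f : Pl → ℝ} {c h : ℝ} {U : Set Pl} {p : Pl}
    (hf : ContDiffOn ℝ k f U) (hU : IsOpen U) (hc : Convex ℝ U) (hpU : p ∈ U)
    (h0 : 0 ≤ c) (hh : 0 ≤ h)
    (htop : ∀ x ∈ U, ‖iteratedFDeriv ℝ k f x‖ ≤ 2 * c)
    (hgrid : ∀ j < k, ‖iteratedFDeriv ℝ j f p‖ ≤ c * h ^ (k - j)) :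
    ∀ d j, j + d = k → ∀ y ∈ U ∩ closedBall p h,
      ‖iteratedFDeriv ℝ j f y‖ ≤ ((d : ℝ) + 2) * c * h ^ d := by
  intro d
  induction d with
  | zero =>
    intro j hj y hy
    simp at hj; subst hj
    simpa using htop y hy.1
  | succ d ih =>
    intro j hj y hy
    have hjk : j < k := by omega
    have hdiff : ∀ x ∈ U ∩ closedBall p h, DifferentiableAt ℝ (iteratedFDeriv ℝ j f) x :=
      fun x hx => (hf.contDiffAt (hU.mem_nhds hx.1)).differentiableAt_iteratedFDeriv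
        (by exact_mod_cast hjk)
    have hbd : ∀ x ∈ U ∩ closedBall p h,
        ‖fderiv ℝ (iteratedFDeriv ℝ j f) x‖ ≤ ((d : ℝ) + 2) * c * h ^ d := fun x hx => by
      rw [norm_fderiv_iteratedFDeriv]; exact ih (j + 1) (by omega) x hx
    have hp' : p ∈ U ∩ closedBall p h := ⟨hpU, mem_closedBall_self hh⟩
    have hmv := (hc.inter (convex_closedBall p h)).norm_image_sub_le_of_norm_fderiv_le
      hdiff hbd hp' hy
    have hyp : ‖y - p‖ ≤ h := by rw [← dist_eq_norm]; exact hy.2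
    have hkj : k - j = d + 1 := by omega
    have hg := hgrid j hjk
    rw [hkj] at hg
    calc ‖iteratedFDeriv ℝ j f y‖
        ≤ ‖iteratedFDeriv ℝ j f p‖ + ‖iteratedFDeriv ℝ j f y - iteratedFDeriv ℝ j f p‖ := by
          simpa using norm_add_le (iteratedFDeriv ℝ j f p)
            (iteratedFDeriv ℝ j f y - iteratedFDeriv ℝ j f p)
      _ ≤ c * h ^ (d + 1) + ((d : ℝ) + 2) * c * h ^ d * h :=
          add_le_add hg (hmv.trans (mul_le_mul_of_nonneg_left hyp (by positivity)))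
      _ = (((d + 1 : ℕ) : ℝ) + 2) * c * h ^ (d + 1) := by push_cast; ring

/-- Rounding to one of `2 M + 1` values. -/
noncomputable def roundTo (δ : ℝ) (M : ℕ) (a : ℝ) : Fin (2 * M + 1) :=
  if h : (⌊a / δ⌋ + M).toNat < 2 * M + 1 then ⟨_, h⟩ else 0

theorem abs_sub_le_of_roundTo {δ : ℝ} {M : ℕ} {a a' : ℝ} (hδ : 0 < δ)
    (ha : |a| ≤ δ * M) (ha' : |a'| ≤ δ * M) (h : roundTo δ M a = roundTo δ M a') :
    |a - a'| ≤ δ := by
  have key : ∀ b : ℝ, |b| ≤ δ * M →
      0 ≤ ⌊b / δ⌋ + (M : ℤ) ∧ ⌊b / δ⌋ ≤ (M : ℤ) := fun b hb => by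
    obtain ⟨h1, h2⟩ := abs_le.1 hb
    have l : -(M : ℤ) ≤ ⌊b / δ⌋ := Int.le_floor.2 (by
      push_cast; rw [le_div_iff₀ hδ]; linarith)
    have u : (⌊b / δ⌋ : ℝ) ≤ M := (Int.floor_le _).trans (by rw [div_le_iff₀ hδ]; linarith)
    exact ⟨by linarith, by exact_mod_cast u⟩
  obtain ⟨a1, a2⟩ := key a ha
  obtain ⟨b1, b2⟩ := key a' ha'
  have e1 : (⌊a / δ⌋ + M).toNat < 2 * M + 1 := by omega
  have e2 : (⌊a' / δ⌋ + M).toNat < 2 * M + 1 := by omega
  simp only [roundTo, dif_pos e1, dif_pos e2, Fin.mk.injEq] at h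
  have he : ⌊a / δ⌋ = ⌊a' / δ⌋ := by omega
  have := Int.abs_sub_lt_one_of_floor_eq_floor he
  rw [← sub_div, abs_div, abs_of_pos hδ, div_lt_one hδ] at this
  exact this.le

/-- The grid point of index `i`. -/
def gridPt (h : ℝ) (n : ℕ) (i : Fin (2 * n + 1) × Fin (2 * n + 1)) : Pl :=
  (((i.1 : ℝ) - n) * h, ((i.2 : ℝ) - n) * h)

theorem exists_gridCoord {h : ℝ} {n : ℕ} (hh : 0 < h) (hn : 2 ≤ n * h) {a : ℝ} (ha : |a| ≤ 2) :
    ∃ i : Fin (2 * n + 1), |a - ((i : ℝ) - n) * h| ≤ h := by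
  obtain ⟨h1, h2⟩ := abs_le.1 ha
  have l : -(n : ℤ) ≤ ⌊a / h⌋ := Int.le_floor.2 (by
    push_cast; rw [le_div_iff₀ hh]; linarith)
  have u : (⌊a / h⌋ : ℝ) ≤ n := (Int.floor_le _).trans (by rw [div_le_iff₀ hh]; linarith)
  have u' : ⌊a / h⌋ ≤ (n : ℤ) := by exact_mod_cast u
  refine ⟨⟨(⌊a / h⌋ + n).toNat, by omega⟩, ?_⟩
  have hcast : (((⌊a / h⌋ + n).toNat : ℕ) : ℝ) = (⌊a / h⌋ : ℝ) + n := by
    have : (((⌊a / h⌋ + n).toNat : ℕ) : ℤ) = ⌊a / h⌋ + n := Int.toNat_of_nonneg (by omega)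
    exact_mod_cast this
  simp only [hcast, add_sub_cancel_right]
  have f1 := (le_div_iff₀ hh).1 (Int.floor_le (a / h))
  have f2 := (div_lt_iff₀ hh).1 (Int.lt_floor_add_one (a / h))
  rw [abs_le]
  constructor <;> nlinarith

/-- Near every point of the small disc there is a grid point in the large disc. -/
theorem exists_gridPt {h : ℝ} {n : ℕ} (hh : 0 < h) (hh4 : h ≤ 1 / 4) (hn : 2 ≤ n * h)
    {x : Pl} (hx : x ∈ disc 2) :
    ∃ i, gridPt h n i ∈ disc 3 ∧ x ∈ disc 3 ∧ x ∈ closedBall (gridPt h n i) h := by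
  simp only [disc, mem_ofPred_eq, nsq] at hx
  have h1 : |x.1| ≤ 2 := abs_le.2 ⟨by nlinarith, by nlinarith⟩
  have h2 : |x.2| ≤ 2 := abs_le.2 ⟨by nlinarith, by nlinarith⟩
  obtain ⟨i, hi⟩ := exists_gridCoord hh hn h1
  obtain ⟨j, hj⟩ := exists_gridCoord hh hn h2
  refine ⟨(i, j), ?_, ?_, ?_⟩
  · simp only [disc, mem_ofPred_eq, nsq, gridPt]
    obtain ⟨a1, a2⟩ := abs_le.1 hi
    obtain ⟨b1, b2⟩ := abs_le.1 hj
    obtain ⟨c1, c2⟩ := abs_le.1 h1
    obtain ⟨d1', d2'⟩ := abs_le.1 h2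
    nlinarith
  · simp only [disc, mem_ofPred_eq, nsq]; linarith
  · rw [mem_closedBall, Prod.dist_eq, gridPt, Real.dist_eq, Real.dist_eq]
    exact max_le hi hj

/-- The entries of the code: a grid point, an order and a tuple of basis vectors. -/
abbrev Entry (k n : ℕ) : Type :=
  (Fin (2 * n + 1) × Fin (2 * n + 1)) × (Σ j : Fin k, Fin (j : ℕ) → Fin 2)

theorem card_entry_le (k n : ℕ) :
    Fintype.card (Entry k n) ≤ (2 * n + 1) ^ 2 * 2 ^ k := by
  simp only [Fintype.card_prod, Fintype.card_sigma, Fintype.card_fun, Fintype.card_fin]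
  rw [← sq]
  refine Nat.mul_le_mul_left _ ?_
  rw [Fin.sum_univ_eq_sum_range (fun j => 2 ^ j) k, Nat.geomSum_eq le_rfl]
  simp

/-- The code with mesh `h`, and what it guarantees. -/
theorem exists_code {k : ℕ} (hk : 8 ≤ k) {c h : ℝ} (hc : 0 < c) (hh : 0 < h) (hh4 : h ≤ 1 / 4) :
    ∃ (K : ℕ) (code : (Pl → ℝ) → ℕ), (∀ z, code z < K) ∧
      Real.log K ≤ 25 * 2 ^ k / h ^ 2 * Real.log (5 * 2 ^ k / h ^ k) ∧
      ∀ z z' : Pl → ℝ, ContDiffOn ℝ k z (disc 3) → ContDiffOn ℝ k z' (disc 3) →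
        BdOn (disc 3) k c z → BdOn (disc 3) k c z' → code z = code z' →
        BdOn (disc 2) 8 (((k : ℝ) + 2) * c * h ^ (k - 8)) (fun x => z x - z' x) := by
  classical
  set n : ℕ := ⌈2 / h⌉₊ with hn
  set M : ℕ := ⌈2 ^ k / h ^ k⌉₊ with hM
  set δ : ℝ := c * h ^ k / 2 ^ k with hδdef
  have hδ : 0 < δ := by positivity
  have hn2 : 2 ≤ (n : ℝ) * h := by
    rw [← div_le_iff₀ hh]; exact Nat.le_ceil _
  have hMc : c ≤ δ * M := by
    have h2 : 2 ^ k / h ^ k ≤ (M : ℝ) := Nat.le_ceil _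
    calc c = δ * (2 ^ k / h ^ k) := by rw [hδdef]; field_simp
      _ ≤ δ * M := mul_le_mul_of_nonneg_left h2 hδ.le
  let q : (Pl → ℝ) → Entry k n → Fin (2 * M + 1) := fun z e =>
    roundTo δ M (iteratedFDeriv ℝ (e.2.1 : ℕ) z (gridPt h n e.1) (bvec ∘ e.2.2))
  refine ⟨Fintype.card (Entry k n → Fin (2 * M + 1)),
    fun z => (Fintype.equivFin _ (q z) : ℕ), fun z => Fin.isLt _, ?_, ?_⟩
  · rw [Fintype.card_fun, Fintype.card_fin]
    push_cast
    rw [Real.log_pow]
    refine mul_le_mul ?_ ?_ (Real.log_nonneg (by linarith [(by positivity : (0:ℝ) ≤ M)]))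
      (by positivity)
    · have h1 : (Fintype.card (Entry k n) : ℝ) ≤ (2 * (n : ℝ) + 1) ^ 2 * 2 ^ k := by
        exact_mod_cast card_entry_le k n
      refine h1.trans ?_
      have h2 : (n : ℝ) < 2 / h + 1 := Nat.ceil_lt_add_one (by positivity)
      have h3 : 2 * (n : ℝ) + 1 ≤ 5 / h := by
        rw [le_div_iff₀ hh]
        have : (n : ℝ) * h < 2 + h := by
          have := mul_lt_mul_of_pos_right h2 hh
          rwa [add_mul, div_mul_cancel₀ _ hh.ne', one_mul] at this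
        nlinarith
      calc (2 * (n : ℝ) + 1) ^ 2 * 2 ^ k ≤ (5 / h) ^ 2 * 2 ^ k := by gcongr
        _ = 25 * 2 ^ k / h ^ 2 := by rw [div_pow]; ring
    · refine Real.log_le_log (by positivity) ?_
      have h2 : (M : ℝ) < 2 ^ k / h ^ k + 1 := Nat.ceil_lt_add_one (by positivity)
      have h3 : 1 ≤ (2 : ℝ) ^ k / h ^ k := by
        rw [le_div_iff₀ (by positivity), one_mul]
        exact (pow_le_pow_left₀ hh.le (by linarith : h ≤ 2) k)
      rw [mul_div_assoc]
      linarith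
  · intro z z' hz hz' hb hb' hcode
    have hq : q z = q z' := (Fintype.equivFin _).injective (Fin.ext hcode)
    have hsub : ∀ j ≤ k, ∀ x ∈ disc 3, iteratedFDeriv ℝ j (fun x => z x - z' x) x =
        iteratedFDeriv ℝ j z x - iteratedFDeriv ℝ j z' x := fun j hj x hx =>
      iteratedFDeriv_sub_apply
        ((hz.contDiffAt ((isOpen_disc 3).mem_nhds hx)).of_le (mod_cast hj))
        ((hz'.contDiffAt ((isOpen_disc 3).mem_nhds hx)).of_le (mod_cast hj))
    intro j hj x hx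
    obtain ⟨i, hp, hx3, hxp⟩ := exists_gridPt hh hh4 hn2 hx
    have hgrid : ∀ l < k, ‖iteratedFDeriv ℝ l (fun x => z x - z' x) (gridPt h n i)‖ ≤
        c * h ^ (k - l) := fun l hl => by
      rw [hsub l hl.le _ hp]
      refine (opNorm_le_tuples _ hδ.le fun r => ?_).trans ?_
      · have habs : ∀ w : Pl → ℝ, BdOn (disc 3) k c w →
            |iteratedFDeriv ℝ l w (gridPt h n i) (bvec ∘ r)| ≤ δ * M := fun w hw => by
          refine le_trans ?_ hMc
          rw [← Real.norm_eq_abs]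
          refine ((iteratedFDeriv ℝ l w (gridPt h n i)).le_opNorm _).trans ?_
          refine le_trans ?_ (hw l hl.le _ hp)
          refine mul_le_of_le_one_right (norm_nonneg _)
            (Finset.prod_le_one (fun _ _ => norm_nonneg _) fun t _ => ?_)
          simp only [Function.comp, bvec]
          generalize r t = b
          fin_cases b <;> simp [Prod.norm_def]
        rw [sub_apply, Real.norm_eq_abs]
        exact abs_sub_le_of_roundTo hδ (habs z hb) (habs z' hb')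
          (congrFun hq (i, ⟨⟨l, hl⟩, r⟩))
      · calc 2 ^ l * δ ≤ 2 ^ k * δ :=
              mul_le_mul_of_nonneg_right (pow_le_pow_right₀ one_le_two hl.le) hδ.le
          _ = c * h ^ k := by rw [hδdef]; field_simp
          _ ≤ c * h ^ (k - l) := mul_le_mul_of_nonneg_left
              (pow_le_pow_of_le_one hh.le (by linarith) (Nat.sub_le k l)) hc.le
    have htop : ∀ y ∈ disc 3, ‖iteratedFDeriv ℝ k (fun x => z x - z' x) y‖ ≤ 2 * c := fun y hy => by
      rw [hsub k le_rfl y hy]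
      exact (norm_sub_le _ _).trans (by linarith [hb k le_rfl y hy, hb' k le_rfl y hy])
    refine (deriv_descent (hz.sub hz') (isOpen_disc 3) (convex_disc 3) hp hc.le hh.le htop hgrid
      (k - j) j (by omega) x ⟨hx3, hxp⟩).trans ?_
    refine mul_le_mul (mul_le_mul_of_nonneg_right ?_ hc.le)
      (pow_le_pow_of_le_one hh.le (by linarith) (by omega)) (by positivity) (by positivity)
    have : ((k - j : ℕ) : ℝ) ≤ k := by exact_mod_cast Nat.sub_le k j
    linarith

/-- Bounded `C^k` functions are coded up to `γ` in `C⁸` by `exp (O (γ ^ (-2/(k-8)) log (1/γ)))`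
values. -/
theorem taylorCode {k : ℕ} (hk : 9 ≤ k) : TaylorCodeSpec k := by
  intro C
  set c : ℝ := max C 1 with hc
  have hc0 : 0 < c := lt_max_of_lt_right one_pos
  set m : ℕ := k - 8 with hm
  have hm0 : m ≠ 0 := by omega
  have hm1 : (1 : ℝ) ≤ m := by exact_mod_cast Nat.one_le_iff_ne_zero.2 hm0
  have hkm : (k : ℝ) - 8 = m := by
    rw [hm, Nat.cast_sub (by omega)]; norm_num
  set A : ℝ := ((k : ℝ) + 2) * c * 4 ^ m with hA
  have hA1 : 1 ≤ A := by
    have a1 : 1 ≤ c := le_max_right _ _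
    have a2 : (1 : ℝ) ≤ (k : ℝ) + 2 := by linarith [(by positivity : (0 : ℝ) ≤ k)]
    exact one_le_mul_of_one_le_of_one_le (one_le_mul_of_one_le_of_one_le a2 a1)
      (one_le_pow₀ (by norm_num))
  have hA0 : 0 < A := by linarith
  set L : ℝ := Real.log 5 + k * Real.log 2 + k * Real.log A with hL
  have hL0 : 0 ≤ L := by
    have := Real.log_nonneg (by norm_num : (1 : ℝ) ≤ 5)
    have := Real.log_nonneg (one_le_two : (1 : ℝ) ≤ 2)
    have := Real.log_nonneg hA1
    positivity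
  refine ⟨25 * 2 ^ k * A ^ ((2 : ℝ) / m) * (L / Real.log 2 + k), fun γ hγ hγ2 => ?_⟩
  set h : ℝ := (γ / A) ^ ((m : ℝ)⁻¹) with hh
  have hh0 : 0 < h := Real.rpow_pos_of_pos (div_pos hγ hA0) _
  have hhm : h ^ m = γ / A := Real.rpow_inv_natCast_pow (div_pos hγ hA0).le hm0
  have hh4 : h ≤ 1 / 4 := by
    rw [← pow_le_pow_iff_left₀ hh0.le (by norm_num) hm0, hhm, div_le_iff₀ hA0, hA]
    have e : ((1 : ℝ) / 4) ^ m * 4 ^ m = 1 := by rw [← mul_pow]; norm_num
    calc γ ≤ 1 * (((k : ℝ) + 2) * c) := by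
          nlinarith [le_max_right C 1, (by positivity : (0 : ℝ) ≤ k)]
      _ = (1 / 4 : ℝ) ^ m * 4 ^ m * (((k : ℝ) + 2) * c) := by rw [e]
      _ = _ := by ring
  obtain ⟨K, code, hK, hlog, hspec⟩ := exists_code (by omega : 8 ≤ k) hc0 hh0 hh4
  refine ⟨K, code, hK, hlog.trans ?_, fun z z' hz hz' hb hb' he j hj x hx => ?_⟩
  · have hG : Real.log 2 ≤ Real.log (1 / γ) := by
      refine Real.log_le_log two_pos ?_
      rw [le_div_iff₀ hγ]; linarith
    have hl2 : 0 < Real.log 2 := Real.log_pos one_lt_two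
    have hinv : 25 * 2 ^ k / h ^ 2 = 25 * 2 ^ k * A ^ ((2 : ℝ) / m) * γ ^ (-(2 : ℝ) / m) := by
      have e : h ^ 2 = γ ^ ((2 : ℝ) / m) / A ^ ((2 : ℝ) / m) := by
        rw [hh, ← Real.rpow_mul_natCast (div_pos hγ hA0).le,
          Real.div_rpow hγ.le hA0.le]
        push_cast
        rw [inv_mul_eq_div]
      rw [e, neg_div, Real.rpow_neg hγ.le]
      field_simp
    have hlh : Real.log (5 * 2 ^ k / h ^ k) ≤ (L / Real.log 2 + k) * Real.log (1 / γ) := by
      rw [Real.log_div (by positivity) (by positivity), Real.log_mul (by norm_num) (by positivity),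
        Real.log_pow, Real.log_pow, hh, Real.log_rpow (div_pos hγ hA0),
        Real.log_div hγ.ne' hA0.ne']
      have hg : Real.log γ = -Real.log (1 / γ) := by rw [one_div, Real.log_inv, neg_neg]
      rw [hg]
      have h1 : (m : ℝ)⁻¹ * (Real.log A + Real.log (1 / γ)) ≤ Real.log A + Real.log (1 / γ) :=
        mul_le_of_le_one_left (by linarith [Real.log_nonneg hA1]) (inv_le_one_of_one_le₀ hm1)
      have h2 : L ≤ L / Real.log 2 * Real.log (1 / γ) := by
        rw [div_mul_eq_mul_div, le_div_iff₀ hl2]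
        exact mul_le_mul_of_nonneg_left hG hL0
      have h3 := mul_le_mul_of_nonneg_left h1 (by positivity : (0 : ℝ) ≤ k)
      simp only [hL] at h2 ⊢
      linarith
    rw [hkm, hinv]
    have := mul_le_mul_of_nonneg_left hlh
      (by positivity : 0 ≤ 25 * 2 ^ k * A ^ ((2 : ℝ) / m) * γ ^ (-(2 : ℝ) / m))
    linarith
  · have hb1 : BdOn (disc 3) k c z := fun j hj x hx => (hb j hj x hx).trans (le_max_left _ _)
    have hb2 : BdOn (disc 3) k c z' := fun j hj x hx => (hb' j hj x hx).trans (le_max_left _ _)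
    refine (hspec z z' hz hz' hb1 hb2 he j hj x hx).trans ?_
    rw [← hm, hhm, hA]
    have h4 : (1 : ℝ) ≤ 4 ^ m := one_le_pow₀ (by norm_num)
    have hkc : 0 < ((k : ℝ) + 2) * c := by positivity
    rw [mul_comm (((k : ℝ) + 2) * c) (4 ^ m), ← mul_div_assoc, div_le_iff₀ (by positivity)]
    nlinarith [mul_pos hkc hγ]

end Vale.Agent.P229
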