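import Vale.Agent.P229.MainLemmaProof
import Vale.Agent.P229.Gauss
import Vale.Agent.P229.SpotIslands
import Vale.Agent.P229.Annulus.Island
import Vale.Agent.P229.TaylorCode
import Vale.Agent.P229.Basis
import Vale.Agent.P229.Pigeon
import Vale.Agent.P229.Core.AHat
import Vale.Agent.P229.Core.Assembly
import Vale.Agent.P229.Core.Chart
import Vale.Agent.P229.Core.ChartId
import Vale.Agent.P229.Core.Localize
import Vale.Agent.P229.Core.Pair
import Vale.Agent.P229.Core.Src
import Vale.Agent.P229.Core.Tgt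
import Vale.Agent.P229.Core.Trans
import Vale.Agent.P229.Core.Wave
import Vale.Agent.P229.Core.WaveSrc

/-!
# P229: assembly of the disproof

`noImmersion_of_parts` is the statement of the result in Mathlib notions only, from the
interface of the estimate.
-/

open scoped ContDiff RealInnerProductSpace

namespace Vale.Agent.P229

/-- A smooth metric with no local `C^k` isometric immersion at `0`. -/
theorem target_of_parts {k : ℕ} (hk : 100 ≤ k) (hE : EstSpec) :
    Target (k : ℕ∞) :=
  have hA : AHatSpec k := aHatSpec gaussSpec (by omega)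
  target_of_mainLemma <| mainLemma_of_specs hk (spotIslands (by omega))
    (annulusCode gaussSpec (by omega)) (taylorCode (by omega)) basisSpec pigeonSpec
    (coreSpec_of (by omega) hE (chartSpec (by omega)) hA (srcSpec (by omega)) waveSpec tgtSpec WaveSrc.waveSrcSpec
      (pairSpec gaussSpec (by omega)) (transSpec (chartId gaussSpec (by omega)) hA (by omega))
      localizeSpec extendSpec)

/-- The disproof, in Mathlib notions only. -/
theorem noImmersion_of_parts (hE : EstSpec) :
    ∃ E F G : ℝ × ℝ → ℝ,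
      ContDiff ℝ ∞ E ∧ ContDiff ℝ ∞ F ∧ ContDiff ℝ ∞ G ∧
      (∀ q, 0 < E q ∧ 0 < E q * G q - F q ^ 2) ∧
      ∀ U : Set (ℝ × ℝ), IsOpen U → (0 : ℝ × ℝ) ∈ U →
        ¬ ∃ X : ℝ × ℝ → EuclideanSpace ℝ (Fin 3), ContDiffOn ℝ (100 : ℕ) X U ∧ ∀ q ∈ U,
          ⟪fderiv ℝ X q (1, 0), fderiv ℝ X q (1, 0)⟫ = E q ∧
          ⟪fderiv ℝ X q (1, 0), fderiv ℝ X q (0, 1)⟫ = F q ∧
          ⟪fderiv ℝ X q (0, 1), fderiv ℝ X q (0, 1)⟫ = G q := by
  obtain ⟨E, F, G, hE', hF', hG', hp, hn⟩ :=
    (target_iff _).1 (target_of_parts (k := 100) le_rfl hE)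
  exact ⟨E, F, G, hE', hF', hG', hp, hn⟩

end Vale.Agent.P229
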