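import Vale.Agent.P229.Spec
import Vale.Agent.P229.IslandBasic

/-!
# P229: the main lemma from the interfaces of the modules

Parameters in this order: centres (from the scale `s`), `β`, then `N`; the perturbations are the
integer points of a box in the space of basis combinations, scaled by `t₁ = N ^ (-(4 A' + 50))`,
and the code of a point is the pair of the Taylor and annulus codes of the height of its solution.
-/

open scoped ContDiff RealInnerProductSpace
open Filter Topology Metric Set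

namespace Vale.Agent.P229

/-! ### Bounds on derivatives -/

private theorem BdOn.bw {F : Type*} [NormedAddCommGroup F] [NormedSpace ℝ F] {U : Set Pl}
    {k k' : ℕ} {C C' : ℝ} {f : Pl → F} (h : BdOn U k C f) (hk : k' ≤ k) (hC : C ≤ C') :
    BdOn U k' C' f :=
  fun j hj x hx => (h j (hj.trans hk) x hx).trans hC

private theorem bdOn_const_mul {U : Set Pl} {k : ℕ} {C : ℝ} {f : Pl → ℝ} (hf : ContDiff ℝ k f) (a : ℝ)
    (h : BdOn U k C f) : BdOn U k (|a| * C) fun x => a * f x := by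
  intro j hj x hx
  rw [show (fun x => a * f x) = fun x => a • f x from rfl,
    iteratedFDeriv_const_smul_apply' (hf.of_le (mod_cast hj)).contDiffAt, norm_smul,
    Real.norm_eq_abs]
  exact mul_le_mul_of_nonneg_left (h j hj x hx) (abs_nonneg a)

private theorem bdOn_sum {ι : Type*} {U : Set Pl} {k : ℕ} (s : Finset ι) {C : ι → ℝ} {f : ι → Pl → ℝ}
    (hf : ∀ l ∈ s, ContDiff ℝ k (f l)) (h : ∀ l ∈ s, BdOn U k (C l) (f l)) :
    BdOn U k (∑ l ∈ s, C l) fun x => ∑ l ∈ s, f l x := by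
  intro j hj x hx
  rw [iteratedFDeriv_fun_sum_apply fun l hl => ((hf l hl).of_le (mod_cast hj)).contDiffAt]
  exact (norm_sum_le _ _).trans (Finset.sum_le_sum fun l hl => h l hl j hj x hx)

private theorem bdOn_add {U : Set Pl} {k : ℕ} {C C' : ℝ} {f g : Pl → ℝ} (hf : ContDiff ℝ k f)
    (hg : ContDiff ℝ k g) (h : BdOn U k C f) (h' : BdOn U k C' g) :
    BdOn U k (C + C') fun x => f x + g x := by
  intro j hj x hx
  rw [show (fun x => f x + g x) = f + g from rfl,
    iteratedFDeriv_add (hf.of_le (mod_cast hj)) (hg.of_le (mod_cast hj))]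
  exact (norm_add_le _ _).trans (add_le_add (h j hj x hx) (h' j hj x hx))

/-! ### The island profile and glued functions -/

private theorem contDiff_nsq : ContDiff ℝ ∞ nsq := by unfold nsq; fun_prop

private theorem contDiff_psi : ContDiff ℝ ∞ psi := by
  unfold psi
  exact (((contDiff_nsq.div_const 4)).sub ((contDiff_nsq.pow 2).div_const 16)).mul
    (Real.smoothTransition.contDiff.comp ((contDiff_const.sub contDiff_nsq).div_const 3))

private theorem isClosed_nsq_le (R : ℝ) : IsClosed {x : Pl | nsq x ≤ R} :=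
  isClosed_le contDiff_nsq.continuous continuous_const

private theorem isCompact_nsq_le : IsCompact {x : Pl | nsq x ≤ 8} := by
  refine (isCompact_closedBall (0 : Pl) 4).of_isClosed_subset (isClosed_nsq_le 8) fun x hx => ?_
  rw [mem_closedBall, dist_zero_right]
  exact norm_le_of_mem_disc (by norm_num)
    (show nsq x < 4 ^ 2 by simp only [mem_ofPred_eq] at hx; linarith)

private theorem tsupport_psi : tsupport psi ⊆ {x | nsq x ≤ 8} := by
  refine closure_minimal (fun x hx => ?_) (isClosed_nsq_le 8)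
  by_contra h
  simp only [mem_ofPred_eq, not_le] at h
  apply hx
  rw [psi, Real.smoothTransition.zero_of_nonpos (by linarith), mul_zero]

private theorem contDiff_glue {I : ℕ} (q : Fin I → Pl) (s : ℝ) {f : Pl → ℝ} (hf : ContDiff ℝ ∞ f) :
    ContDiff ℝ ∞ (glue q s f) := by
  unfold glue
  exact contDiff_const.mul (ContDiff.sum fun i _ =>
    hf.comp ((contDiff_id.sub contDiff_const).const_smul _))

private theorem tsupport_glue {I : ℕ} {q : Fin I → Pl} {s : ℝ} (hs : s ≠ 0) {f : Pl → ℝ}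
    (hf : tsupport f ⊆ {x | nsq x ≤ 8}) {U : Set Pl}
    (hU : ∀ i, ∀ x ∈ disc 4, q i + s • x ∈ U) : tsupport (glue q s f) ⊆ U := by
  set K : Set Pl := ⋃ i, (fun x => q i + s • x) '' {x | nsq x ≤ 8} with hK
  have hKc : IsClosed K :=
    (isCompact_iUnion fun i => isCompact_nsq_le.image (by fun_prop)).isClosed
  refine (closure_minimal (fun x hx => ?_) hKc).trans (iUnion_subset fun i => ?_)
  · by_contra h
    apply hx
    simp only [glue]
    rw [Finset.sum_eq_zero fun i _ => ?_, mul_zero]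
    refine image_eq_zero_of_notMem_tsupport fun hm => h (mem_iUnion.2 ⟨i, _, hf hm, ?_⟩)
    simp [smul_inv_smul₀ hs]
  · rintro _ ⟨x, hx, rfl⟩
    exact hU i x (show nsq x < 4 ^ 2 by simp only [mem_ofPred_eq] at hx; linarith)

private theorem bdOn_glue {I : ℕ} (q : Fin I → Pl) {s : ℝ} (hs : 0 < s) (hs1 : s ≤ 1) {k : ℕ} {B : ℝ}
    (hB : 0 ≤ B) {f : Pl → ℝ} (hf : ContDiff ℝ ∞ f) (h : BdOn univ k B f) :
    BdOn univ k (s ^ 2 * ((I : ℝ) * ((s⁻¹) ^ k * B))) (glue q s f) := by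
  have hterm : ∀ i ∈ Finset.univ, BdOn univ k ((s⁻¹) ^ k * B)
      fun x : Pl => f (s⁻¹ • (x - q i)) := by
    intro i _ j hj x _
    set L : Pl →L[ℝ] Pl := s⁻¹ • ContinuousLinearMap.id ℝ Pl with hL
    have e : (fun x : Pl => f (s⁻¹ • (x - q i))) = fun x => (f ∘ L) (x - q i) := rfl
    rw [e, iteratedFDeriv_comp_sub, L.iteratedFDeriv_comp_right hf _ (mod_cast le_top)]
    refine (ContinuousMultilinearMap.norm_compContinuousLinearMap_le _ _).trans ?_
    rw [mul_comm ((s⁻¹) ^ k)]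
    refine mul_le_mul (h j hj _ (mem_univ _)) ?_ (Finset.prod_nonneg fun _ _ => norm_nonneg _) hB
    rw [Finset.prod_const, Finset.card_fin]
    calc ‖L‖ ^ j ≤ (s⁻¹) ^ j := by
          refine pow_le_pow_left₀ (norm_nonneg _) ?_ j
          rw [hL, norm_smul, Real.norm_eq_abs, abs_of_pos (inv_pos.2 hs)]
          exact mul_le_of_le_one_right (inv_nonneg.2 hs.le) ContinuousLinearMap.norm_id_le
      _ ≤ _ := pow_le_pow_right₀ ((one_le_inv₀ hs).2 hs1) hj
  have hsum := bdOn_sum Finset.univ (fun i _ => (hf.comp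
    ((contDiff_id.sub contDiff_const).const_smul _)).of_le (mod_cast le_top)) hterm
  have := bdOn_const_mul ((ContDiff.sum fun i _ => hf.comp
    ((contDiff_id.sub contDiff_const).const_smul _)).of_le (mod_cast le_top)) (s ^ 2) hsum
  rw [abs_of_nonneg (sq_nonneg s), Finset.sum_const, Finset.card_fin, nsmul_eq_mul] at this
  exact this

/-! ### Integer combinations of the basis -/

/-- The perturbation of a lattice point. -/
private noncomputable def pertOf {D : ℕ} (t1 : ℝ) (b : Fin D → Pl → ℝ) (c : Fin 3 × Fin D → ℤ) : Pert :=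
  fun i x => t1 * ∑ l, (c (i, l) : ℝ) * b l x

private theorem pertOK_pertOf {D : ℕ} (t1 : ℝ) {b : Fin D → Pl → ℝ}
    (hb : ∀ l, ContDiff ℝ ∞ (b l) ∧ tsupport (b l) ⊆ disc (28 / 25)) (c : Fin 3 × Fin D → ℤ) :
    PertOK (pertOf t1 b c) := by
  refine fun i => ⟨contDiff_const.mul (ContDiff.sum fun l _ => contDiff_const.mul (hb l).1), ?_⟩
  refine (closure_minimal (fun x hx => ?_)
    (isClosed_iUnion_of_finite fun l => isClosed_tsupport (b l))).trans
    (iUnion_subset fun l => (hb l).2)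
  by_contra h
  simp only [mem_iUnion, not_exists] at h
  apply hx
  simp [pertOf, fun l => image_eq_zero_of_notMem_tsupport (h l)]

private theorem bdOn_pertOf {D k : ℕ} {t1 Q B : ℝ} {b : Fin D → Pl → ℝ} (hb : ∀ l, ContDiff ℝ ∞ (b l))
    (hB : ∀ l, BdOn univ k B (b l)) (ht : 0 ≤ t1) (hB0 : 0 ≤ B) {c : Fin 3 × Fin D → ℤ}
    (hc : ∀ l, |(c l : ℝ)| ≤ Q) (i : Fin 3) :
    BdOn univ k (t1 * ((D : ℝ) * (Q * B))) (pertOf t1 b c i) := by
  have hsum := bdOn_sum Finset.univ (fun l _ => (contDiff_const.mul (hb l)).of_le (mod_cast le_top))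
    fun l _ => (bdOn_const_mul ((hb l).of_le (mod_cast le_top)) (c (i, l) : ℝ) (hB l)).bw le_rfl
      (mul_le_mul_of_nonneg_right (hc (i, l)) hB0)
  have := bdOn_const_mul ((ContDiff.sum fun l _ => contDiff_const.mul (hb l)).of_le
    (mod_cast le_top)) t1 hsum
  rw [abs_of_nonneg ht, Finset.sum_const, Finset.card_fin, nsmul_eq_mul] at this
  exact this

/-! ### Asymptotics -/

/-- The scale of the annulus code. -/
private noncomputable def levels (a : ℝ) (N : ℕ) : ℕ := ⌈1024 * a * Real.log N⌉₊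

private theorem two_rpow_levels_le {a : ℕ} {N : ℕ} (hN : 2 ≤ N) :
    (2 : ℝ) ^ (-(levels a N : ℝ) / 512) ≤ 1 / (N : ℝ) ^ a := by
  have hN0 : (0 : ℝ) < N := by positivity
  have hlog : 0 ≤ Real.log N := Real.log_nonneg (by exact_mod_cast (by omega : 1 ≤ N))
  have hL : 1024 * (a : ℝ) * Real.log N ≤ levels a N := Nat.le_ceil _
  have h2 := Real.log_two_gt_d9
  rw [Real.rpow_def_of_pos (by norm_num), one_div, ← Real.exp_log (pow_pos hN0 a), ← Real.exp_neg,
    Real.exp_le_exp, Real.log_pow]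
  nlinarith [mul_nonneg (Nat.cast_nonneg (α := ℝ) a) hlog]

private theorem eventually_count (a Ca C' : ℝ) (ha : 0 ≤ a) {k : ℕ} (hk : 100 ≤ k) :
    ∀ᶠ N : ℕ in atTop, Real.log 8 + |Ca| * (levels a N : ℝ) ^ 6 +
      |C'| * ((1 / (N : ℝ) ^ 32) ^ (-(2 : ℝ) / ((k : ℝ) - 8)) * Real.log ((N : ℝ) ^ 32)) <
      (N : ℝ) * Real.log 2 := by
  set R : ℝ := Real.log 8 + |Ca| * (1024 * a * 50 + 1) ^ 6 + |C'| * (32 * 50) with hR
  have hev := ((tendsto_rpow_atTop (by norm_num : (0 : ℝ) < 1 / 5)).comp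
    (tendsto_natCast_atTop_atTop (R := ℝ))).eventually_gt_atTop (R / Real.log 2)
  filter_upwards [hev, eventually_ge_atTop 1] with N hN hN1
  have h1 : (1 : ℝ) ≤ N := by exact_mod_cast hN1
  have h0 : (0 : ℝ) < N := by linarith
  have hlog0 := Real.log_nonneg h1
  have hlog : Real.log N ≤ 50 * (N : ℝ) ^ (1 / 50 : ℝ) := by
    have := Real.log_le_rpow_div h0.le (show (0 : ℝ) < 1 / 50 by norm_num)
    linarith [show (N : ℝ) ^ (1 / 50 : ℝ) / (1 / 50) = 50 * (N : ℝ) ^ (1 / 50 : ℝ) by ring]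
  have hp : (1 : ℝ) ≤ (N : ℝ) ^ (1 / 50 : ℝ) := Real.one_le_rpow h1 (by norm_num)
  have hL : (levels a N : ℝ) ≤ (1024 * a * 50 + 1) * (N : ℝ) ^ (1 / 50 : ℝ) := by
    refine (Nat.ceil_lt_add_one (by positivity)).le.trans ?_
    nlinarith [mul_le_mul_of_nonneg_left hlog (mul_nonneg (by norm_num : (0 : ℝ) ≤ 1024) ha)]
  have hX : (1 : ℝ) ≤ (N : ℝ) ^ (4 / 5 : ℝ) := Real.one_le_rpow h1 (by norm_num)
  have hL6 : (levels a N : ℝ) ^ 6 ≤ (1024 * a * 50 + 1) ^ 6 * (N : ℝ) ^ (4 / 5 : ℝ) := by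
    refine (pow_le_pow_left₀ (Nat.cast_nonneg _) hL 6).trans ?_
    rw [mul_pow, ← Real.rpow_natCast ((N : ℝ) ^ (1 / 50 : ℝ)), ← Real.rpow_mul h0.le]
    exact mul_le_mul_of_nonneg_left (Real.rpow_le_rpow_of_exponent_le h1 (by norm_num))
      (by positivity)
  have hg : (1 / (N : ℝ) ^ 32) ^ (-(2 : ℝ) / ((k : ℝ) - 8)) * Real.log ((N : ℝ) ^ 32) ≤
      32 * 50 * (N : ℝ) ^ (4 / 5 : ℝ) := by
    have e : (1 / (N : ℝ) ^ 32) ^ (-(2 : ℝ) / ((k : ℝ) - 8)) =
        (N : ℝ) ^ (64 / ((k : ℝ) - 8)) := by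
      rw [one_div, ← Real.rpow_natCast, ← Real.rpow_neg h0.le, ← Real.rpow_mul h0.le]
      congr 1
      push_cast
      ring
    have hk' : (100 : ℝ) ≤ k := by exact_mod_cast hk
    have hexp : 64 / ((k : ℝ) - 8) ≤ 3 / 4 := by
      rw [div_le_iff₀ (by linarith)]; linarith
    rw [e, Real.log_pow, Nat.cast_ofNat]
    calc (N : ℝ) ^ (64 / ((k : ℝ) - 8)) * (32 * Real.log N)
        ≤ (N : ℝ) ^ (3 / 4 : ℝ) * (32 * (50 * (N : ℝ) ^ (1 / 50 : ℝ))) :=
          mul_le_mul (Real.rpow_le_rpow_of_exponent_le h1 hexp) (by linarith) (by positivity)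
            (by positivity)
      _ = 32 * 50 * ((N : ℝ) ^ (3 / 4 + 1 / 50 : ℝ)) := by rw [Real.rpow_add h0]; ring
      _ ≤ _ := mul_le_mul_of_nonneg_left (Real.rpow_le_rpow_of_exponent_le h1 (by norm_num))
          (by norm_num)
  have hlog2 := Real.log_pos (show (1 : ℝ) < 2 by norm_num)
  have hlog8 := Real.log_nonneg (show (1 : ℝ) ≤ 8 by norm_num)
  simp only [Function.comp_apply] at hN
  rw [div_lt_iff₀ hlog2] at hN
  have hN' : R * (N : ℝ) ^ (4 / 5 : ℝ) < (N : ℝ) * Real.log 2 := by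
    have := mul_lt_mul_of_pos_right hN (Real.rpow_pos_of_pos h0 (4 / 5 : ℝ))
    rw [mul_right_comm, ← Real.rpow_add h0, show (1 / 5 + 4 / 5 : ℝ) = 1 by norm_num,
      Real.rpow_one] at this
    linarith
  have i1 := mul_le_mul_of_nonneg_left hL6 (abs_nonneg Ca)
  have i2 := mul_le_mul_of_nonneg_left hg (abs_nonneg C')
  have i3 := mul_le_mul_of_nonneg_left hX hlog8
  rw [hR] at hN'
  linarith

/-! ### The main lemma -/

theorem mainLemma_of_specs {k : ℕ} (hk : 100 ≤ k) (hS : SpotIslandsSpec k)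
    (hA : AnnulusCodeSpec k) (hT : TaylorCodeSpec k) (hB : BasisSpec) (hP : PigeonSpec)
    (hC : CoreSpec k) : MainLemma k := by
  classical
  intro c r σ M m δ hr hσ hσ0 hσ4 hσc hσs hδ
  obtain ⟨I, M', a0, s0, ha0, hs0, hs01, hS⟩ := hS c r σ M hr hσ hσ0 hσ4 hσc hσs
  obtain ⟨A, hC⟩ := hC
  obtain ⟨s1, hs1, hC⟩ := hC M' a0 ha0
  obtain ⟨s2, hs2, hA⟩ := hA M' a0 ha0
  set s : ℝ := min s0 (min s1 s2) with hsdef
  have hs : 0 < s := lt_min hs0 (lt_min hs1 hs2)
  have hsle : s ≤ 1 := (min_le_left _ _).trans hs01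
  obtain ⟨βc, hβc, hC⟩ := hC s hs ((min_le_right _ _).trans (min_le_left _ _))
  obtain ⟨βa, hβa, hA⟩ := hA s hs ((min_le_right _ _).trans (min_le_right _ _))
  obtain ⟨q, hq, -, hS⟩ := hS s hs (min_le_left _ _)
  obtain ⟨Cψ, hCψ, hψ⟩ := exists_deriv_bound contDiff_psi
    (isCompact_nsq_le.of_isClosed_subset (isClosed_tsupport _) tsupport_psi) m
  set Γ : ℝ := s ^ 2 * ((I : ℝ) * (s⁻¹) ^ m) + 1 with hΓ
  have hΓ0 : 0 < Γ := by positivity
  set β : ℝ := min (min s βa) (min βc (δ / (4 * Γ * Cψ))) with hβdef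
  have hβ : 0 < β := lt_min (lt_min hs hβa) (lt_min hβc (by positivity))
  have hβψ : Γ * (2 * β * Cψ) ≤ δ / 2 := by
    have h := (min_le_right _ _).trans (min_le_right βc (δ / (4 * Γ * Cψ))) |> (le_refl β).trans
    rw [le_div_iff₀ (by positivity)] at h
    linarith
  obtain ⟨Nc, hC⟩ := hC β hβ ((min_le_right _ _).trans (min_le_left _ _))
  obtain ⟨Ca, hA⟩ := hA β hβ ((min_le_left _ _).trans (min_le_right _ _))
  obtain ⟨C', hT⟩ := hT (9 * M')
  obtain ⟨A', Nb, hB⟩ := hB A 32 (max m 8)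
  set a : ℕ := 3 * A' + 82 with hadef
  -- the choice of `N`
  have hsmall : ∀ᶠ N : ℕ in atTop, 7 / (N : ℝ) ≤ min β (δ / (2 * Γ)) :=
    (tendsto_const_div_atTop_nhds_zero_nat 7).eventually
      (ge_mem_nhds (lt_min hβ (by positivity)))
  obtain ⟨N, hNc, hNb, hN2, hCaN, hNsmall, hcount⟩ := ((eventually_ge_atTop Nc).and
    ((eventually_ge_atTop Nb).and ((eventually_ge_atTop 7).and
    ((tendsto_natCast_atTop_atTop.eventually_ge_atTop Ca).and
    (hsmall.and (eventually_count (a : ℝ) Ca C' (Nat.cast_nonneg a) hk)))))).exists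
  replace hC := hC N hNc
  obtain ⟨D, b, hD, hb, happrox⟩ := hB N hNb
  have hN1 : (1 : ℝ) ≤ N := by exact_mod_cast (by omega : 1 ≤ N)
  have hN0 : (0 : ℝ) < N := by linarith
  set L : ℕ := levels (a : ℝ) N with hLdef
  have hL1 : 1 ≤ L := Nat.one_le_ceil_iff.2 (mul_pos (by positivity)
    (Real.log_pos (by exact_mod_cast (by omega : 1 < N))))
  obtain ⟨KA, codeA, hcA, hKA, hAeq⟩ := hA L hL1
  have hγ0 : (0 : ℝ) < 1 / (N : ℝ) ^ 32 := by positivity
  have hγ : 1 / (N : ℝ) ^ 32 ≤ 1 / 2 := by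
    gcongr
    exact le_trans (by exact_mod_cast (by omega : 2 ≤ N)) (le_self_pow₀ hN1 (by norm_num))
  obtain ⟨KT, codeT, hcT, hKT, hTeq⟩ := hT _ hγ0 hγ
  set Q : ℕ := 2 * N * N ^ A' * Fintype.card (Fin 3 × Fin D) + 1 with hQdef
  set t1 : ℝ := 1 / (N : ℝ) ^ (4 * A' + 50) with ht1
  have hQ : (Q : ℝ) ≤ 7 * (N : ℝ) ^ (2 * A' + 1) := by
    have hD' : (D : ℝ) ≤ (N : ℝ) ^ A' := by exact_mod_cast hD
    have hp : (1 : ℝ) ≤ (N : ℝ) ^ (2 * A' + 1) := one_le_pow₀ hN1
    have e : (Q : ℝ) = 6 * ((N : ℝ) * (N : ℝ) ^ A' * D) + 1 := by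
      rw [hQdef]
      simp only [Fintype.card_prod, Fintype.card_fin]
      push_cast
      ring
    have hmul : (N : ℝ) * (N : ℝ) ^ A' * D ≤ (N : ℝ) ^ (2 * A' + 1) := by
      calc (N : ℝ) * (N : ℝ) ^ A' * D ≤ (N : ℝ) * (N : ℝ) ^ A' * (N : ℝ) ^ A' := by gcongr
        _ = _ := by ring
    rw [e]; linarith
  have hsize : ∀ cc : Fin 3 × Fin D → ℤ, (∀ l, 0 ≤ cc l ∧ cc l < Q) → ∀ i,
      BdOn univ (max m 8) (7 / (N : ℝ) ^ 49) (pertOf t1 b cc i) := by
    intro cc hcc i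
    refine (bdOn_pertOf (Q := (Q : ℝ)) (fun l => (hb l).1) (fun l => (hb l).2.2) (by positivity)
      (by positivity) (fun l => ?_) i).bw le_rfl ?_
    · rw [abs_of_nonneg (by exact_mod_cast (hcc l).1)]
      exact_mod_cast (hcc l).2.le
    · have hD' : (D : ℝ) ≤ (N : ℝ) ^ A' := by exact_mod_cast hD
      calc t1 * ((D : ℝ) * ((Q : ℝ) * (N : ℝ) ^ A'))
          ≤ t1 * ((N : ℝ) ^ A' * (7 * (N : ℝ) ^ (2 * A' + 1) * (N : ℝ) ^ A')) := by gcongr
        _ = 7 / (N : ℝ) ^ 49 := by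
          rw [ht1]; field_simp; ring
  have hseven : 7 / (N : ℝ) ^ 49 ≤ 7 / (N : ℝ) := by
    gcongr
    exact le_self_pow₀ hN1 (by norm_num)
  have h40 : ∀ cc : Fin 3 × Fin D → ℤ, (∀ l, 0 ≤ cc l ∧ cc l < Q) → ∀ i,
      BdOn univ 8 (1 / (N : ℝ) ^ 40) (pertOf t1 b cc i) := fun cc hcc i => by
    refine (hsize cc hcc i).bw (le_max_right m 8) ?_
    rw [div_le_div_iff₀ (by positivity) (by positivity), one_mul, ← mul_comm ((N : ℝ) ^ 40),
      show (N : ℝ) ^ 49 = (N : ℝ) ^ 40 * (N : ℝ) ^ 9 by rw [← pow_add]]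
    refine mul_le_mul_of_nonneg_left ?_ (by positivity)
    exact le_trans (by exact_mod_cast hN2) (le_self_pow₀ hN1 (by norm_num))
  have hok : ∀ cc, PertOK (pertOf t1 b cc) :=
    pertOK_pertOf t1 fun l => ⟨(hb l).1, (hb l).2.1⟩
  -- it suffices to find a lattice point without immersion
  suffices hmain : ∃ cc : Fin 3 × Fin D → ℤ, (∀ l, 0 ≤ cc l ∧ cc l < Q) ∧
      ∀ F : Pl → R3, ContDiffOn ℝ k F (ball c (2 * r)) → DerivBound k M (ball c (2 * r)) F →
        ¬ IsIsometric (spotted σ (glueP q s β (pertOf t1 b cc)) (glueQ q s (pertOf t1 b cc))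
          (glueW q s β (pertOf t1 b cc))) (ball c (2 * r)) F by
    obtain ⟨cc, hcc, hF⟩ := hmain
    have hπ := fun i => ((hok cc i).1)
    have hπs : ∀ i, tsupport (pertOf t1 b cc i) ⊆ {x | nsq x ≤ 8} := fun i x hx => by
      have := (hok cc i).2 hx
      simp only [disc, mem_ofPred_eq] at this ⊢
      linarith
    have hdiag : ∀ i, ContDiff ℝ ∞ (fun x => 2 * β * psi x + pertOf t1 b cc i x) ∧
        tsupport (fun x => 2 * β * psi x + pertOf t1 b cc i x) ⊆ {x | nsq x ≤ 8} :=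
      fun i => ⟨(contDiff_const.mul contDiff_psi).add (hπ i),
        (tsupport_add _ _).trans (union_subset
          (tsupport_mul_subset_right.trans tsupport_psi) (hπs i))⟩
    have hUq : ∀ i, ∀ x ∈ disc 4, q i + s • x ∈ ball c (2 * r) := fun i x hx => (hq i x hx).1
    have hbd : ∀ i, BdOn univ m (7 / (N : ℝ)) (pertOf t1 b cc i) := fun i =>
      (hsize cc hcc i).bw (le_max_left m 8) hseven
    have hfin : ∀ B, 0 ≤ B → Γ * B ≤ δ → ∀ f : Pl → ℝ, ContDiff ℝ ∞ f → BdOn univ m B f →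
        ∀ j ≤ m, ∀ x, ‖iteratedFDeriv ℝ j (glue q s f) x‖ ≤ δ := by
      intro B hB0 hBδ f hf hfb j hj x
      refine (bdOn_glue q hs hsle hB0 hf hfb j hj x (mem_univ x)).trans (le_trans ?_ hBδ)
      rw [hΓ]
      nlinarith
    have hsm : Γ * (7 / (N : ℝ)) ≤ δ / 2 := by
      have := le_trans hNsmall (min_le_right _ _)
      rw [le_div_iff₀ (by positivity)] at this
      linarith
    have hψb : BdOn univ m (2 * β * Cψ) fun x => 2 * β * psi x := by
      have := bdOn_const_mul (U := univ) (contDiff_psi.of_le (mod_cast le_top)) (2 * β)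
        (fun j hj x _ => hψ j hj x : BdOn univ m Cψ psi)
      rwa [abs_of_nonneg (by positivity)] at this
    have hdb : ∀ i, BdOn univ m (2 * β * Cψ + 7 / (N : ℝ))
        fun x => 2 * β * psi x + pertOf t1 b cc i x := fun i =>
      bdOn_add ((contDiff_const.mul contDiff_psi).of_le (mod_cast le_top))
        ((hπ i).of_le (mod_cast le_top)) hψb (hbd i)
    refine ⟨glueP q s β (pertOf t1 b cc), glueQ q s (pertOf t1 b cc),
      glueW q s β (pertOf t1 b cc), contDiff_glue q s (hdiag 0).1, contDiff_glue q s (hπ 1),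
      contDiff_glue q s (hdiag 2).1, tsupport_glue hs.ne' (hdiag 0).2 hUq,
      tsupport_glue hs.ne' (hπs 1) hUq, tsupport_glue hs.ne' (hdiag 2).2 hUq,
      fun j hj x => ⟨?_, ?_, ?_⟩, hF⟩
    · exact hfin _ (by positivity) (by rw [mul_add]; linarith) _ (hdiag 0).1 (hdb 0) j hj x
    · exact hfin _ (by positivity) (by linarith) _ (hπ 1) (hbd 1) j hj x
    · exact hfin _ (by positivity) (by rw [mul_add]; linarith) _ (hdiag 2).1 (hdb 2) j hj x
  by_contra hcon
  push Not at hcon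
  have hsol : ∀ cc : Fin 3 × Fin D → ℤ, (∀ l, 0 ≤ cc l ∧ cc l < Q) →
      ∃ G e, IslandSol k s β M' a0 (pertOf t1 b cc) G e := fun cc hcc => by
    obtain ⟨F, hF1, hF2, hF3⟩ := hcon cc hcc
    exact hS β hβ ((min_le_left _ _).trans (min_le_left _ _)) _ (hok cc)
      (fun i => (hsize cc hcc i).bw (le_trans (by norm_num) (le_max_right m 8))
        (hseven.trans (le_trans hNsmall (min_le_left _ _)))) F hF1 hF2 hF3
  choose G e hGe using hsol
  let code : (Fin 3 × Fin D → ℤ) → ℕ := fun cc =>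
    if h : ∀ l, 0 ≤ cc l ∧ cc l < Q then
      codeT (zOf s (G cc h) (e cc h)) * KA + codeA (zOf s (G cc h) (e cc h)) else 0
  have hKA0 : 0 < KA := lt_of_le_of_lt (Nat.zero_le _) (hcA 0)
  have hKT0 : 0 < KT := lt_of_le_of_lt (Nat.zero_le _) (hcT 0)
  have hcode : ∀ cc, code cc < KT * KA := fun cc => by
    simp only [code]
    split
    · calc _ < codeT _ * KA + KA := Nat.add_lt_add_left (hcA _) _
        _ = (codeT _ + 1) * KA := (Nat.succ_mul _ _).symm
        _ ≤ _ := Nat.mul_le_mul_right _ (hcT _)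
    · exact Nat.mul_pos hKT0 hKA0
  have hsep : ∀ cc cc' h h', code cc = code cc' →
      codeT (zOf s (G cc h) (e cc h)) = codeT (zOf s (G cc' h') (e cc' h')) ∧
      codeA (zOf s (G cc h) (e cc h)) = codeA (zOf s (G cc' h') (e cc' h')) := fun cc cc' h h' he => by
    simp only [code, dif_pos h, dif_pos h'] at he
    have h1 := congrArg (· % KA) he
    have h2 := congrArg (· / KA) he
    simp only [Nat.mul_comm _ KA, Nat.mul_add_mod, Nat.mod_eq_of_lt (hcA _),
      Nat.mul_add_div hKA0, Nat.div_eq_of_lt (hcA _), add_zero] at h1 h2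
    exact ⟨h2, h1⟩
  have hz3 : ∀ cc h, ContDiffOn ℝ k (zOf s (G cc h) (e cc h)) (disc 3) ∧
      BdOn (disc 3) k (9 * M') (zOf s (G cc h) (e cc h)) := fun cc h =>
    ⟨(hGe cc h).contDiffOn_zOf.mono (disc_mono (by norm_num) (by norm_num)),
      (hGe cc h).bdOn_zOf hs hsle (by omega)⟩
  -- the steps of one class
  have key : ∀ c0 : Fin 3 × Fin D → ℤ, (∀ l, 0 ≤ c0 l ∧ c0 l < Q) →
      ∃ n : Fin N → Fin 3 × Fin D → ℤ, (∀ j l, |n j l| ≤ (N : ℤ) ^ A') ∧
        ∀ (δ : Fin N → ℤ), δ ≠ 0 → (∀ j, |δ j| ≤ 1) → ∀ cc cc' : Fin 3 × Fin D → ℤ,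
          (∀ l, 0 ≤ cc l ∧ cc l < Q) → (∀ l, 0 ≤ cc' l ∧ cc' l < Q) → code cc = code c0 →
          code cc' = code c0 → (∀ l, cc l - cc' l = ∑ j, δ j * n j l) → False := by
    intro c0 h0
    obtain ⟨T, hT1, hT2⟩ := hC _ _ _ (hok c0) (h40 c0 h0) (hGe c0 h0)
    have hex := fun j i => happrox (T j i) (hT1 j i).1 (hT1 j i).2.1 (hT1 j i).2.2
    choose n hn herr using hex
    refine ⟨fun j l => n j l.1 l.2, fun j l => hn j l.1 l.2,
      fun δ hδ0 hδ1 cc cc' h h' he he' hdiff => ?_⟩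
    set t : ℝ := t1 * (N : ℝ) ^ A' with ht
    have ht0 : 0 < t := by positivity
    have htv : t = 1 / (N : ℝ) ^ (3 * A' + 50) := by
      rw [ht, ht1]; field_simp; ring
    obtain ⟨hT', hA'⟩ := hsep cc cc' h h' (he.trans he'.symm)
    refine hT2 t δ ht0 ?_ hδ0 hδ1 _ _ _ _ _ _ (hok cc) (hok cc') (h40 cc h) (h40 cc' h')
      (hGe cc h) (hGe cc' h') (fun i => ?_) ?_ ?_ ?_
    · rw [htv]; exact div_le_one_of_le₀ (one_le_pow₀ hN1) (by positivity)
    · have e1 : (fun x => pertOf t1 b cc i x - pertOf t1 b cc' i x -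
          t * ∑ j, (δ j : ℝ) * T j i x) = fun x => (-t) * ∑ j, (δ j : ℝ) *
            (T j i x - (1 / (N : ℝ) ^ A') * ∑ l, (n j i l : ℝ) * b l x) := by
        funext x
        have e2 : (∑ l, (cc (i, l) : ℝ) * b l x) - ∑ l, (cc' (i, l) : ℝ) * b l x =
            ∑ j, (δ j : ℝ) * ∑ l, (n j i l : ℝ) * b l x := by
          simp only [Finset.mul_sum, ← Finset.sum_sub_distrib]
          rw [Finset.sum_comm]
          refine Finset.sum_congr rfl fun l _ => ?_
          have := congrArg (fun z : ℤ => (z : ℝ)) (hdiff (i, l))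
          push_cast at this
          rw [← sub_mul, this, Finset.sum_mul]
          exact Finset.sum_congr rfl fun j _ => mul_assoc _ _ _
        simp only [pertOf, ← mul_sub, e2]
        rw [Finset.mul_sum, Finset.mul_sum, Finset.mul_sum, ← Finset.sum_sub_distrib]
        refine Finset.sum_congr rfl fun j _ => ?_
        have hp : (N : ℝ) ^ A' ≠ 0 := by positivity
        rw [ht]
        field_simp
        ring
      rw [e1]
      have hf : ∀ j, ContDiff ℝ 4 fun x => T j i x -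
          (1 / (N : ℝ) ^ A') * ∑ l, (n j i l : ℝ) * b l x := fun j =>
        ((hT1 j i).1.of_le (by norm_num)).sub ((contDiff_const.mul
          (ContDiff.sum fun l _ => contDiff_const.mul (hb l).1)).of_le
            (WithTop.coe_le_coe.2 le_top : (((4 : ℕ∞)) : WithTop ℕ∞) ≤ ∞))
      have hsum := bdOn_sum Finset.univ (fun j _ => contDiff_const.mul (hf j)) fun j _ =>
        (bdOn_const_mul (hf j) (δ j : ℝ) ((herr j i).bw (by norm_num) le_rfl)).bw le_rfl
          (mul_le_of_le_one_left (by positivity) (by exact_mod_cast hδ1 j))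
      refine (bdOn_const_mul (ContDiff.sum fun j _ => contDiff_const.mul (hf j)) (-t) hsum).bw
        le_rfl (le_of_eq ?_)
      rw [abs_neg, abs_of_pos ht0, Finset.sum_const, Finset.card_fin, nsmul_eq_mul]
      field_simp
    · exact hTeq _ _ (hz3 cc h).1 (hz3 c0 h0).1 (hz3 cc h).2 (hz3 c0 h0).2 (hsep cc c0 h h0 he).1
    · exact hTeq _ _ (hz3 cc' h').1 (hz3 c0 h0).1 (hz3 cc' h').2 (hz3 c0 h0).2
        (hsep cc' c0 h' h0 he').1
    · refine (hAeq _ _ _ _ _ _ (hok cc) (hok cc') (hGe cc h) (hGe cc' h') hA').bw le_rfl ?_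
      have h2 := two_rpow_levels_le (a := a) (show 2 ≤ N by omega)
      rw [← hLdef] at h2
      calc Ca * (2 : ℝ) ^ (-(L : ℝ) / 512) ≤ (N : ℝ) * (1 / (N : ℝ) ^ a) :=
            mul_le_mul hCaN h2 (by positivity) hN0.le
        _ = t / (N : ℝ) ^ 31 := by
          rw [htv, hadef]; field_simp; ring
  choose n hn hkey using key
  let Dv : ℕ → Fin N → Fin 3 × Fin D → ℤ := fun κ =>
    if h : ∃ cc : Fin 3 × Fin D → ℤ, (∀ l, 0 ≤ cc l ∧ cc l < Q) ∧ code cc = κ then
      n h.choose h.choose_spec.1 else 0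
  have hK : 8 * (KT * KA) < 2 ^ N := by
    have hl := hcount
    have e : Real.log (((8 * (KT * KA) : ℕ)) : ℝ) =
        Real.log 8 + (Real.log KT + Real.log KA) := by
      push_cast
      rw [Real.log_mul (by norm_num) (by positivity), Real.log_mul (by positivity) (by positivity)]
    have hA6 : Real.log KA ≤ |Ca| * (L : ℝ) ^ 6 :=
      hKA.trans (mul_le_mul_of_nonneg_right (le_abs_self Ca) (by positivity))
    have hT6 : Real.log KT ≤ |C'| * ((1 / (N : ℝ) ^ 32) ^ (-(2 : ℝ) / ((k : ℝ) - 8)) *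
        Real.log ((N : ℝ) ^ 32)) := by
      refine hKT.trans ?_
      rw [one_div_one_div, mul_assoc]
      exact mul_le_mul_of_nonneg_right (le_abs_self C')
        (mul_nonneg (by positivity) (Real.log_nonneg (one_le_pow₀ hN1)))
    have hlt : Real.log (((8 * (KT * KA) : ℕ)) : ℝ) < Real.log (((2 ^ N : ℕ)) : ℝ) := by
      rw [e]
      push_cast
      rw [Real.log_pow]
      linarith
    exact_mod_cast (Real.log_lt_log_iff (by positivity) (by positivity)).1 hlt
  obtain ⟨cc, cc', h, h', hcc, δ', hδ0, hδ1, hdiff⟩ := hP (Fin 3 × Fin D) N (KT * KA) Q (N ^ A')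
    code Dv (Nat.succ_pos _) hcode hK (Nat.le_succ _) (fun κ _ j l => by
      simp only [Dv]
      split
      · exact_mod_cast hn _ _ j l
      · simp)
  have hex : ∃ c1 : Fin 3 × Fin D → ℤ, (∀ l, 0 ≤ c1 l ∧ c1 l < Q) ∧ code c1 = code cc :=
    ⟨cc, h, rfl⟩
  simp only [Dv, dif_pos hex] at hdiff
  exact hkey _ hex.choose_spec.1 δ' hδ0 hδ1 cc cc' h h' hex.choose_spec.2.symm
    (hcc.symm.trans hex.choose_spec.2.symm) hdiff

end Vale.Agent.P229
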