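import Vale.Agent.P229.Defs

/-!
# P229, section 2: a spot shorter than Euclid forces curvature on the boundary of its square

If the metric is Euclidean on the boundary of the square `closedBall c r` and the horizontal segment
through the centre has length less than `2 r`, then some second derivative of an isometric immersion
is at least `spotC` at some point of the boundary.
-/

open scoped ContDiff RealInnerProductSpace
open MeasureTheory Set Metric Filter Topology

namespace Vale.Agent.P229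

/-- The lower bound `(2 r - length) / (12 r²)`. -/
noncomputable def spotC (m : Met) (c : Pl) (r : ℝ) : ℝ :=
  (2 * r - ∫ t in (-r)..r, Real.sqrt (m.e (c.1 + t, c.2))) / (12 * r ^ 2)

theorem mem_closedBall_iff_abs {c x : Pl} {r : ℝ} :
    x ∈ closedBall c r ↔ |x.1 - c.1| ≤ r ∧ |x.2 - c.2| ≤ r := by
  simp [mem_closedBall, Prod.dist_eq, Real.dist_eq]

theorem mem_sphere_of_abs {c x : Pl} {r : ℝ} (h1 : |x.1 - c.1| ≤ r) (h2 : |x.2 - c.2| ≤ r)
    (h : |x.1 - c.1| = r ∨ |x.2 - c.2| = r) : x ∈ sphere c r := by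
  simp only [mem_sphere, Prod.dist_eq, Real.dist_eq]
  refine le_antisymm (max_le h1 h2) ?_
  rcases h with h | h <;> simp [h]

theorem seg_vert {c : Pl} {r a : ℝ} (ha : |a| = r) {x : Pl}
    (hx : x ∈ segment ℝ (c.1 + a, c.2) (c.1 + a, c.2 + r)) : x ∈ sphere c r := by
  obtain ⟨u, v, hu, hv, huv, rfl⟩ := hx
  have e1 : (u • (c.1 + a, c.2) + v • (c.1 + a, c.2 + r) : Pl).1 - c.1 = a := by
    simp only [Prod.fst_add, Prod.smul_fst, smul_eq_mul]; linear_combination (c.1 + a) * huv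
  have e2 : (u • (c.1 + a, c.2) + v • (c.1 + a, c.2 + r) : Pl).2 - c.2 = v * r := by
    simp only [Prod.snd_add, Prod.smul_snd, smul_eq_mul]; linear_combination c.2 * huv
  refine mem_sphere_of_abs (by rw [e1, ha]) ?_ (Or.inl (by rw [e1, ha]))
  have hr : 0 ≤ r := ha ▸ abs_nonneg a
  rw [e2, abs_of_nonneg (mul_nonneg hv hr)]
  nlinarith

theorem seg_top {c : Pl} {r : ℝ} (hr : 0 ≤ r) {x : Pl}
    (hx : x ∈ segment ℝ (c.1 - r, c.2 + r) (c.1 + r, c.2 + r)) : x ∈ sphere c r := by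
  obtain ⟨u, v, hu, hv, huv, rfl⟩ := hx
  have e1 : (u • (c.1 - r, c.2 + r) + v • (c.1 + r, c.2 + r) : Pl).1 - c.1 = (v - u) * r := by
    simp only [Prod.fst_add, Prod.smul_fst, smul_eq_mul]; linear_combination c.1 * huv
  have e2 : (u • (c.1 - r, c.2 + r) + v • (c.1 + r, c.2 + r) : Pl).2 - c.2 = r := by
    simp only [Prod.snd_add, Prod.smul_snd, smul_eq_mul]; linear_combination (c.2 + r) * huv
  refine mem_sphere_of_abs ?_ (by rw [e2, abs_of_nonneg hr]) (Or.inr (by rw [e2, abs_of_nonneg hr]))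
  rw [e1, abs_le]
  constructor <;> nlinarith

/-- Increment along a segment against a fixed linear map. -/
theorem segment_step {F : Pl → R3} {U : Set Pl} (hU : IsOpen U) (hF : ContDiffOn ℝ 2 F U)
    {A : Pl →L[ℝ] R3} {a b : Pl} {C D : ℝ} (hC : 0 ≤ C) (hsub : segment ℝ a b ⊆ U)
    (h2 : ∀ x ∈ segment ℝ a b, ‖fderiv ℝ (fderiv ℝ F) x‖ ≤ C)
    (ha : ‖fderiv ℝ F a - A‖ ≤ D) :
    ‖fderiv ℝ F b - A‖ ≤ D + C * ‖b - a‖ ∧
      ‖F b - F a - A (b - a)‖ ≤ (D + C * ‖b - a‖) * ‖b - a‖ := by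
  have hd : ∀ x ∈ segment ℝ a b, DifferentiableAt ℝ F x := fun x hx =>
    ((hF x (hsub hx)).contDiffAt (hU.mem_nhds (hsub hx))).differentiableAt (by norm_num)
  have hdd : ∀ x ∈ segment ℝ a b, DifferentiableAt ℝ (fderiv ℝ F) x := fun x hx =>
    (((hF x (hsub hx)).contDiffAt (hU.mem_nhds (hsub hx))).fderiv_right (m := 1)
      (by norm_num)).differentiableAt (by norm_num)
  have key : ∀ x ∈ segment ℝ a b, ‖fderiv ℝ F x - A‖ ≤ D + C * ‖b - a‖ := fun x hx => by
    have h := (convex_segment a b).norm_image_sub_le_of_norm_fderiv_le hdd h2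
      (left_mem_segment ℝ a b) hx
    have hxa : ‖x - a‖ ≤ ‖b - a‖ := by
      obtain ⟨t, ht, rfl⟩ := (segment_eq_image' ℝ a b) ▸ hx
      rw [add_sub_cancel_left, norm_smul, Real.norm_eq_abs, abs_of_nonneg ht.1]
      nlinarith [norm_nonneg (b - a), ht.2]
    calc ‖fderiv ℝ F x - A‖
        ≤ ‖fderiv ℝ F x - fderiv ℝ F a‖ + ‖fderiv ℝ F a - A‖ := norm_sub_le_norm_sub_add_norm_sub ..
      _ ≤ _ := by nlinarith [mul_le_mul_of_nonneg_left hxa hC]
  exact ⟨key b (right_mem_segment ℝ a b),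
    (convex_segment a b).norm_image_sub_le_of_norm_fderiv_le' hd key
      (left_mem_segment ℝ a b) (right_mem_segment ℝ a b)⟩

variable {m : Met} {U : Set Pl} {F : Pl → R3}

theorem norm_dF_e1 (hiso : IsIsometric m U F) {q : Pl} (hq : q ∈ U) :
    ‖fderiv ℝ F q (1, 0)‖ = Real.sqrt (m.e q) := by
  rw [← (hiso q hq).1, real_inner_self_eq_norm_sq, Real.sqrt_sq (norm_nonneg _)]

/-- The image of the horizontal segment is at most as long as the segment in the metric. -/
theorem chord_le (hU : IsOpen U) (hF : ContDiffOn ℝ 2 F U) (hiso : IsIsometric m U F)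
    {c : Pl} {r : ℝ} (hr : 0 ≤ r) (hQ : closedBall c r ⊆ U) :
    ‖F (c.1 + r, c.2) - F (c.1 + -r, c.2)‖
      ≤ ∫ t in (-r)..r, Real.sqrt (m.e (c.1 + t, c.2)) := by
  have hmem : ∀ t ∈ Set.uIcc (-r) r, ((c.1 + t, c.2) : Pl) ∈ U := fun t ht => hQ <| by
    rw [uIcc_of_le (by linarith)] at ht
    rw [mem_closedBall_iff_abs]
    exact ⟨by simpa [abs_le] using ht, by simpa using hr⟩
  have hd : ∀ t ∈ Set.uIcc (-r) r, HasDerivAt (fun s : ℝ => F (c.1 + s, c.2))
      (fderiv ℝ F (c.1 + t, c.2) (1, 0)) t := fun t ht =>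
    (((hF _ (hmem t ht)).contDiffAt (hU.mem_nhds (hmem t ht))).differentiableAt
      (by norm_num)).hasFDerivAt.comp_hasDerivAt t
      (((hasDerivAt_id t).const_add c.1).prodMk (hasDerivAt_const t c.2))
  have hc : ContinuousOn (fun t : ℝ => fderiv ℝ F (c.1 + t, c.2) (1, 0)) (Set.uIcc (-r) r) :=
    ((hF.continuousOn_fderiv_of_isOpen hU (by norm_num)).comp
      (Continuous.continuousOn (by fun_prop)) hmem).clm_apply continuousOn_const
  rw [← intervalIntegral.integral_eq_sub_of_hasDerivAt hd hc.intervalIntegrable]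
  refine (intervalIntegral.norm_integral_le_integral_norm (by linarith)).trans_eq ?_
  exact intervalIntegral.integral_congr fun t ht => norm_dF_e1 hiso (hmem t ht)

theorem spot_forces_curvature (hU : IsOpen U) (hF : ContDiffOn ℝ 2 F U) (hiso : IsIsometric m U F)
    {c : Pl} {r : ℝ} (hr : 0 < r) (hQ : closedBall c r ⊆ U)
    (hflat : ∀ x ∈ sphere c r, m.e x = 1) :
    ∃ x ∈ sphere c r, spotC m c r ≤ ‖fderiv ℝ (fderiv ℝ F) x‖ := by
  by_contra hne
  push Not at hne
  set C := spotC m c r with hC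
  set a : Pl := (c.1 + -r, c.2) with ha
  set b : Pl := (c.1 + -r, c.2 + r) with hb
  set d : Pl := (c.1 + r, c.2 + r) with hd
  set e : Pl := (c.1 + r, c.2) with he
  have habs : |(-r)| = r := by rw [abs_neg, abs_of_pos hr]
  have s1 : ∀ x ∈ segment ℝ a b, x ∈ sphere c r := fun x hx => seg_vert habs hx
  have s2 : ∀ x ∈ segment ℝ b d, x ∈ sphere c r := fun x hx => seg_top hr.le <| by
    simpa only [hb, hd, sub_eq_add_neg] using hx
  have s3 : ∀ x ∈ segment ℝ d e, x ∈ sphere c r := fun x hx =>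
    seg_vert (abs_of_pos hr) (segment_symm ℝ d e ▸ hx)
  have hS : sphere c r ⊆ U := sphere_subset_closedBall.trans hQ
  have ha' : a ∈ sphere c r := s1 a (left_mem_segment ℝ a b)
  have hC0 : 0 ≤ C := le_trans (norm_nonneg (fderiv ℝ (fderiv ℝ F) a)) (hne a ha').le
  obtain ⟨k1, i1⟩ := segment_step hU hF (A := fderiv ℝ F a) (D := 0) hC0
    (fun x hx => hS (s1 x hx)) (fun x hx => (hne x (s1 x hx)).le) (by simp)
  obtain ⟨k2, i2⟩ := segment_step hU hF hC0 (fun x hx => hS (s2 x hx))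
    (fun x hx => (hne x (s2 x hx)).le) k1
  obtain ⟨-, i3⟩ := segment_step hU hF hC0 (fun x hx => hS (s3 x hx))
    (fun x hx => (hne x (s3 x hx)).le) k2
  have n1 : ‖b - a‖ = r := by simp [ha, hb, Prod.norm_def, abs_of_pos hr, hr.le]
  have n2 : ‖d - b‖ = 2 * r := by
    have : d - b = ((2 * r, 0) : Pl) := by ext <;> simp [hd, hb] ; ring
    rw [this]; simp [Prod.norm_def, abs_of_pos hr, hr.le]
  have n3 : ‖e - d‖ = r := by simp [he, hd, Prod.norm_def, abs_of_pos hr, hr.le]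
  rw [n1] at i1; rw [n1, n2] at i2; rw [n1, n2, n3] at i3
  have hsum : ‖F e - F a - fderiv ℝ F a (e - a)‖ ≤ 11 * C * r ^ 2 := by
    have : F e - F a - fderiv ℝ F a (e - a) =
        (F b - F a - fderiv ℝ F a (b - a)) + (F d - F b - fderiv ℝ F a (d - b)) +
          (F e - F d - fderiv ℝ F a (e - d)) := by simp only [map_sub]; abel
    rw [this]
    refine (norm_add₃_le).trans ?_
    linarith [i1, i2, i3]
  have hA : ‖fderiv ℝ F a (e - a)‖ = 2 * r := by
    have : e - a = (2 * r) • ((1, 0) : Pl) := by ext <;> simp [he, ha] ; ring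
    rw [this, map_smul, norm_smul, norm_dF_e1 hiso (hS ha'), hflat a ha', Real.sqrt_one, mul_one,
      Real.norm_eq_abs, abs_of_pos (by linarith)]
  have hlen := chord_le hU hF hiso hr.le hQ
  have h3 : ‖fderiv ℝ F a (e - a)‖ ≤
      ‖F e - F a‖ + ‖F e - F a - fderiv ℝ F a (e - a)‖ := by
    have := norm_sub_le (F e - F a) (F e - F a - fderiv ℝ F a (e - a))
    rwa [sub_sub_cancel] at this
  have hpos : 0 < C := lt_of_le_of_lt (norm_nonneg (fderiv ℝ (fderiv ℝ F) a)) (hne a ha')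
  have hI : (∫ t in (-r)..r, Real.sqrt (m.e (c.1 + t, c.2))) = 2 * r - C * (12 * r ^ 2) := by
    rw [hC, spotC, div_mul_cancel₀ _ (by positivity)]; ring
  rw [hI] at hlen
  nlinarith [mul_pos hpos (pow_pos hr 2)]

theorem spotC_pos {c : Pl} {r : ℝ} (hr : 0 < r) (hc : Continuous m.e)
    (hle : ∀ t ∈ Set.Icc (-r) r, m.e (c.1 + t, c.2) ≤ 1) (hlt : m.e c < 1) :
    0 < spotC m c r := by
  refine div_pos (sub_pos.2 ?_) (by positivity)
  calc (∫ t in (-r)..r, Real.sqrt (m.e (c.1 + t, c.2))) < ∫ _ in (-r)..r, (1 : ℝ) := by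
        refine intervalIntegral.integral_lt_integral_of_continuousOn_of_le_of_exists_lt (by linarith)
          (Continuous.continuousOn (by fun_prop)) continuousOn_const
          (fun t ht => Real.sqrt_le_one.2 (hle t (Ioc_subset_Icc_self ht))) ⟨0, ⟨by linarith, hr.le⟩, ?_⟩
        rw [add_zero, Real.sqrt_lt' one_pos]; simpa using hlt
    _ = 2 * r := by simp; ring

end Vale.Agent.P229
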